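import Mathlib

/-!
# P237: even concave functions on a symmetric interval
-/

namespace Vale.Agent.P237.Petty

open MeasureTheory Set

/-- An even concave function decreases away from the origin. -/
theorem antitoneOn_of_concave_even {f : ℝ → ℝ} (hf : ConcaveOn ℝ (Icc (-1) 1) f)
    (he : ∀ t, f (-t) = f t) : AntitoneOn f (Icc 0 1) := by
  intro a ha b hb hab
  rcases hb.1.eq_or_lt with hb0 | hb0
  · rw [show a = b by linarith [ha.1]]
  set p := (1 - a / b) / 2
  have hp : 0 ≤ p := div_nonneg (sub_nonneg.2 ((div_le_one hb0).2 hab)) zero_le_two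
  have hq : 0 ≤ 1 - p := by
    have : 0 ≤ a / b := div_nonneg ha.1 hb0.le
    simp only [p]
    linarith
  have h := hf.2 (show -b ∈ Icc (-1 : ℝ) 1 from ⟨by linarith [hb.2], by linarith⟩)
    (show b ∈ Icc (-1 : ℝ) 1 from ⟨by linarith, hb.2⟩) hp hq (by ring)
  simp only [smul_eq_mul, he] at h
  have e : p * -b + (1 - p) * b = a := by simp only [p]; field_simp; ring
  rw [e] at h
  linarith

/-- The integral of an even function over a symmetric interval. -/
theorem integral_even {g : ℝ → ℝ} (he : ∀ t, g (-t) = g t)
    (hi : IntervalIntegrable g volume (-1) 1) :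
    ∫ t in (-1)..1, g t = 2 * ∫ t in (0)..1, g t := by
  have h1 : IntervalIntegrable g volume (-1) 0 := hi.mono_set (by
    rw [uIcc_of_le (by norm_num), uIcc_of_le (by norm_num)]
    exact Icc_subset_Icc le_rfl (by norm_num))
  have h2 : IntervalIntegrable g volume 0 1 := hi.mono_set (by
    rw [uIcc_of_le (by norm_num), uIcc_of_le (by norm_num)]
    exact Icc_subset_Icc (by norm_num) le_rfl)
  rw [← intervalIntegral.integral_add_adjacent_intervals h1 h2, two_mul]
  congr 1
  have := intervalIntegral.integral_comp_neg g (a := 0) (b := 1)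
  simp only [he, neg_zero] at this
  exact this.symm

end Vale.Agent.P237.Petty
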