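import Vale.Agent.P237.Petty.LemmaThreePoly

/-!
# P237: the one dimensional profile inequality in dimension three

If `f` is antitone on `[0,1]`, lies above the quarter circle `√(1 - t²)` and satisfies
`∫ f⁴ ≤ 4 ∫ t² f²`, then `(∫ f)² ≥ (3π²/32) ∫ f²`, with equality only for the quarter circle.

The proof writes `g = f - √(1-t²)`, uses `(∫ g)² = 2 ∫ g(t) ∫_0^t g`, bounds the inner integral
from below by monotonicity of `f`, and integrates the pointwise polynomial inequality
`Three.margin_ge`.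
-/

namespace Vale.Agent.P237.Petty

open MeasureTheory Set Real intervalIntegral
open scoped Interval

namespace Three

/-- The quarter circle. -/
noncomputable def circ (t : ℝ) : ℝ := √(1 - t ^ 2)

theorem continuous_circ : Continuous circ := by unfold circ; fun_prop

theorem circ_nonneg (t : ℝ) : 0 ≤ circ t := Real.sqrt_nonneg _

theorem circ_sq {t : ℝ} (ht : t ∈ Icc (0 : ℝ) 1) : circ t ^ 2 = 1 - t ^ 2 := by
  unfold circ
  rw [sq_sqrt]
  nlinarith [ht.1, ht.2]

theorem integral_circ : ∫ t in (0 : ℝ)..1, circ t = π / 4 := by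
  have h : ∫ t in (-1 : ℝ)..1, circ t = π / 2 := integral_sqrt_one_sub_sq
  have hi : ∀ a b : ℝ, IntervalIntegrable circ volume a b := fun a b =>
    continuous_circ.intervalIntegrable a b
  have hneg : ∫ t in (-1 : ℝ)..0, circ t = ∫ t in (0 : ℝ)..1, circ t := by
    have := intervalIntegral.integral_comp_neg (a := (0 : ℝ)) (b := 1) circ
    simp only [neg_zero] at this
    rw [← this]
    simp [circ]
  rw [← integral_add_adjacent_intervals (hi (-1) 0) (hi 0 1), hneg] at h
  linarith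

theorem integral_circ_sq : ∫ t in (0 : ℝ)..1, circ t ^ 2 = 2 / 3 := by
  rw [integral_congr (g := fun t : ℝ => 1 - t ^ 2) fun t ht =>
    circ_sq (uIcc_of_le (zero_le_one' ℝ) ▸ ht)]
  rw [intervalIntegral.integral_sub (by simp) (by simp)]
  norm_num

theorem integral_circ_defect :
    ∫ t in (0 : ℝ)..1, (circ t ^ 4 - 4 * (t ^ 2 * circ t ^ 2)) = 0 := by
  rw [integral_congr (g := fun t : ℝ => 1 - 6 * t ^ 2 + 5 * t ^ 4) (fun t ht => by
    have h := circ_sq (uIcc_of_le (zero_le_one' ℝ) ▸ ht)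
    rw [show circ t ^ 4 = (circ t ^ 2) ^ 2 by ring, h]
    ring)]
  rw [intervalIntegral.integral_add (Continuous.intervalIntegrable (by fun_prop) _ _)
      (Continuous.intervalIntegrable (by fun_prop) _ _),
    intervalIntegral.integral_sub (by simp) (Continuous.intervalIntegrable (by fun_prop) _ _)]
  norm_num

/-- `(∫ g)² = 2 ∫ g(t) ∫_0^t g` when `g` is continuous off a countable set. -/
theorem two_integral_mul_primitive {g : ℝ → ℝ} {s : Set ℝ} (hs : s.Countable)
    (hc : ∀ x ∈ Ioo (0 : ℝ) 1 \ s, ContinuousAt g x)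
    (hi : IntervalIntegrable g volume 0 1) :
    2 * ∫ t in (0 : ℝ)..1, g t * ∫ u in (0 : ℝ)..t, g u = (∫ t in (0 : ℝ)..1, g t) ^ 2 := by
  set G : ℝ → ℝ := fun t => ∫ u in (0 : ℝ)..t, g u with hG
  have hGc : ContinuousOn G [[(0 : ℝ), 1]] := continuousOn_primitive_interval' hi left_mem_uIcc
  have hd : ∀ x ∈ Ioo (0 : ℝ) 1 \ s, HasDerivAt (fun t => G t ^ 2) (2 * (g x * G x)) x := by
    intro x hx
    have hsub : IntervalIntegrable g volume 0 x := by
      refine hi.mono_set ?_
      rw [uIcc_of_le hx.1.1.le, uIcc_of_le zero_le_one]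
      exact Icc_subset_Icc_right hx.1.2.le
    have hm : StronglyMeasurableAtFilter g (nhds x) volume :=
      ⟨Ioc 0 1, Ioc_mem_nhds hx.1.1 hx.1.2, hi.1.aestronglyMeasurable⟩
    have h1 : HasDerivAt G (g x) x := integral_hasDerivAt_right hsub hm (hc x hx)
    have h2 := h1.fun_pow 2
    refine h2.congr_deriv ?_
    push_cast
    ring
  have h := MeasureTheory.integral_eq_of_hasDerivAt_off_countable_of_le (fun t => G t ^ 2)
    (fun t => 2 * (g t * G t)) zero_le_one hs (by
      have := hGc.pow 2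
      rwa [uIcc_of_le (zero_le_one' ℝ)] at this) hd ((hi.mul_continuousOn hGc).const_mul 2)
  rw [intervalIntegral.integral_const_mul] at h
  simpa [hG] using h

/-- The parabola type majorant of the quarter circle. -/
theorem circ_le {s : ℝ} (hs : s ∈ Icc (0 : ℝ) 1) : circ s ≤ 1 - s ^ 2 / 2 - s ^ 4 / 8 := by
  unfold circ
  rw [Real.sqrt_le_iff]
  have h2 : s ^ 2 ≤ 1 := pow_le_one₀ hs.1 hs.2
  constructor <;> nlinarith [sq_nonneg s, pow_nonneg hs.1 6, pow_nonneg hs.1 8]

theorem key_constants : (2546478 / 1000000 : ℝ) ≤ 8 / π ∧ (32422 / 10000 : ℝ) ≤ 32 / π ^ 2 := by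
  have h := Real.pi_lt_d6
  have hp := Real.pi_pos
  refine ⟨(le_div_iff₀ hp).2 (by nlinarith), (le_div_iff₀ (by positivity)).2 ?_⟩
  nlinarith [mul_self_lt_mul_self hp.le h]

variable {f : ℝ → ℝ}

theorem intervalIntegrable_pow (hmono : AntitoneOn f (Icc 0 1))
    (hf : ∀ t ∈ Icc (0 : ℝ) 1, 0 ≤ f t) (n : ℕ) :
    IntervalIntegrable (fun t => f t ^ n) volume 0 1 := by
  refine AntitoneOn.intervalIntegrable ?_
  rw [uIcc_of_le (zero_le_one' ℝ)]
  exact fun a ha b hb hab => pow_le_pow_left₀ (hf b hb) (hmono ha hb hab) n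

/-- A quantitative form of the profile inequality. -/
theorem profile_stability (hmono : AntitoneOn f (Icc 0 1))
    (hge : ∀ t ∈ Icc (0 : ℝ) 1, circ t ≤ f t)
    (hM : ∫ t in (0 : ℝ)..1, f t ^ 4 ≤ 4 * ∫ t in (0 : ℝ)..1, t ^ 2 * f t ^ 2) :
    1 / 250 * ∫ t in (0 : ℝ)..1, (f t - circ t)
      ≤ 16 / π ^ 2 * (∫ t in (0 : ℝ)..1, f t) ^ 2 - 3 / 2 * ∫ t in (0 : ℝ)..1, f t ^ 2 := by
  have hf : ∀ t ∈ Icc (0 : ℝ) 1, 0 ≤ f t := fun t ht => (circ_nonneg t).trans (hge t ht)
  have i1 : IntervalIntegrable f volume 0 1 := by simpa using intervalIntegrable_pow hmono hf 1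
  have i2 := intervalIntegrable_pow hmono hf 2
  have i4 := intervalIntegrable_pow hmono hf 4
  have hcq : ∀ n : ℕ, IntervalIntegrable (fun t => circ t ^ n) volume 0 1 := fun n =>
    (continuous_circ.pow n).intervalIntegrable 0 1
  have iq : IntervalIntegrable circ volume 0 1 := continuous_circ.intervalIntegrable 0 1
  have it2 : IntervalIntegrable (fun t => t ^ 2 * f t ^ 2) volume 0 1 :=
    i2.continuousOn_mul (continuous_pow 2).continuousOn
  have idef : IntervalIntegrable (fun t => f t ^ 4 - 4 * (t ^ 2 * f t ^ 2)) volume 0 1 :=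
    i4.sub (it2.const_mul 4)
  have idefq : IntervalIntegrable (fun t => circ t ^ 4 - 4 * (t ^ 2 * circ t ^ 2)) volume 0 1 :=
    (Continuous.intervalIntegrable (by have := continuous_circ; fun_prop) _ _)
  set g : ℝ → ℝ := fun t => f t - circ t with hg
  have ig : IntervalIntegrable g volume 0 1 := i1.sub iq
  set G : ℝ → ℝ := fun t => ∫ u in (0 : ℝ)..t, g u with hG
  have igG : IntervalIntegrable (fun t => g t * G t) volume 0 1 :=
    ig.mul_continuousOn (continuousOn_primitive_interval' ig left_mem_uIcc)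
  have hsq : 2 * ∫ t in (0 : ℝ)..1, g t * G t = (∫ t in (0 : ℝ)..1, g t) ^ 2 := by
    refine two_integral_mul_primitive hmono.countable_not_continuousWithinAt (fun x hx => ?_) ig
    refine ContinuousAt.sub ?_ continuous_circ.continuousAt
    by_contra hne
    exact hx.2 ⟨Ioo_subset_Icc_self hx.1,
      fun hw => hne (hw.continuousAt (Icc_mem_nhds hx.1.1 hx.1.2))⟩
  -- pointwise inequality
  have hpt : ∀ t ∈ Icc (0 : ℝ) 1, 1 / 250 * g t ≤
      8 / π * g t - 3 / 2 * (f t ^ 2 - circ t ^ 2)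
        + 31 / 200 * ((f t ^ 4 - 4 * (t ^ 2 * f t ^ 2))
          - (circ t ^ 4 - 4 * (t ^ 2 * circ t ^ 2)))
        + 32 / π ^ 2 * (g t * G t) := by
    intro t ht
    have hg0 : 0 ≤ g t := sub_nonneg.2 (hge t ht)
    have hsub : ∀ a b : ℝ, 0 ≤ a → a ≤ b → b ≤ 1 → IntervalIntegrable g volume a b :=
      fun a b ha hab hb => ig.mono_set (by
        rw [uIcc_of_le hab, uIcc_of_le zero_le_one]; exact Icc_subset_Icc ha hb)
    have hGnn : ∀ a b : ℝ, 0 ≤ a → a ≤ b → b ≤ 1 → 0 ≤ ∫ u in a..b, g u :=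
      fun a b ha hab hb => intervalIntegral.integral_nonneg hab fun u hu =>
        sub_nonneg.2 (hge u ⟨ha.trans hu.1, hu.2.trans hb⟩)
    have hL : t / 2 * (g t + circ t - 1) + 7 / 48 * t ^ 3 + 31 / 1280 * t ^ 5 ≤ G t := by
      have h1 : G t = (∫ u in (0 : ℝ)..t / 2, g u) + ∫ u in (t / 2)..t, g u :=
        (integral_add_adjacent_intervals (hsub 0 (t / 2) le_rfl (by linarith [ht.1])
          (by linarith [ht.1, ht.2])) (hsub (t / 2) t (by linarith [ht.1]) (by linarith [ht.1]) ht.2)).symm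
      have h2 := hGnn 0 (t / 2) le_rfl (by linarith [ht.1]) (by linarith [ht.1, ht.2])
      have h3 : ∫ u in (t / 2)..t, (f t - 1 + u ^ 2 / 2 + u ^ 4 / 8) ≤ ∫ u in (t / 2)..t, g u := by
        refine intervalIntegral.integral_mono_on (by linarith [ht.1])
          (Continuous.intervalIntegrable (by fun_prop) _ _)
          (hsub _ _ (by linarith [ht.1]) (by linarith [ht.1]) ht.2) fun u hu => ?_
        have hu' : u ∈ Icc (0 : ℝ) 1 := ⟨by linarith [hu.1, ht.1], by linarith [hu.2, ht.2]⟩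
        have := hmono hu' ht hu.2
        have := circ_le hu'
        simp only [hg]
        linarith
      have h4 : ∫ u in (t / 2)..t, (f t - 1 + u ^ 2 / 2 + u ^ 4 / 8)
          = t / 2 * (g t + circ t - 1) + 7 / 48 * t ^ 3 + 31 / 1280 * t ^ 5 := by
        rw [intervalIntegral.integral_add (Continuous.intervalIntegrable (by fun_prop) _ _)
            (Continuous.intervalIntegrable (by fun_prop) _ _),
          intervalIntegral.integral_add (Continuous.intervalIntegrable (by fun_prop) _ _)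
            (Continuous.intervalIntegrable (by fun_prop) _ _)]
        simp only [intervalIntegral.integral_div, intervalIntegral.integral_const, integral_pow,
          smul_eq_mul, hg]
        ring
      linarith
    have hM' := margin_ge ht.1 (circ_nonneg t)
      (by rw [circ_sq ht]; ring : t ^ 2 + circ t ^ 2 = 1) hg0
    have hG0 : 0 ≤ G t := hGnn 0 t le_rfl ht.1 ht.2
    have hK : 32422 / 10000 * (g t * (t / 2 * (g t + circ t - 1) + 7 / 48 * t ^ 3
        + 31 / 1280 * t ^ 5)) ≤ 32 / π ^ 2 * (g t * G t) :=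
      le_trans (mul_le_mul_of_nonneg_left (mul_le_mul_of_nonneg_left hL hg0) (by norm_num))
        (mul_le_mul_of_nonneg_right key_constants.2 (mul_nonneg hg0 hG0))
    have h8 : 2546478 / 1000000 * g t ≤ 8 / π * g t :=
      mul_le_mul_of_nonneg_right key_constants.1 hg0
    have hfe : f t = g t + circ t := by simp [hg]
    have hmul := mul_le_mul_of_nonneg_left hM' hg0
    unfold margin at hmul
    rw [hfe]
    linear_combination hmul + hK + h8
  -- integrate
  have hint := intervalIntegral.integral_mono_on zero_le_one (ig.const_mul (1 / 250))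
    ((((ig.const_mul (8 / π)).sub ((i2.sub (hcq 2)).const_mul (3 / 2))).add
      ((idef.sub idefq).const_mul (31 / 200))).add (igG.const_mul (32 / π ^ 2))) hpt
  rw [intervalIntegral.integral_const_mul,
    intervalIntegral.integral_add (((ig.const_mul (8 / π)).sub
      ((i2.sub (hcq 2)).const_mul (3 / 2))).add ((idef.sub idefq).const_mul (31 / 200)))
      (igG.const_mul (32 / π ^ 2)),
    intervalIntegral.integral_add ((ig.const_mul (8 / π)).sub
      ((i2.sub (hcq 2)).const_mul (3 / 2))) ((idef.sub idefq).const_mul (31 / 200)),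
    intervalIntegral.integral_sub (ig.const_mul (8 / π)) ((i2.sub (hcq 2)).const_mul (3 / 2)),
    intervalIntegral.integral_const_mul, intervalIntegral.integral_const_mul,
    intervalIntegral.integral_const_mul, intervalIntegral.integral_const_mul,
    intervalIntegral.integral_sub i2 (hcq 2), intervalIntegral.integral_sub idef idefq,
    integral_circ_sq, integral_circ_defect] at hint
  have hdef : ∫ t in (0 : ℝ)..1, (f t ^ 4 - 4 * (t ^ 2 * f t ^ 2)) ≤ 0 := by
    rw [intervalIntegral.integral_sub i4 (it2.const_mul 4), intervalIntegral.integral_const_mul]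
    linarith
  have hG1 : ∫ t in (0 : ℝ)..1, g t = (∫ t in (0 : ℝ)..1, f t) - π / 4 := by
    simp only [hg]
    rw [intervalIntegral.integral_sub i1 iq, integral_circ]
  rw [hG1] at hint hsq
  rw [hG1]
  have e : 32 / π ^ 2 * ∫ t in (0 : ℝ)..1, g t * G t
      = 16 / π ^ 2 * ((∫ t in (0 : ℝ)..1, f t) - π / 4) ^ 2 := by
    rw [← hsq]; ring
  have e2 : 16 / π ^ 2 * ((∫ t in (0 : ℝ)..1, f t) - π / 4) ^ 2
      + 8 / π * ((∫ t in (0 : ℝ)..1, f t) - π / 4) + 1
      = 16 / π ^ 2 * (∫ t in (0 : ℝ)..1, f t) ^ 2 := by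
    have := Real.pi_pos
    field_simp
    ring
  linarith

end Three

open Three in
/-- The profile inequality behind Petty's projection inequality in dimension three. -/
theorem profile_three {f : ℝ → ℝ} (hmono : AntitoneOn f (Icc 0 1))
    (hge : ∀ t ∈ Icc (0 : ℝ) 1, √(1 - t ^ 2) ≤ f t)
    (hM : ∫ t in (0 : ℝ)..1, f t ^ 4 ≤ 4 * ∫ t in (0 : ℝ)..1, t ^ 2 * f t ^ 2) :
    3 * π ^ 2 / 32 * ∫ t in (0 : ℝ)..1, f t ^ 2 ≤ (∫ t in (0 : ℝ)..1, f t) ^ 2 := by
  have h := profile_stability hmono hge hM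
  have h0 : 0 ≤ ∫ t in (0 : ℝ)..1, (f t - circ t) :=
    intervalIntegral.integral_nonneg zero_le_one fun t ht => sub_nonneg.2 (hge t ht)
  have hp : 0 < π ^ 2 := by positivity
  have h' : 3 / 2 * (∫ t in (0 : ℝ)..1, f t ^ 2) ≤
      16 / π ^ 2 * (∫ t in (0 : ℝ)..1, f t) ^ 2 := by linarith
  have h'' := mul_le_mul_of_nonneg_left h' (show (0 : ℝ) ≤ π ^ 2 / 16 by positivity)
  have e : π ^ 2 / 16 * (16 / π ^ 2 * (∫ t in (0 : ℝ)..1, f t) ^ 2)
      = (∫ t in (0 : ℝ)..1, f t) ^ 2 := by field_simp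
  linarith

open Three in
/-- Equality forces the quarter circle. -/
theorem profile_three_eq {f : ℝ → ℝ} (hmono : AntitoneOn f (Icc 0 1))
    (hge : ∀ t ∈ Icc (0 : ℝ) 1, √(1 - t ^ 2) ≤ f t)
    (hM : ∫ t in (0 : ℝ)..1, f t ^ 4 ≤ 4 * ∫ t in (0 : ℝ)..1, t ^ 2 * f t ^ 2)
    (h : (∫ t in (0 : ℝ)..1, f t) ^ 2 ≤ 3 * π ^ 2 / 32 * ∫ t in (0 : ℝ)..1, f t ^ 2) :
    ∀ t ∈ Ioo (0 : ℝ) 1, f t = √(1 - t ^ 2) := by
  have hs := profile_stability hmono hge hM
  have hp : 0 < π ^ 2 := by positivity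
  have hzero : ∫ u in (0 : ℝ)..1, (f u - circ u) ≤ 0 := by
    have : 16 / π ^ 2 * (∫ t in (0 : ℝ)..1, f t) ^ 2 ≤
        3 / 2 * ∫ t in (0 : ℝ)..1, f t ^ 2 := by
      rw [div_mul_eq_mul_div, div_le_iff₀ hp]
      linarith
    linarith
  intro t ht
  refine le_antisymm (not_lt.1 fun hlt => ?_) (hge t (Ioo_subset_Icc_self ht))
  -- a point `c < t` with `circ c < f t`
  obtain ⟨c, hct, hc0, hc⟩ : ∃ c, c < t ∧ 0 ≤ c ∧ circ c < f t := by
    have hev : ∀ᶠ c in nhdsWithin t (Iio t), circ c < f t :=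
      (continuous_circ.continuousAt.mono_left nhdsWithin_le_nhds).eventually_lt_const hlt
    obtain ⟨c, hc, hmem⟩ := (hev.and (Ioo_mem_nhdsLT ht.1)).exists
    exact ⟨c, hmem.2, hmem.1.le, hc⟩
  have hi : IntervalIntegrable (fun u => f u - circ u) volume 0 1 := by
    have : IntervalIntegrable f volume 0 1 := by
      simpa using intervalIntegrable_pow hmono
        (fun u hu => (circ_nonneg u).trans (hge u hu)) 1
    exact this.sub (continuous_circ.intervalIntegrable 0 1)
  have hlow : (t - c) * (f t - circ c) ≤ ∫ u in c..t, (f u - circ u) := by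
    rw [← smul_eq_mul, ← intervalIntegral.integral_const]
    refine intervalIntegral.integral_mono_on hct.le intervalIntegrable_const
      (hi.mono_set (by rw [uIcc_of_le hct.le, uIcc_of_le zero_le_one]
                       exact Icc_subset_Icc hc0 ht.2.le)) fun u hu => ?_
    have hu' : u ∈ Icc (0 : ℝ) 1 := ⟨hc0.trans hu.1, hu.2.trans ht.2.le⟩
    have h1 := hmono hu' (Ioo_subset_Icc_self ht) hu.2
    have h2 : circ u ≤ circ c := by
      unfold circ
      exact Real.sqrt_le_sqrt (by nlinarith [hu.1, hc0])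
    linarith
  have hle : ∫ u in c..t, (f u - circ u) ≤ ∫ u in (0 : ℝ)..1, (f u - circ u) := by
    refine intervalIntegral.integral_mono_interval hc0 hct.le ht.2.le ?_ hi
    refine (ae_restrict_mem measurableSet_Ioc).mono fun u hu => ?_
    exact sub_nonneg.2 (hge u ⟨hu.1.le, hu.2⟩)
  have : 0 < (t - c) * (f t - circ c) := mul_pos (sub_pos.2 hct) (sub_pos.2 hc)
  linarith

end Vale.Agent.P237.Petty
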