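import Vale.Agent.P237.Petty.Sharp
import Vale.Agent.P237.Petty.LemmaThree
import Vale.Agent.P237.Petty.Even

/-!
# The three-dimensional case
-/

namespace Vale.Agent.P237.Petty

open MeasureTheory Set Module
open scoped RealInnerProductSpace Pointwise

/-- The profile lemma in dimension three. -/
theorem profileLemma_one : ProfileLemma 1 := by
  intro f hconc heven hge hint hM
  have hmono := antitoneOn_of_concave_even hconc heven
  have hge' : ∀ t ∈ Icc (0 : ℝ) 1, √(1 - t ^ 2) ≤ f t := fun t ht =>
    hge t ⟨by linarith [ht.1], ht.2⟩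
  have e4 := integral_even (g := fun t => f t ^ 4) (fun t => by simp only [heven]) (hint 4)
  have e2 := integral_even (g := fun t => f t ^ 2) (fun t => by simp only [heven]) (hint 2)
  have e1 := integral_even (g := fun t => f t ^ 1) (fun t => by simp only [heven]) (hint 1)
  have et := integral_even (g := fun t => t ^ 2 * f t ^ 2) (fun t => by simp only [heven, neg_sq])
    ((hint 2).continuousOn_mul (by fun_prop))
  norm_num at hM
  rw [e4, et] at hM
  have hM' : ∫ t in (0 : ℝ)..1, f t ^ 4 ≤ 4 * ∫ t in (0 : ℝ)..1, t ^ 2 * f t ^ 2 := by linarith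
  simp only [pow_one] at e1
  have hc1 : circ 1 = Real.pi / 2 := by rw [circ_eq, kappa_two, kappa_one]
  have hc2 : circ 2 = 4 / 3 := by
    rw [circ_eq, kappa_three, kappa_two]
    field_simp
  have h := profile_three hmono hge' hM'
  refine ⟨?_, fun heq => ?_⟩
  · simp only [show 1 + 1 = 2 from rfl, pow_one, hc1, hc2]
    rw [e1, e2]
    linarith
  · simp only [show 1 + 1 = 2 from rfl, pow_one, hc1, hc2] at heq ⊢
    rw [e1, e2] at heq
    have hpt := profile_three_eq hmono hge' hM' (le_of_eq (by linarith))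
    have hc : ∫ t in (0 : ℝ)..1, f t ^ 2 = ∫ t in (0 : ℝ)..1, √(1 - t ^ 2) ^ 2 := by
      refine intervalIntegral.integral_congr_ae ?_
      have h1 : ∀ᵐ t : ℝ ∂volume, t ∈ ({1} : Set ℝ)ᶜ := compl_mem_ae_iff.2 Real.volume_singleton
      filter_upwards [h1] with t ht htI
      rw [uIoc_of_le zero_le_one] at htI
      rw [hpt t ⟨htI.1, lt_of_le_of_ne htI.2 ht⟩]
    have hs := integral_even (g := fun t : ℝ => √(1 - t ^ 2) ^ 2) (fun t => by simp only [neg_sq])
      (Continuous.intervalIntegrable (by fun_prop) _ _)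
    rw [← hc2]
    show _ = circ 2
    rw [circ, hs, e2, hc]

/-- Petty's inequality in dimension three, with the equality case. -/
theorem petty_three {E : Type} [NormedAddCommGroup E] [InnerProductSpace ℝ E]
    [FiniteDimensional ℝ E] [MeasurableSpace E] [BorelSpace E] (hfin : finrank ℝ E = 3) {K : Set E}
    (hK : Body K) :
    cPetty 3 * volume.real K ^ 2 ≤ volume.real (projBody K) ∧
      (volume.real (projBody K) = cPetty 3 * volume.real K ^ 2 ↔
        ∃ (T : E ≃L[ℝ] E) (a : E), K = (fun x => a + x) '' (T '' Metric.closedBall 0 1)) := by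
  have hlem : ∀ p, 1 ≤ p → p + 2 ≤ 3 → ProfileLemma p := fun p h1 h2 => by
    rw [show p = 1 by omega]; exact profileLemma_one
  have h := petty_le 3 hlem 3 (by norm_num) le_rfl hfin K hK
  have hr : ratio K = volume.real (projBody K) / volume.real K ^ 2 := by rw [ratio, hfin]
  have hV : 0 < volume.real K ^ 2 := pow_pos hK.volume_pos 2
  refine ⟨?_, fun he => petty_eq 3 hlem le_rfl le_rfl hfin hK ?_, ?_⟩
  · rwa [hr, le_div_iff₀ hV] at h
  · rw [hr, he, mul_div_assoc, div_self hV.ne', mul_one]
  · rintro ⟨T, a, rfl⟩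
    have h1 := ratio_ellipsoid (by omega) T a
    rw [hr, hfin, div_eq_iff hV.ne'] at h1
    exact h1

end Vale.Agent.P237.Petty
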