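import Vale.Agent.P237.AllN.Defs

/-!
# Projection areas under linear maps

The homogeneous projection area is the volume of a piece of a cylinder cut out by any functional
equal to one on the direction, so it transforms like a volume.
-/

namespace Vale.Agent.P237.Petty

open MeasureTheory Set Module Vale.Agent.P237.AllN
open scoped RealInnerProductSpace ENNReal Pointwise

variable {E : Type*} [NormedAddCommGroup E] [InnerProductSpace ℝ E] [FiniteDimensional ℝ E]
  [MeasurableSpace E] [BorelSpace E]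

/-- The projection area, extended homogeneously. -/
noncomputable def homArea (K : Set E) (w : E) : ℝ := ‖w‖ * area K (‖w‖⁻¹ • w)

/-- The piece of the cylinder over `K` along `w` between two levels of a functional. -/
def cylPiece (K : Set E) (w : E) (φ : E →ₗ[ℝ] ℝ) : Set E :=
  {x | ∃ k ∈ K, ∃ s : ℝ, x = k + s • w ∧ φ x ∈ Icc (0 : ℝ) 1}

theorem homArea_zero (K : Set E) : homArea K (0 : E) = 0 := by simp [homArea]

theorem homArea_nonneg (K : Set E) (w : E) : 0 ≤ homArea K w :=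
  mul_nonneg (norm_nonneg w) (area_nonneg _ _)

theorem homArea_unit (K : Set E) {u : E} (hu : ‖u‖ = 1) : homArea K u = area K u := by
  simp [homArea, hu]

omit [MeasurableSpace E] [BorelSpace E] in
theorem isCompact_cylPiece {K : Set E} (hK : IsCompact K) {w : E} (φ : E →ₗ[ℝ] ℝ) (hφ : φ w = 1) :
    IsCompact (cylPiece K w φ) := by
  have hc : Continuous φ := φ.continuous_of_finiteDimensional
  have e : cylPiece K w φ = (fun p : E × ℝ => p.1 + (p.2 - φ p.1) • w) '' (K ×ˢ Icc (0 : ℝ) 1) := by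
    ext x
    constructor
    · rintro ⟨k, hk, s, rfl, h⟩
      refine ⟨(k, φ (k + s • w)), ⟨hk, h⟩, ?_⟩
      simp [hφ]
    · rintro ⟨⟨k, r⟩, ⟨hk, hr⟩, rfl⟩
      exact ⟨k, hk, r - φ k, rfl, by simpa [hφ] using hr⟩
  rw [e]
  exact (hK.prod isCompact_Icc).image (by fun_prop)

theorem volume_cylPiece {K : Set E} (hK : IsCompact K) {w : E} (φ : E →ₗ[ℝ] ℝ) (hφ : φ w = 1) :
    volume.real (cylPiece K w φ) = homArea K w := by
  have hw : w ≠ 0 := fun h => by simp [h] at hφ
  have hw0 : 0 < ‖w‖ := norm_pos_iff.2 hw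
  set v := ‖w‖⁻¹ • w with hv
  have hv1 : ‖v‖ = 1 := norm_smul_inv_norm hw
  have hwv : w = ‖w‖ • v := (smul_inv_smul₀ hw0.ne' w).symm
  have hφv : φ v = ‖w‖⁻¹ := by simp [hv, hφ]
  set P := (ℝ ∙ v)ᗮ.orthogonalProjectionOnto '' K with hP
  have hPc : IsCompact P := hK.image (ContinuousLinearMap.continuous _)
  have hline : ∀ y, volume {t : ℝ | glue v (y, t) ∈ cylPiece K w φ} =
      P.indicator (fun _ => ENNReal.ofReal ‖w‖) y := by
    intro y
    have hφg : ∀ t : ℝ, φ (glue v (y, t)) = φ y + t * ‖w‖⁻¹ := fun t => by simp [glue, hφv]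
    by_cases hy : y ∈ P
    · obtain ⟨k, hk, rfl⟩ := hy
      rw [indicator_of_mem (show _ ∈ P from mem_image_of_mem _ hk)]
      set a := φ ((ℝ ∙ v)ᗮ.orthogonalProjectionOnto k : E)
      have e : {t : ℝ | glue v ((ℝ ∙ v)ᗮ.orthogonalProjectionOnto k, t) ∈ cylPiece K w φ} =
          Icc (-a * ‖w‖) (‖w‖ - a * ‖w‖) := by
        ext t
        constructor
        · rintro ⟨k', hk', s, -, h⟩
          rw [hφg] at h
          obtain ⟨h1, h2⟩ := h
          have e1 : a * ‖w‖ + t = (a + t * ‖w‖⁻¹) * ‖w‖ := by field_simp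
          exact ⟨by nlinarith, by nlinarith⟩
        · rintro ⟨h1, h2⟩
          refine ⟨k, hk, (t - ⟪v, k⟫) * ‖w‖⁻¹, ?_, ?_⟩
          · have hg := glue_proj hv1 k
            simp only [glue] at hg ⊢
            rw [mul_smul, ← hv]
            linear_combination (norm := module) hg
          · rw [hφg]
            have e1 : a + t * ‖w‖⁻¹ = (a * ‖w‖ + t) * ‖w‖⁻¹ := by field_simp
            rw [e1]
            exact ⟨mul_nonneg (by linarith) (inv_nonneg.2 hw0.le),
              by rw [← div_eq_mul_inv, div_le_one hw0]; linarith⟩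
      rw [e, Real.volume_Icc]
      congr 1
      ring
    · rw [indicator_of_notMem hy]
      convert (measure_empty (μ := (volume : Measure ℝ))) using 2
      refine eq_empty_of_forall_notMem ?_
      rintro t ⟨k, hk, s, he, -⟩
      refine hy ⟨k, hk, ?_⟩
      have h := congrArg (ℝ ∙ v)ᗮ.orthogonalProjectionOnto he
      rw [proj_glue, map_add, map_smul, hwv, map_smul,
        Submodule.orthogonalProjectionOnto_orthogonalComplement_singleton_eq_zero v, smul_zero,
        smul_zero, add_zero] at h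
      exact h.symm
  rw [homArea, measureReal_def,
    volume_eq_lines hv1 (isCompact_cylPiece hK φ hφ).measurableSet, lintegral_congr hline,
    lintegral_indicator hPc.measurableSet, setLIntegral_const, ENNReal.toReal_mul,
    ENNReal.toReal_ofReal hw0.le]
  rfl

theorem homArea_map {K : Set E} (hK : IsCompact K) (T : E ≃ₗ[ℝ] E) (w : E) :
    homArea (T '' K) (T w) = |LinearMap.det (T : E →ₗ[ℝ] E)| * homArea K w := by
  rcases eq_or_ne w 0 with rfl | hw
  · simp [homArea_zero]
  set φ : E →ₗ[ℝ] ℝ := (‖w‖ ^ 2)⁻¹ • innerₛₗ ℝ w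
  have hφ : φ w = 1 := by
    simp [φ, norm_ne_zero_iff.2 hw]
  have hTc : Continuous T := (T : E →ₗ[ℝ] E).continuous_of_finiteDimensional
  set ψ : E →ₗ[ℝ] ℝ := φ.comp (T.symm : E →ₗ[ℝ] E)
  have hψ : ψ (T w) = 1 := by simp [ψ, hφ]
  have e : cylPiece (T '' K) (T w) ψ = T '' cylPiece K w φ := by
    ext x
    constructor
    · rintro ⟨_, ⟨k, hk, rfl⟩, s, rfl, h⟩
      exact ⟨k + s • w, ⟨k, hk, s, rfl, by simpa [ψ] using h⟩, by simp⟩
    · rintro ⟨_, ⟨k, hk, s, rfl, h⟩, rfl⟩
      exact ⟨T k, mem_image_of_mem T hk, s, by simp, by simpa [ψ] using h⟩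
  rw [← volume_cylPiece (hK.image hTc) ψ hψ, ← volume_cylPiece hK φ hφ, e, measureReal_def,
    show (T : E → E) '' cylPiece K w φ = (T : E →ₗ[ℝ] E) '' cylPiece K w φ from rfl,
    Measure.addHaar_image_linearMap, ENNReal.toReal_mul, ENNReal.toReal_ofReal (abs_nonneg _),
    measureReal_def]

theorem mem_projBody_iff (K : Set E) (y : E) :
    y ∈ projBody K ↔ ∀ w, ⟪y, w⟫ ≤ homArea K w := by
  refine ⟨fun h w => ?_, fun h u hu => by simpa [homArea_unit K hu] using h u⟩
  rcases eq_or_ne w 0 with rfl | hw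
  · simp [homArea_zero]
  have hu : ‖(‖w‖⁻¹ : ℝ) • w‖ = 1 := norm_smul_inv_norm hw
  have h1 := mul_le_mul_of_nonneg_left (h _ hu) (norm_nonneg w)
  calc ⟪y, w⟫ = ‖w‖ * ⟪y, (‖w‖⁻¹ : ℝ) • w⟫ := by
        rw [real_inner_smul_right]; field_simp [norm_ne_zero_iff.2 hw]
    _ ≤ _ := h1

/-- The projection body of a linear image. -/
theorem projBody_map {K : Set E} (hK : IsCompact K) (T : E ≃ₗ[ℝ] E) :
    projBody (T '' K) = |LinearMap.det (T : E →ₗ[ℝ] E)| •
      (LinearMap.adjoint (T.symm : E →ₗ[ℝ] E) '' projBody K) := by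
  set d := |LinearMap.det (T : E →ₗ[ℝ] E)| with hd
  have hd0 : 0 < d := abs_pos.2 T.isUnit_det'.ne_zero
  ext y
  rw [mem_smul_set_iff_inv_smul_mem₀ hd0.ne']
  constructor
  · intro hy
    refine ⟨LinearMap.adjoint (T : E →ₗ[ℝ] E) (d⁻¹ • y), (mem_projBody_iff _ _).2 fun w => ?_, ?_⟩
    · rw [LinearMap.adjoint_inner_left, real_inner_smul_left, inv_mul_le_iff₀ hd0]
      simpa [hd, homArea_map hK] using (mem_projBody_iff _ _).1 hy (T w)
    · refine ext_inner_right ℝ fun x => ?_
      rw [LinearMap.adjoint_inner_left, LinearMap.adjoint_inner_left]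
      simp
  · rintro ⟨z, hz, hzy⟩
    refine (mem_projBody_iff _ _).2 fun w => ?_
    have h1 : ⟪d⁻¹ • y, w⟫ = ⟪z, T.symm w⟫ := by
      rw [← hzy, LinearMap.adjoint_inner_left]; rfl
    have h2 := (mem_projBody_iff _ _).1 hz (T.symm w)
    have h3 := homArea_map hK T (T.symm w)
    rw [LinearEquiv.apply_symm_apply] at h3
    rw [real_inner_smul_left] at h1
    rw [h3, ← hd]
    calc ⟪y, w⟫ = d * (d⁻¹ * ⟪y, w⟫) := by field_simp
      _ ≤ d * homArea K (T.symm w) := by rw [h1]; exact mul_le_mul_of_nonneg_left h2 hd0.le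

theorem volume_projBody_map [Nontrivial E] {K : Set E} (hK : IsCompact K) (T : E ≃ₗ[ℝ] E) :
    volume.real (projBody (T '' K)) =
      |LinearMap.det (T : E →ₗ[ℝ] E)| ^ (finrank ℝ E - 1) * volume.real (projBody K) := by
  set d := |LinearMap.det (T : E →ₗ[ℝ] E)| with hd
  have hd0 : 0 < d := abs_pos.2 T.isUnit_det'.ne_zero
  have hdet : |LinearMap.det (LinearMap.adjoint (T.symm : E →ₗ[ℝ] E))| = d⁻¹ := by
    rw [← LinearMap.det_toMatrix (stdOrthonormalBasis ℝ E).toBasis,
      LinearMap.toMatrix_adjoint, Matrix.det_conjTranspose, LinearMap.det_toMatrix,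
      LinearEquiv.det_coe_symm, hd, ← abs_inv]
    simp
  rw [projBody_map hK T, measureReal_def, Measure.addHaar_smul, Measure.addHaar_image_linearMap,
    ENNReal.toReal_mul, ENNReal.toReal_mul, ENNReal.toReal_ofReal (abs_nonneg _),
    ENNReal.toReal_ofReal (abs_nonneg _), abs_of_nonneg (pow_nonneg hd0.le _), hdet,
    ← measureReal_def, ← mul_assoc]
  congr 1
  rw [← div_eq_mul_inv, div_eq_iff hd0.ne', ← pow_succ,
    Nat.sub_add_cancel (finrank_pos (R := ℝ) (M := E))]

theorem projBody_smul {K : Set E} (hK : IsCompact K) [Nontrivial E] {c : ℝ} (hc : 0 < c) :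
    projBody (c • K) = c ^ (finrank ℝ E - 1) • projBody K := by
  set T : E ≃ₗ[ℝ] E := LinearEquiv.smulOfNeZero ℝ E c hc.ne'
  have hT : (T : E →ₗ[ℝ] E) = c • LinearMap.id := by ext x; simp [T]
  have e : T '' K = c • K := by rw [← image_smul]; rfl
  have hTs : LinearMap.adjoint (T.symm : E →ₗ[ℝ] E) = c⁻¹ • LinearMap.id := by
    have : (T.symm : E →ₗ[ℝ] E) = c⁻¹ • LinearMap.id := by
      ext x; simp [T, Units.smul_def]
    rw [this, map_smulₛₗ, LinearMap.adjoint_id]
    simp
  rw [← e, projBody_map hK T, hT, LinearMap.det_smul, LinearMap.det_id, mul_one,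
    abs_of_nonneg (pow_nonneg hc.le _), hTs]
  rw [show (c⁻¹ • LinearMap.id : E →ₗ[ℝ] E) '' projBody K = c⁻¹ • projBody K by
    rw [← image_smul]; rfl, smul_smul]
  congr 1
  rw [← div_eq_mul_inv, div_eq_iff hc.ne', ← pow_succ,
    Nat.sub_add_cancel (finrank_pos (R := ℝ) (M := E))]

end Vale.Agent.P237.Petty
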