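import Vale.Agent.P237.AllN.Poly

/-!
# The equality case of Brunn–Minkowski for a midpoint

If two convex bodies and their midpoint body have the same volume, then in each direction the two
mass distributions agree up to a shift, the shift is linear in the direction, and so the bodies are
translates.
-/

namespace Vale.Agent.P237.Petty

open MeasureTheory Set Module Filter
open scoped RealInnerProductSpace Pointwise Topology
open Vale.Agent.P237.AllN

variable {E : Type*} [NormedAddCommGroup E] [InnerProductSpace ℝ E] [FiniteDimensional ℝ E]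
  [MeasurableSpace E] [BorelSpace E]

/-- The part below a level. -/
noncomputable def cap (v : E) (X : Set E) (t : ℝ) : ℝ := volume.real (X ∩ {x | ⟪v, x⟫ ≤ t})

omit [FiniteDimensional ℝ E] [MeasurableSpace E] [BorelSpace E] in
theorem isClosed_below (v : E) (t : ℝ) : IsClosed {x : E | ⟪v, x⟫ ≤ t} :=
  isClosed_le (continuous_const.inner continuous_id) continuous_const

omit [FiniteDimensional ℝ E] [MeasurableSpace E] [BorelSpace E] in
theorem isClosed_above (v : E) (t : ℝ) : IsClosed {x : E | t ≤ ⟪v, x⟫} :=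
  isClosed_le continuous_const (continuous_const.inner continuous_id)

/-- The two sides of a level add up. -/
theorem cap_add {v : E} (hv : v ≠ 0) {X : Set E} (hX : IsCompact X) (t : ℝ) :
    cap v X t + volume.real (X ∩ {x | t ≤ ⟪v, x⟫}) = volume.real X := by
  have hu : X ∩ {x | ⟪v, x⟫ ≤ t} ∪ X ∩ {x | t ≤ ⟪v, x⟫} = X := by
    rw [← inter_union_distrib_left, inter_eq_left]
    exact fun x _ => le_total ⟪v, x⟫ t
  have hd : AEDisjoint volume (X ∩ {x | ⟪v, x⟫ ≤ t}) (X ∩ {x | t ≤ ⟪v, x⟫}) :=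
    measure_mono_null (fun x hx => le_antisymm hx.1.2 hx.2.2) (level_null hv t)
  have hm := (hX.inter_right (isClosed_above v t)).measurableSet.nullMeasurableSet (μ := volume)
  conv_rhs => rw [← hu]
  rw [measureReal_def (s := _ ∪ _), measure_union₀ hm hd,
    ENNReal.toReal_add (hX.inter_right (isClosed_below v t)).measure_lt_top.ne
      (hX.inter_right (isClosed_above v t)).measure_lt_top.ne, ← measureReal_def, ← measureReal_def]
  rfl

/-- The mass distribution of a body along a direction. -/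
theorem distribution {v : E} (hv : ‖v‖ = 1) (k : ℕ) (hfin : finrank ℝ E = k + 2) {X : Set E}
    (hX : IsCompact X) (hXc : Convex ℝ X) (hV : 0 < volume.real X) :
    ∃ c d : ℝ, c < d ∧ (∀ x ∈ X, c ≤ ⟪v, x⟫ ∧ ⟪v, x⟫ ≤ d) ∧ (∃ x ∈ X, ⟪v, x⟫ = c) ∧
      (∃ x ∈ X, ⟪v, x⟫ = d) ∧ (∀ t ∈ Ioo c d, 0 < vroot (hslice v X t)) ∧
      ContinuousOn (cap v X) (Icc c d) ∧ cap v X c = 0 ∧ cap v X d = volume.real X ∧
      ∀ t ∈ Ioo c d, HasDerivAt (cap v X) (vroot (hslice v X t) ^ (k + 1)) t := by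
  obtain ⟨c, d, x₀, hcd, hx₀, hm, hrange, hne, hmax, hvol⟩ := profile hv k hfin hX hXc hV
  have : Fact (finrank ℝ E = (k + 1) + 1) := ⟨hfin⟩
  have hv0 : v ≠ 0 := norm_ne_zero_iff.1 (by simp [hv])
  have hF : finrank ℝ (ℝ ∙ v)ᗮ = k + 1 := Submodule.finrank_orthogonal_span_singleton hv0
  have : Nontrivial (ℝ ∙ v)ᗮ := Module.nontrivial_of_finrank_eq_succ hF
  have hlt : c < d := lt_of_le_of_ne hcd fun h => by
    have : volume X = 0 := measure_mono_null
      (fun x hx => show ⟪v, x⟫ = c from le_antisymm (h ▸ (hrange x hx).2) (hrange x hx).1)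
      (level_null hv0 c)
    rw [measureReal_def, this, ENNReal.toReal_zero] at hV
    exact hV.false
  have hatt : ∀ t ∈ Icc c d, ∃ x ∈ X, ⟪v, x⟫ = t := fun t ht => by
    obtain ⟨y, hy⟩ := hne t ht
    exact ⟨_, hy, inner_glue hv (y, t)⟩
  have hcc := concaveOn_vroot_hslice v hX hXc hne
  set f := fun t => vroot (hslice v X t) with hf
  have hpos : ∀ t ∈ Ioo c d, 0 < f t := by
    intro t ht
    rcases lt_trichotomy t x₀ with h | h | h
    · obtain ⟨p, q, hp, hq, hpq, he⟩ : t ∈ openSegment ℝ c x₀ := by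
        rw [openSegment_eq_Ioo (ht.1.trans h)]; exact ⟨ht.1, h⟩
      have h2 := hcc.2 (left_mem_Icc.2 hcd) hx₀ hp.le hq.le hpq
      rw [he] at h2
      refine lt_of_lt_of_le ?_ h2
      simp only [smul_eq_mul]
      exact add_pos_of_nonneg_of_pos (mul_nonneg hp.le (vroot_nonneg _)) (mul_pos hq hm)
    · exact h ▸ hm
    · obtain ⟨p, q, hp, hq, hpq, he⟩ : t ∈ openSegment ℝ x₀ d := by
        rw [openSegment_eq_Ioo (h.trans ht.2)]; exact ⟨h, ht.2⟩
      have h2 := hcc.2 hx₀ (right_mem_Icc.2 hcd) hp.le hq.le hpq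
      rw [he] at h2
      refine lt_of_lt_of_le ?_ h2
      simp only [smul_eq_mul]
      exact add_pos_of_pos_of_nonneg (mul_pos hp hm) (mul_nonneg hq.le (vroot_nonneg _))
  have hint : IntervalIntegrable (fun t => f t ^ (k + 1)) volume c d :=
    integrable_pow hcd hcc (fun t _ => vroot_nonneg _) hmax (k + 1)
  have hIon : IntegrableOn (fun t => f t ^ (k + 1)) (Icc c d) :=
    (integrableOn_Icc_iff_integrableOn_Ioc (by finiteness)).2
      ((intervalIntegrable_iff_integrableOn_Ioc_of_le hcd).1 hint)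
  have hcap : ∀ t ∈ Icc c d, cap v X t = ∫ s in c..t, f s ^ (k + 1) := by
    intro t ht
    have hpow : ∀ s, ENNReal.ofReal (f s ^ (k + 1)) = volume (hslice v X s) := by
      intro s
      simp only [hf]
      rw [← hF, vroot_pow, measureReal_def,
        ENNReal.ofReal_toReal (isCompact_hslice v hX s).measure_lt_top.ne]
    have h1 : volume (X ∩ {x | ⟪v, x⟫ ≤ t}) = ∫⁻ s in Icc c t, volume (hslice v X s) := by
      rw [volume_eq_slices hv (hX.inter_right (isClosed_below v t)).measurableSet,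
        ← lintegral_indicator measurableSet_Icc]
      refine lintegral_congr fun s => ?_
      by_cases hs : s ∈ Icc c t
      · rw [indicator_of_mem hs]
        congr 1
        refine subset_antisymm (fun y hy => hy.1) fun y hy => ⟨hy, ?_⟩
        exact (inner_glue hv (y, s)).trans_le hs.2
      · rw [indicator_of_notMem hs]
        convert (measure_empty (μ := (volume : Measure (ℝ ∙ v)ᗮ))) using 2
        refine eq_empty_of_forall_notMem fun y hy => hs ?_
        have e : ⟪v, glue v (y, s)⟫ = s := inner_glue hv (y, s)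
        exact ⟨e ▸ (hrange _ hy.1).1, e ▸ hy.2⟩
    rw [cap, measureReal_def, h1, ← lintegral_congr hpow,
      ← ofReal_integral_eq_lintegral_ofReal (hIon.mono_set (Icc_subset_Icc_right ht.2))
        (Eventually.of_forall fun s => pow_nonneg (vroot_nonneg _) _),
      ENNReal.toReal_ofReal (setIntegral_nonneg measurableSet_Icc fun s _ =>
        pow_nonneg (vroot_nonneg _) _),
      intervalIntegral.integral_of_le ht.1, integral_Icc_eq_integral_Ioc]
  refine ⟨c, d, hlt, hrange, hatt c (left_mem_Icc.2 hcd), hatt d (right_mem_Icc.2 hcd), hpos,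
    ?_, ?_, ?_, fun t ht => ?_⟩
  · refine ContinuousOn.congr ?_ hcap
    have hc' := intervalIntegral.continuousOn_primitive_interval (a := c) (b := d)
      (f := fun s => f s ^ (k + 1)) (μ := volume) (by rwa [uIcc_of_le hcd])
    rwa [uIcc_of_le hcd] at hc'
  · rw [hcap c (left_mem_Icc.2 hcd), intervalIntegral.integral_same]
  · rw [hcap d (right_mem_Icc.2 hcd), hvol]
  · have hcont : ContinuousOn (fun s => f s ^ (k + 1)) (Ioo c d) := by
      have := hcc.continuousOn_interior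
      rw [interior_Icc] at this
      exact this.pow _
    have hd := intervalIntegral.integral_hasDerivAt_right
      (hint.mono_set (uIcc_subset_uIcc left_mem_uIcc (by rw [uIcc_of_le hcd]; exact Ioo_subset_Icc_self ht)))
      (hcont.stronglyMeasurableAtFilter isOpen_Ioo t ht)
      (hcont.continuousAt (Ioo_mem_nhds ht.1 ht.2))
    exact hd.congr_of_eventuallyEq (eventuallyEq_of_mem (Ioo_mem_nhds ht.1 ht.2)
      fun s hs => hcap s (Ioo_subset_Icc_self hs))

/-- Two weights with the equality of a mean of powers are equal. -/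
theorem eq_of_mean {p q r : ℝ} (hp : 0 < p) (hq : 0 < q) (hr : (p + q) / 2 ≤ r) (k : ℕ)
    (h : r ^ (k + 1) * (1 / p ^ (k + 1) + 1 / q ^ (k + 1)) / 2 = 1) : p = q := by
  set P := p ^ (k + 1) with hP
  set Q := q ^ (k + 1) with hQ
  set S := ((p + q) / 2) ^ (k + 1) with hS
  have hP0 : 0 < P := pow_pos hp _
  have hQ0 : 0 < Q := pow_pos hq _
  have hS0 : 0 < S := by positivity
  have hSr : S ≤ r ^ (k + 1) := pow_le_pow_left₀ (by positivity) hr _
  have h1 : S * (P + Q) ≤ 2 * (P * Q) := by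
    have e : r ^ (k + 1) * (P + Q) = 2 * (P * Q) := by
      field_simp at h
      linarith
    calc S * (P + Q) ≤ r ^ (k + 1) * (P + Q) := mul_le_mul_of_nonneg_right hSr (by positivity)
      _ = _ := e
  have h2 : S ^ 2 ≤ P * Q := by
    have h3 : S ^ 2 * (4 * (P * Q)) ≤ (2 * (P * Q)) ^ 2 := by
      calc S ^ 2 * (4 * (P * Q)) ≤ S ^ 2 * (P + Q) ^ 2 :=
            mul_le_mul_of_nonneg_left (by nlinarith [sq_nonneg (P - Q)]) (sq_nonneg S)
        _ = (S * (P + Q)) ^ 2 := by ring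
        _ ≤ _ := pow_le_pow_left₀ (by positivity) h1 2
    nlinarith [mul_pos hP0 hQ0]
  have h4 : ((p + q) / 2) ^ 2 ≤ p * q := by
    refine le_of_pow_le_pow_left₀ (n := k + 1) (Nat.succ_ne_zero k) (by positivity) ?_
    rw [mul_pow, ← hP, ← hQ, ← pow_mul, mul_comm 2, pow_mul, ← hS]
    exact h2
  nlinarith [sq_nonneg (p - q)]

/-- In every direction the mass distributions differ by a shift. -/
theorem shift_eq (hn : 2 ≤ finrank ℝ E) {A B : Set E} (hA : IsCompact A) (hB : IsCompact B)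
    (hAc : Convex ℝ A) (hBc : Convex ℝ B) (hV : 0 < volume.real A)
    (hBV : volume.real B = volume.real A)
    (hC : volume.real ((1 / 2 : ℝ) • A + (1 / 2 : ℝ) • B) ≤ volume.real A)
    {v : E} (hv : ‖v‖ = 1) :
    ∃ τ : ℝ, (∀ t, cap v B (t + τ) = cap v A t) ∧
      (∀ x ∈ A, ∃ y ∈ B, ⟪v, y⟫ = ⟪v, x⟫ + τ) ∧ ∀ y ∈ B, ∃ x ∈ A, ⟪v, y⟫ = ⟪v, x⟫ + τ := by
  obtain ⟨k, hfin⟩ : ∃ k, finrank ℝ E = k + 2 := ⟨finrank ℝ E - 2, by omega⟩
  have : Nontrivial E := Module.nontrivial_of_finrank_eq_succ hfin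
  have : Fact (finrank ℝ E = (k + 1) + 1) := ⟨hfin⟩
  have hv0 : v ≠ 0 := norm_ne_zero_iff.1 (by simp [hv])
  have hF : finrank ℝ (ℝ ∙ v)ᗮ = k + 1 := Submodule.finrank_orthogonal_span_singleton hv0
  have : Nontrivial (ℝ ∙ v)ᗮ := Module.nontrivial_of_finrank_eq_succ hF
  set C := (1 / 2 : ℝ) • A + (1 / 2 : ℝ) • B with hCdef
  have hCk : IsCompact C := (hA.smul _).add (hB.smul _)
  have hCc : Convex ℝ C := (hAc.smul _).add (hBc.smul _)
  have hmem : ∀ a ∈ A, ∀ b ∈ B, (1 / 2 : ℝ) • a + (1 / 2 : ℝ) • b ∈ C := fun a ha b hb =>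
    add_mem_add (smul_mem_smul_set ha) (smul_mem_smul_set hb)
  obtain ⟨c₁, d₁, hcd₁, hr₁, ⟨a₁, ha₁, hac₁⟩, ⟨a₂, ha₂, had₁⟩, hp₁, hc₁, hz₁, ht₁, hD₁⟩ :=
    distribution hv k hfin hA hAc hV
  obtain ⟨c₂, d₂, hcd₂, hr₂, ⟨b₁, hb₁, hbc₂⟩, ⟨b₂, hb₂, hbd₂⟩, hp₂, hc₂, hz₂, ht₂, hD₂⟩ :=
    distribution hv k hfin hB hBc (hBV ▸ hV)
  have hCV : 0 < volume.real C := by
    have h := vroot_combo hA hB hCk ⟨a₁, ha₁⟩ ⟨b₁, hb₁⟩ (by norm_num) (by norm_num) hmem
    have e : vroot B = vroot A := by rw [vroot, vroot, hBV]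
    have hA0 : 0 < vroot A := Real.rpow_pos_of_pos hV _
    have h' : (0 : ℝ) < vroot C := by rw [e] at h; linarith
    rw [← vroot_pow C]
    exact pow_pos h' _
  obtain ⟨c₃, d₃, -, hr₃, -, -, hp₃, -, -, -, hD₃⟩ := distribution hv k hfin hCk hCc hCV
  have hcm : c₃ ≤ (c₁ + c₂) / 2 := by
    have := (hr₃ _ (hmem a₁ ha₁ b₁ hb₁)).1
    rw [inner_add_right, real_inner_smul_right, real_inner_smul_right, hac₁, hbc₂] at this
    linarith
  have hdm : (d₁ + d₂) / 2 ≤ d₃ := by
    have := (hr₃ _ (hmem a₂ ha₂ b₂ hb₂)).2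
    rw [inner_add_right, real_inner_smul_right, real_inner_smul_right, had₁, hbd₂] at this
    linarith
  have hseg : ∀ (X : Set E), Convex ℝ X → ∀ p ∈ X, ∀ q ∈ X, ∀ t ∈ Icc ⟪v, p⟫ ⟪v, q⟫,
      ∃ x ∈ X, ⟪v, x⟫ = t := by
    intro X hXc p hp q hq t ht
    obtain ⟨a, b, ha, hb, hab, he⟩ : t ∈ segment ℝ ⟪v, p⟫ ⟪v, q⟫ := by
      rwa [segment_eq_Icc (ht.1.trans ht.2)]
    refine ⟨_, hXc hp hq ha hb hab, ?_⟩
    rw [inner_add_right, real_inner_smul_right, real_inner_smul_right]
    exact he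
  -- equal masses give equal masses at the middle level
  have hmid : ∀ s ∈ Icc c₁ d₁, ∀ u ∈ Icc c₂ d₂, cap v A s = cap v B u →
      cap v C ((s + u) / 2) = cap v A s := by
    intro s hs u hu hsu
    obtain ⟨x, hx, hxs⟩ := hseg A hAc a₁ ha₁ a₂ ha₂ s (by rwa [hac₁, had₁])
    obtain ⟨y, hy, hyu⟩ := hseg B hBc b₁ hb₁ b₂ hb₂ u (by rwa [hbc₂, hbd₂])
    have h1 := cap_add hv0 hA s
    have h2 := cap_add hv0 hB u
    have h3 := cap_add hv0 hCk ((s + u) / 2)
    have key : ∀ (α β γ : Set E), IsCompact α → IsCompact β → IsCompact γ → α.Nonempty → β.Nonempty →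
        (∀ a ∈ α, ∀ b ∈ β, (1 / 2 : ℝ) • a + (1 / 2 : ℝ) • b ∈ γ) →
        volume.real β = volume.real α → volume.real α ≤ volume.real γ := by
      intro α β γ hα hβ hγ hαn hβn hsub he
      have h := vroot_combo hα hβ hγ hαn hβn (by norm_num) (by norm_num) hsub
      have e : vroot β = vroot α := by rw [vroot, vroot, he]
      rw [e] at h
      rw [← vroot_pow α, ← vroot_pow γ]
      exact pow_le_pow_left₀ (vroot_nonneg _) (by linarith) _
    have hlow : cap v A s ≤ cap v C ((s + u) / 2) :=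
      key _ _ _ (hA.inter_right (isClosed_below v s)) (hB.inter_right (isClosed_below v u))
        (hCk.inter_right (isClosed_below v _)) ⟨x, hx, hxs.le⟩ ⟨y, hy, hyu.le⟩
        (fun a ha b hb => ⟨hmem a ha.1 b hb.1, by
          show ⟪v, _⟫ ≤ _
          rw [inner_add_right, real_inner_smul_right, real_inner_smul_right]
          linarith [show ⟪v, a⟫ ≤ s from ha.2, show ⟪v, b⟫ ≤ u from hb.2]⟩) hsu.symm
    have hhigh : volume.real (A ∩ {x | s ≤ ⟪v, x⟫}) ≤
        volume.real (C ∩ {x | (s + u) / 2 ≤ ⟪v, x⟫}) :=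
      key _ _ _ (hA.inter_right (isClosed_above v s)) (hB.inter_right (isClosed_above v u))
        (hCk.inter_right (isClosed_above v _)) ⟨x, hx, hxs.ge⟩ ⟨y, hy, hyu.ge⟩
        (fun a ha b hb => ⟨hmem a ha.1 b hb.1, by
          show _ ≤ ⟪v, _⟫
          rw [inner_add_right, real_inner_smul_right, real_inner_smul_right]
          linarith [show s ≤ ⟪v, a⟫ from ha.2, show u ≤ ⟪v, b⟫ from hb.2]⟩) (by linarith)
    linarith
  -- the transport
  have hm₁ : StrictMonoOn (cap v A) (Icc c₁ d₁) := by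
    refine strictMonoOn_of_hasDerivWithinAt_pos (convex_Icc _ _) hc₁
      (fun t ht => (hD₁ t (interior_Icc.subset ht)).hasDerivWithinAt) fun t ht => ?_
    exact pow_pos (hp₁ t (interior_Icc.subset ht)) _
  have hm₂ : StrictMonoOn (cap v B) (Icc c₂ d₂) := by
    refine strictMonoOn_of_hasDerivWithinAt_pos (convex_Icc _ _) hc₂
      (fun t ht => (hD₂ t (interior_Icc.subset ht)).hasDerivWithinAt) fun t ht => ?_
    exact pow_pos (hp₂ t (interior_Icc.subset ht)) _
  have hex : ∀ s ∈ Ioo c₁ d₁, ∃ u ∈ Ioo c₂ d₂, cap v B u = cap v A s := by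
    intro s hs
    have h1 := hm₁ (left_mem_Icc.2 hcd₁.le) (Ioo_subset_Icc_self hs) hs.1
    have h2 := hm₁ (Ioo_subset_Icc_self hs) (right_mem_Icc.2 hcd₁.le) hs.2
    exact intermediate_value_Ioo hcd₂.le hc₂ ⟨by rwa [hz₂, ← hz₁], by rwa [ht₂, hBV, ← ht₁]⟩
  choose! φ hφ hφe using hex
  have hφm : StrictMonoOn φ (Ioo c₁ d₁) := by
    intro s hs s' hs' hss
    by_contra hcon
    push Not at hcon
    have := hm₂.monotoneOn (Ioo_subset_Icc_self (hφ s' hs')) (Ioo_subset_Icc_self (hφ s hs)) hcon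
    rw [hφe s hs, hφe s' hs'] at this
    exact (hm₁ (Ioo_subset_Icc_self hs) (Ioo_subset_Icc_self hs') hss).not_ge this
  have hφsurj : φ '' Ioo c₁ d₁ = Ioo c₂ d₂ := by
    refine subset_antisymm (image_subset_iff.2 fun s hs => hφ s hs) fun u hu => ?_
    have h1 := hm₂ (left_mem_Icc.2 hcd₂.le) (Ioo_subset_Icc_self hu) hu.1
    have h2 := hm₂ (Ioo_subset_Icc_self hu) (right_mem_Icc.2 hcd₂.le) hu.2
    obtain ⟨s, hs, hse⟩ := intermediate_value_Ioo hcd₁.le hc₁
      ⟨by rwa [hz₁, ← hz₂], by rwa [ht₁, ← hBV, ← ht₂]⟩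
    exact ⟨s, hs, hm₂.injOn (Ioo_subset_Icc_self (hφ s hs)) (Ioo_subset_Icc_self hu)
      (by rw [hφe s hs, hse])⟩
  have hderiv : ∀ s ∈ Ioo c₁ d₁, HasDerivAt φ 1 s := by
    intro s hs
    set p := vroot (hslice v A s) with hpdef
    set q := vroot (hslice v B (φ s)) with hqdef
    have hp0 : 0 < p := hp₁ s hs
    have hq0 : 0 < q := hp₂ _ (hφ s hs)
    have hφc : ContinuousAt φ s := hφm.continuousAt_of_image_mem_nhds (Ioo_mem_nhds hs.1 hs.2)
      (hφsurj ▸ Ioo_mem_nhds (hφ s hs).1 (hφ s hs).2)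
    -- derivative of the transport
    have hφd : HasDerivAt φ (p ^ (k + 1) / q ^ (k + 1)) s := by
      have hBinv : HasDerivAt (Function.invFunOn (cap v B) (Icc c₂ d₂))
          (q ^ (k + 1))⁻¹ (cap v A s) := by
        set ψ := Function.invFunOn (cap v B) (Icc c₂ d₂)
        have hψ : ∀ u ∈ Icc c₂ d₂, ψ (cap v B u) = u := fun u hu =>
          hm₂.injOn.leftInvOn_invFunOn hu
        have him : cap v B '' Ioo c₂ d₂ ∈ 𝓝 (cap v A s) := by
          refine mem_of_superset (Ioo_mem_nhds ?_ ?_)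
            (intermediate_value_Ioo hcd₂.le hc₂)
          · rw [← hφe s hs]
            exact hm₂ (left_mem_Icc.2 hcd₂.le) (Ioo_subset_Icc_self (hφ s hs)) (hφ s hs).1
          · rw [← hφe s hs]
            exact hm₂ (Ioo_subset_Icc_self (hφ s hs)) (right_mem_Icc.2 hcd₂.le) (hφ s hs).2
        have hψs : ψ (cap v A s) = φ s := by
          rw [← hφe s hs]; exact hψ _ (Ioo_subset_Icc_self (hφ s hs))
        have hψm : StrictMonoOn ψ (cap v B '' Ioo c₂ d₂) := by
          rintro _ ⟨u, hu, rfl⟩ _ ⟨u', hu', rfl⟩ h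
          rw [hψ u (Ioo_subset_Icc_self hu), hψ u' (Ioo_subset_Icc_self hu')]
          exact (hm₂.lt_iff_lt (Ioo_subset_Icc_self hu) (Ioo_subset_Icc_self hu')).1 h
        have hψi : ψ '' (cap v B '' Ioo c₂ d₂) = Ioo c₂ d₂ := by
          rw [image_image]
          exact (image_congr fun u hu => hψ u (Ioo_subset_Icc_self hu)).trans (image_id' _)
        have hψc : ContinuousAt ψ (cap v A s) := hψm.continuousAt_of_image_mem_nhds him
          (by rw [hψi, hψs]; exact Ioo_mem_nhds (hφ s hs).1 (hφ s hs).2)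
        refine HasDerivAt.of_local_left_inverse hψc (by rw [hψs]; exact hD₂ _ (hφ s hs))
          (pow_pos hq0 _).ne' ?_
        filter_upwards [him] with y ⟨u, hu, hy⟩
        rw [← hy, hψ u (Ioo_subset_Icc_self hu)]
      have h := hBinv.comp s (hD₁ s hs)
      rw [div_eq_inv_mul]
      refine h.congr_of_eventuallyEq ?_
      filter_upwards [Ioo_mem_nhds hs.1 hs.2] with t ht
      show φ t = Function.invFunOn (cap v B) (Icc c₂ d₂) (cap v A t)
      rw [← hφe t ht]
      exact (hm₂.injOn.leftInvOn_invFunOn (Ioo_subset_Icc_self (hφ t ht))).symm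
    -- the middle level
    set m := (s + φ s) / 2 with hmdef
    have hm3 : m ∈ Ioo c₃ d₃ := ⟨by linarith [hs.1, (hφ s hs).1], by linarith [hs.2, (hφ s hs).2]⟩
    have hroot : (p + q) / 2 ≤ vroot (hslice v C m) := by
      obtain ⟨x, hx, hxs⟩ := hseg A hAc a₁ ha₁ a₂ ha₂ s (by rw [hac₁, had₁]; exact Ioo_subset_Icc_self hs)
      obtain ⟨y, hy, hyu⟩ := hseg B hBc b₁ hb₁ b₂ hb₂ (φ s)
        (by rw [hbc₂, hbd₂]; exact Ioo_subset_Icc_self (hφ s hs))
      have h := vroot_combo (p := (1 / 2 : ℝ)) (q := 1 / 2) (isCompact_hslice v hA s)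
        (isCompact_hslice v hB (φ s)) (isCompact_hslice v hCk m)
        ⟨(ℝ ∙ v)ᗮ.orthogonalProjectionOnto x, by
          have := glue_proj hv x
          rw [hxs, glue] at this
          show ((ℝ ∙ v)ᗮ.orthogonalProjectionOnto x : E) + s • v ∈ A
          rwa [this]⟩
        ⟨(ℝ ∙ v)ᗮ.orthogonalProjectionOnto y, by
          have := glue_proj hv y
          rw [hyu, glue] at this
          show ((ℝ ∙ v)ᗮ.orthogonalProjectionOnto y : E) + φ s • v ∈ B
          rwa [this]⟩
        (by norm_num) (by norm_num) (fun a ha b hb => by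
          show (((1 / 2 : ℝ) • a + (1 / 2 : ℝ) • b : (ℝ ∙ v)ᗮ) : E) + m • v ∈ C
          convert hmem _ ha _ hb using 1
          rw [hmdef]
          push_cast
          module)
      linarith
    have h1 : HasDerivAt (fun t => cap v C ((t + φ t) / 2))
        (vroot (hslice v C m) ^ (k + 1) * ((1 + p ^ (k + 1) / q ^ (k + 1)) / 2)) s :=
      HasDerivAt.comp (h₂ := cap v C) (h := fun t => (t + φ t) / 2) s (hD₃ m hm3)
        (((hasDerivAt_id s).add hφd).div_const 2)
    have h2 : HasDerivAt (fun t => cap v C ((t + φ t) / 2)) (p ^ (k + 1)) s := by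
      refine (hD₁ s hs).congr_of_eventuallyEq ?_
      filter_upwards [Ioo_mem_nhds hs.1 hs.2] with t ht
      exact hmid t (Ioo_subset_Icc_self ht) (φ t) (Ioo_subset_Icc_self (hφ t ht)) (hφe t ht).symm
    have hu := h1.unique h2
    have hpq : p = q := by
      refine eq_of_mean hp0 hq0 hroot k ?_
      have := pow_pos hp0 (k + 1)
      have := pow_pos hq0 (k + 1)
      field_simp at hu ⊢
      linarith
    rw [hpq, div_self (pow_pos hq0 _).ne'] at hφd
    exact hφd
  obtain ⟨τ, hτ⟩ : ∃ τ, ∀ s ∈ Ioo c₁ d₁, φ s = s + τ := by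
    have hmidpt : (c₁ + d₁) / 2 ∈ Ioo c₁ d₁ := ⟨by linarith, by linarith⟩
    refine ⟨φ ((c₁ + d₁) / 2) - (c₁ + d₁) / 2, fun s hs => ?_⟩
    have hd : ∀ t ∈ Ioo c₁ d₁, HasDerivAt (fun t => φ t - t) 0 t := fun t ht => by
      have := (hderiv t ht).sub (hasDerivAt_id t)
      rwa [sub_self] at this
    have h := isOpen_Ioo.is_const_of_deriv_eq_zero (convex_Ioo _ _).isPreconnected
      (fun t ht => (hd t ht).differentiableAt.differentiableWithinAt)
      (fun t ht => (hd t ht).deriv) hs hmidpt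
    linarith
  have himg : (fun s => s + τ) '' Ioo c₁ d₁ = Ioo c₂ d₂ :=
    (image_congr fun s hs => (hτ s hs).symm).trans hφsurj
  rw [image_add_const_Ioo] at himg
  have hcl := congrArg closure himg
  rw [closure_Ioo (by linarith), closure_Ioo hcd₂.ne] at hcl
  have hends := (Set.Icc_eq_Icc_iff (by linarith)).1 hcl
  have hout : ∀ (X : Set E) (c d t : ℝ), (∀ x ∈ X, c ≤ ⟪v, x⟫ ∧ ⟪v, x⟫ ≤ d) →
      (t ≤ c → cap v X t = 0) ∧ (d ≤ t → cap v X t = volume.real X) := by
    intro X c d t hr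
    refine ⟨fun h => ?_, fun h => ?_⟩
    · rw [cap, measureReal_def, measure_mono_null (fun x hx =>
        show ⟪v, x⟫ = c from le_antisymm (hx.2.trans h) (hr x hx.1).1) (level_null hv0 c),
        ENNReal.toReal_zero]
    · have e : X ∩ {x | ⟪v, x⟫ ≤ t} = X :=
        inter_eq_left.2 fun x hx => (hr x hx).2.trans h
      rw [cap, e]
  refine ⟨τ, fun t => ?_, fun x hx => ?_, fun y hy => ?_⟩
  · rcases le_or_gt t c₁ with h | h
    · rw [(hout A c₁ d₁ t hr₁).1 h, (hout B c₂ d₂ _ hr₂).1 (by linarith [hends.1])]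
    rcases le_or_gt d₁ t with h' | h'
    · rw [(hout A c₁ d₁ t hr₁).2 h', (hout B c₂ d₂ _ hr₂).2 (by linarith [hends.2]), hBV]
    rw [← hτ t ⟨h, h'⟩, hφe t ⟨h, h'⟩]
  · exact hseg B hBc b₁ hb₁ b₂ hb₂ _ ⟨by rw [hbc₂]; linarith [hends.1, (hr₁ x hx).1],
      by rw [hbd₂]; linarith [hends.2, (hr₁ x hx).2]⟩
  · obtain ⟨x, hx, hxe⟩ := hseg A hAc a₁ ha₁ a₂ ha₂ (⟪v, y⟫ - τ)
      ⟨by rw [hac₁]; linarith [hends.1, (hr₂ y hy).1], by rw [had₁]; linarith [hends.2, (hr₂ y hy).2]⟩
    exact ⟨x, hx, by linarith⟩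

omit [MeasurableSpace E] [BorelSpace E] in
/-- A convex compact set contains every point below its support values. -/
theorem subset_of_support {A B : Set E} (hB : IsCompact B) (hBc : Convex ℝ B)
    (hBn : B.Nonempty)
    (h : ∀ v : E, ‖v‖ = 1 → ∀ x ∈ A, ∃ y ∈ B, ⟪v, x⟫ ≤ ⟪v, y⟫) : A ⊆ B := by
  intro x hx
  by_contra hn
  obtain ⟨f, c, hf, hc⟩ := geometric_hahn_banach_closed_point hBc hB.isClosed hn
  set y := (InnerProductSpace.toDual ℝ E).symm f with hy
  have hfy : ∀ z, f z = ⟪y, z⟫ := fun z => by rw [hy, InnerProductSpace.toDual_symm_apply]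
  obtain ⟨z₀, hz₀⟩ := hBn
  have h0 : y ≠ 0 := fun h0 => by
    have h1 := hf z₀ hz₀
    rw [hfy, h0, inner_zero_left] at h1
    rw [hfy, h0, inner_zero_left] at hc
    linarith
  have hu : ‖‖y‖⁻¹ • y‖ = 1 := norm_smul_inv_norm h0
  obtain ⟨z, hz, hxz⟩ := h _ hu x hx
  rw [real_inner_smul_left, real_inner_smul_left] at hxz
  have h1 := hf z hz
  rw [hfy] at h1 hc
  linarith [le_of_mul_le_mul_left hxz (inv_pos.2 (norm_pos_iff.2 h0))]

/-- Equality in Brunn–Minkowski for a midpoint: the bodies are translates. -/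
theorem bm_equality (hn : 2 ≤ finrank ℝ E) {A B : Set E} (hA : IsCompact A) (hB : IsCompact B)
    (hAc : Convex ℝ A) (hBc : Convex ℝ B) (hV : 0 < volume.real A)
    (hBV : volume.real B = volume.real A)
    (hC : volume.real ((1 / 2 : ℝ) • A + (1 / 2 : ℝ) • B) ≤ volume.real A) :
    ∃ g : E, B = (fun x => g + x) '' A := by
  set V := volume.real A with hVdef
  have hint : ∀ (X : Set E), IsCompact X → ∀ v : E,
      Integrable (fun x => ⟪v, x⟫) (volume.restrict X) := fun X hX v =>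
    (continuous_const.inner continuous_id).continuousOn.integrableOn_compact hX
  set g : E := V⁻¹ • ((∫ x in B, x) - ∫ x in A, x) with hg
  refine ⟨g, ?_⟩
  have key : ∀ v : E, ‖v‖ = 1 → (∀ x ∈ A, ∃ y ∈ B, ⟪v, y⟫ = ⟪v, x⟫ + ⟪v, g⟫) ∧
      ∀ y ∈ B, ∃ x ∈ A, ⟪v, y⟫ = ⟪v, x⟫ + ⟪v, g⟫ := by
    intro v hv
    obtain ⟨τ, hcap, hAB, hBA⟩ := shift_eq hn hA hB hAc hBc hV hBV hC hv
    have hfin : ∀ X : Set E, IsCompact X → IsFiniteMeasure (volume.restrict X) := fun X hX =>
      ⟨by rw [Measure.restrict_apply_univ]; exact hX.measure_lt_top⟩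
    have := hfin A hA
    have := hfin B hB
    have hmv : Measurable fun x : E => ⟪v, x⟫ :=
      (continuous_const.inner continuous_id).measurable
    have hmeas : Measure.map (fun x => ⟪v, x⟫ + τ) (volume.restrict A) =
        Measure.map (fun x => ⟪v, x⟫) (volume.restrict B) := by
      refine Measure.ext_of_Iic _ _ fun t => ?_
      rw [Measure.map_apply (hmv.add_const τ) measurableSet_Iic,
        Measure.map_apply hmv measurableSet_Iic,
        Measure.restrict_apply ((hmv.add_const τ) measurableSet_Iic),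
        Measure.restrict_apply (hmv measurableSet_Iic)]
      have h := hcap (t - τ)
      rw [sub_add_cancel] at h
      rw [cap, cap, measureReal_def, measureReal_def, ENNReal.toReal_eq_toReal_iff'
        (hB.inter_right (isClosed_below v t)).measure_lt_top.ne
        (hA.inter_right (isClosed_below v _)).measure_lt_top.ne] at h
      rw [inter_comm, show (fun x => ⟪v, x⟫ + τ) ⁻¹' Iic t = {x | ⟪v, x⟫ ≤ t - τ} by
        ext x; simp [le_sub_iff_add_le], ← h, inter_comm]
      rfl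
    have h1 : ∫ x in A, (⟪v, x⟫ + τ) = ∫ x in B, ⟪v, x⟫ := by
      have h : ∫ t, t ∂(Measure.map (fun x => ⟪v, x⟫ + τ) (volume.restrict A)) =
          ∫ t, t ∂(Measure.map (fun x => ⟪v, x⟫) (volume.restrict B)) :=
        congrArg (fun μ : Measure ℝ => ∫ t, t ∂μ) hmeas
      rwa [integral_map (hmv.add_const τ).aemeasurable (by fun_prop),
        integral_map hmv.aemeasurable (by fun_prop)] at h
    rw [integral_add (hint A hA v) (integrable_const τ), integral_const,
      measureReal_restrict_apply_univ, smul_eq_mul, ← hVdef,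
      integral_inner (f := fun x : E => x) (continuousOn_id.integrableOn_compact hA) v,
      integral_inner (f := fun x : E => x) (continuousOn_id.integrableOn_compact hB) v] at h1
    have hτ : τ = ⟪v, g⟫ := by
      rw [hg, real_inner_smul_right, inner_sub_right, ← h1, add_sub_cancel_left,
        inv_mul_cancel_left₀ hV.ne']
    exact ⟨hτ ▸ hAB, hτ ▸ hBA⟩
  have hAn : A.Nonempty := nonempty_iff_ne_empty.2 fun h => by simp [hVdef, h] at hV
  have hBn : B.Nonempty := nonempty_iff_ne_empty.2 fun h => by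
    rw [h, measureReal_empty] at hBV
    linarith
  refine subset_antisymm ?_ ?_
  · refine subset_of_support (hA.image (by fun_prop)) (hAc.translate g) (hAn.image _) fun v hv y hy => ?_
    obtain ⟨x, hx, hxy⟩ := (key v hv).2 y hy
    exact ⟨g + x, ⟨x, hx, rfl⟩, le_of_eq (by rw [hxy, inner_add_right, add_comm])⟩
  · refine subset_of_support hB hBc hBn ?_
    rintro v hv _ ⟨x, hx, rfl⟩
    obtain ⟨y, hy, hxy⟩ := (key v hv).1 x hx
    exact ⟨y, hy, le_of_eq (by rw [hxy, inner_add_right, add_comm])⟩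

end Vale.Agent.P237.Petty
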