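import Vale.Agent.P237.Petty.Profile

/-!
# The Euclidean ball: shadows, ratio, integrals of the half circle
-/

namespace Vale.Agent.P237.Petty

open MeasureTheory Set Module Metric
open AllN (hslice glue)
open scoped RealInnerProductSpace Pointwise

variable {E : Type*} [NormedAddCommGroup E] [InnerProductSpace ℝ E] [FiniteDimensional ℝ E]
  [MeasurableSpace E] [BorelSpace E]

theorem kappa_pos (m : ℕ) : 0 < kappa m :=
  ENNReal.toReal_pos (measure_closedBall_pos volume _ one_pos).ne' measure_closedBall_lt_top.ne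

/-- Volumes of centred balls. -/
theorem volume_ball_radius {m : ℕ} (hm : finrank ℝ E = m) {r : ℝ} (hr : 0 ≤ r) :
    volume.real (closedBall (0 : E) r) = r ^ m * kappa m := by
  have e : closedBall (0 : E) r = r • closedBall (0 : E) 1 := by
    rw [smul_unitClosedBall, Real.norm_eq_abs, abs_of_nonneg hr]
  rw [e, measureReal_def, Measure.addHaar_smul_of_nonneg _ hr, ENNReal.toReal_mul,
    ENNReal.toReal_ofReal (pow_nonneg hr _), ← measureReal_def, real_closedBall hm, hm]

omit [MeasurableSpace E] [BorelSpace E] in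
theorem finrank_perp {u : E} (hu : ‖u‖ = 1) :
    finrank ℝ (ℝ ∙ u)ᗮ = finrank ℝ E - 1 := by
  have h := (ℝ ∙ u).finrank_add_finrank_orthogonal
  rw [finrank_span_singleton (norm_ne_zero_iff.1 (by simp [hu]))] at h
  omega

/-- The shadows of the unit ball. -/
theorem area_closedBall {u : E} (hu : ‖u‖ = 1) :
    area (closedBall (0 : E) 1) u = kappa (finrank ℝ E - 1) := by
  have e : (ℝ ∙ u)ᗮ.orthogonalProjectionOnto '' closedBall (0 : E) 1 = closedBall 0 1 := by
    ext y
    constructor
    · rintro ⟨x, hx, rfl⟩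
      rw [mem_closedBall_zero_iff] at hx ⊢
      exact ((ℝ ∙ u)ᗮ.norm_orthogonalProjectionOnto_apply_le x).trans hx
    · intro hy
      exact ⟨y, by simpa using hy,
        Submodule.orthogonalProjectionOnto_mem_subspace_eq_self y⟩
  rw [area, e, real_closedBall (finrank_perp hu)]

theorem projBody_closedBall :
    projBody (closedBall (0 : E) 1) = closedBall 0 (kappa (finrank ℝ E - 1)) := by
  ext y
  rw [mem_closedBall_zero_iff]
  refine ⟨fun h => ?_, fun h u hu => ?_⟩
  · rcases eq_or_ne y 0 with rfl | hy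
    · rw [norm_zero]; exact (kappa_pos _).le
    have hu : ‖(‖y‖⁻¹ : ℝ) • y‖ = 1 := norm_smul_inv_norm hy
    have := h _ hu
    rw [area_closedBall hu, real_inner_smul_right, real_inner_self_eq_norm_sq] at this
    calc ‖y‖ = ‖y‖⁻¹ * ‖y‖ ^ 2 := by field_simp [norm_ne_zero_iff.2 hy]
      _ ≤ _ := this
  · rw [area_closedBall hu]
    calc ⟪y, u⟫ ≤ ‖y‖ * ‖u‖ := real_inner_le_norm y u
      _ ≤ _ := by rw [hu, mul_one]; exact h

/-- The ratio of the unit ball. -/
theorem ratio_closedBall (hn : 2 ≤ finrank ℝ E) :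
    ratio (closedBall (0 : E) 1) = cPetty (finrank ℝ E) := by
  rw [ratio, projBody_closedBall, volume_ball_radius rfl (kappa_pos _).le,
    real_closedBall rfl, cPetty]
  have h := kappa_pos (finrank ℝ E)
  rw [show finrank ℝ E - 1 = finrank ℝ E - 2 + 1 by omega, pow_succ (kappa (finrank ℝ E))]
  field_simp

/-- The integrals of powers of the half circle. -/
theorem circle_integral (j : ℕ) :
    ∫ t in (-1)..1, √(1 - t ^ 2) ^ j = kappa (j + 1) / kappa j := by
  set v : EuclideanSpace ℝ (Fin (j + 1)) := EuclideanSpace.single 0 1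
  have hv : ‖v‖ = 1 := by simp [v]
  have hm : finrank ℝ (ℝ ∙ v)ᗮ = j := by simp [finrank_perp hv]
  have hb : ∀ x ∈ closedBall (0 : EuclideanSpace ℝ (Fin (j + 1))) 1, |⟪v, x⟫| ≤ 1 :=
    fun x hx => (abs_real_inner_le_norm v x).trans (by
      rw [hv, one_mul]; exact mem_closedBall_zero_iff.1 hx)
  have h := (integral_slices hv (isCompact_closedBall _ _) hb (g := fun _ => (1 : ℝ))
    continuous_const).2
  simp only [setIntegral_const, smul_eq_mul, mul_one] at h
  rw [eq_div_iff (kappa_pos j).ne', ← intervalIntegral.integral_mul_const,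
    show kappa (j + 1) = volume.real (closedBall (0 : EuclideanSpace ℝ (Fin (j + 1))) 1) from rfl,
    h]
  refine intervalIntegral.integral_congr fun t ht => ?_
  rw [uIcc_of_le (by norm_num)] at ht
  show _ = volume.real _
  rw [hslice_ball hv ht, volume_ball_radius hm (Real.sqrt_nonneg _)]

end Vale.Agent.P237.Petty
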