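import Vale.Agent.P237.Petty.LinearCriterion
import Vale.Agent.P237.Petty.Even

/-!
# P237: the exact calibration of the linear functional

On the half line, with `m = p + 1` and the transport `s(t)` given by `∫₀ᵗ g^m = ∫₀ˢ c^m`, a slope
field `k(s,t)` splits the integrand of the linear functional into an exact derivative, the function
`identK` of `(s, t, g)` and the square `identE`. The derivative is polynomial in `g`, so the facet
term cancels at the end point.
-/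

namespace Vale.Agent.P237.Petty

open MeasureTheory Set Filter Topology

/-- The quarter circle. -/
noncomputable def arc (t : ℝ) : ℝ := √(1 - t ^ 2)

/-- The integrand of the linear functional. -/
noncomputable def identL (p : ℕ) (M1 M2 : ℝ) (g : ℝ → ℝ) (t : ℝ) : ℝ :=
  g t ^ p + g t ^ p * (-M1 + M2 * slopeR g t ^ 2) / icept g t

/-- The linear functional on the half line, with the face. -/
noncomputable def halfForm (p : ℕ) (M1 M2 : ℝ) (g : ℝ → ℝ) : ℝ :=
  (∫ t in (0 : ℝ)..1, identL p M1 M2 g t) + M2 * g 1 ^ (p + 1) / ((p : ℝ) + 1)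

/-- The calibration, as a function of `(s, t, g)`. -/
noncomputable def identPsi (p : ℕ) (M1 M2 : ℝ) (k Φ : ℝ → ℝ → ℝ) (s t g : ℝ) : ℝ :=
  -M2 * (k s t * (2 - k s t * t)) * g ^ (p + 1) / ((p : ℝ) + 1)
    - M1 * (t * (1 - k s t * t) ^ 2) * g ^ (p - 1) / ((p : ℝ) - 1) + Φ s t

/-- The calibrated integrand; `r` is the speed of the transport. -/
noncomputable def identK (p : ℕ) (M1 M2 : ℝ) (k kt ks Φt Φs : ℝ → ℝ → ℝ) (s t g r : ℝ) : ℝ :=
  g ^ p - M1 * (1 - k s t ^ 2 * t ^ 2) * g ^ (p - 1) - M2 * k s t ^ 2 * g ^ (p + 1)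
    + M2 * (kt s t * (2 - 2 * k s t * t) - k s t ^ 2) * g ^ (p + 1) / ((p : ℝ) + 1)
    + M1 * g ^ (p - 1) * ((1 - k s t * t) ^ 2
        - 2 * t * (1 - k s t * t) * (k s t + t * kt s t)) / ((p : ℝ) - 1)
    - Φt s t
    + r * (M2 * ks s t * (2 - 2 * k s t * t) * g ^ (p + 1) / ((p : ℝ) + 1)
        - 2 * M1 * t ^ 2 * ks s t * (1 - k s t * t) * g ^ (p - 1) / ((p : ℝ) - 1) - Φs s t)

/-- The square left by the calibration. -/
noncomputable def identE (p : ℕ) (M1 M2 : ℝ) (k : ℝ → ℝ → ℝ) (s t g q : ℝ) : ℝ :=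
  g ^ (p - 2) * (M2 * g ^ 2 - M1 * t ^ 2) * (q + k s t * (g - t * q)) ^ 2 / (g - t * q)

/-- The derivative of the calibration along a profile. -/
noncomputable def identD (p : ℕ) (M1 M2 : ℝ) (k kt ks Φt Φs : ℝ → ℝ → ℝ) (s t g r q : ℝ) : ℝ :=
  (-M2 * (2 - 2 * k s t * t) * g ^ (p + 1) / ((p : ℝ) + 1)
      + 2 * M1 * t ^ 2 * (1 - k s t * t) * g ^ (p - 1) / ((p : ℝ) - 1)) * (kt s t + ks s t * r)
    + M2 * k s t ^ 2 * g ^ (p + 1) / ((p : ℝ) + 1)
    - M1 * ((1 - k s t * t) ^ 2 - 2 * t * (1 - k s t * t) * k s t) * g ^ (p - 1) / ((p : ℝ) - 1)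
    + (-M2 * (k s t * (2 - k s t * t)) * g ^ p - M1 * (t * (1 - k s t * t) ^ 2) * g ^ (p - 2)) * q
    + (Φt s t + Φs s t * r)

theorem ident_pointwise {p : ℕ} (hp : 2 ≤ p) (M1 M2 : ℝ) (k kt ks Φt Φs : ℝ → ℝ → ℝ)
    {s t g r q : ℝ} (hD : g - t * q ≠ 0) :
    g ^ p + g ^ p * (-M1 + M2 * q ^ 2) / (g - t * q) =
      identK p M1 M2 k kt ks Φt Φs s t g r + identE p M1 M2 k s t g q +
        identD p M1 M2 k kt ks Φt Φs s t g r q := by
  obtain ⟨j, rfl⟩ := Nat.exists_eq_add_of_le' hp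
  have h1 : ((j + 2 : ℕ) : ℝ) - 1 = (j : ℝ) + 1 := by push_cast; ring
  have h2 : (0 : ℝ) < (j : ℝ) + 1 := by positivity
  have h3 : (0 : ℝ) < ((j + 2 : ℕ) : ℝ) + 1 := by positivity
  simp only [identK, identE, identD, h1, show j + 2 - 1 = j + 1 from rfl,
    show j + 2 - 2 = j from rfl, pow_succ]
  push_cast at h3 ⊢
  generalize g ^ j = u
  generalize hd : g - t * q = d at hD ⊢
  obtain rfl : g = d + t * q := by linarith
  field_simp
  ring

/-- The transport of the circle volume to the volume of `g`. -/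
structure Transport (p : ℕ) (g σ : ℝ → ℝ) : Prop where
  cont : ContinuousOn σ (Icc 0 1)
  zero : σ 0 = 0
  one : σ 1 = 1
  mem : ∀ t ∈ Icc (0 : ℝ) 1, σ t ∈ Icc (0 : ℝ) 1
  mem_Ioo : ∀ t ∈ Ioo (0 : ℝ) 1, σ t ∈ Ioo (0 : ℝ) 1
  deriv : ∀ t ∈ Ioo (0 : ℝ) 1, HasDerivAt σ (g t ^ (p + 1) / arc (σ t) ^ (p + 1)) t
  mass : ∀ t ∈ Icc (0 : ℝ) 1, ∫ u in (0 : ℝ)..σ t, arc u ^ (p + 1) = ∫ u in (0 : ℝ)..t, g u ^ (p + 1)

theorem continuous_arc : Continuous arc := by unfold arc; fun_prop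

theorem arc_pos {u : ℝ} (hu : u ∈ Ioo (-1 : ℝ) 1) : 0 < arc u :=
  Real.sqrt_pos.2 (by nlinarith [hu.1, hu.2])

theorem Regular.pos_of_lt {f : ℝ → ℝ} (hf : Regular f) {t : ℝ} (ht : t ∈ Ico (0 : ℝ) 1) :
    0 < f t := by
  have h := hf.concave.2 (show (0 : ℝ) ∈ Icc (-1 : ℝ) 1 by norm_num)
    (show (1 : ℝ) ∈ Icc (-1 : ℝ) 1 by norm_num) (sub_nonneg.2 ht.2.le) ht.1 (by ring)
  simp only [smul_eq_mul, mul_zero, zero_add, mul_one] at h
  nlinarith [hf.pos, hf.nonneg 1 (by norm_num), ht.1, ht.2]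

/-- The transport exists. -/
theorem exists_transport_arc (p : ℕ) {g : ℝ → ℝ} (hg : Regular g)
    (hvol : ∫ t in (0 : ℝ)..1, g t ^ (p + 1) = ∫ t in (0 : ℝ)..1, arc t ^ (p + 1)) :
    ∃ σ, Transport p g σ := by
  have hc : Continuous fun u => arc u ^ (p + 1) := continuous_arc.pow _
  set F : ℝ → ℝ := fun x => ∫ u in (0 : ℝ)..x, arc u ^ (p + 1) with hF
  have hFd : ∀ x, HasDerivAt F (arc x ^ (p + 1)) x := fun x =>
    (hc.integral_hasStrictDerivAt 0 x).hasDerivAt
  have hFc : Continuous F := continuous_iff_continuousAt.2 fun x => (hFd x).continuousAt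
  have hFm : StrictMonoOn F (Icc 0 1) := strictMonoOn_of_deriv_pos (convex_Icc 0 1) hFc.continuousOn
    fun x hx => by
      rw [interior_Icc] at hx
      rw [(hFd x).deriv]
      exact pow_pos (arc_pos ⟨by linarith [hx.1], hx.2⟩) _
  set P : ℝ → ℝ := fun x => (projIcc (0 : ℝ) 1 zero_le_one x : ℝ) with hP
  have hPc : Continuous P := continuous_subtype_val.comp continuous_projIcc
  have hPm : ∀ x, P x ∈ Icc (0 : ℝ) 1 := fun x => (projIcc (0 : ℝ) 1 zero_le_one x).2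
  have hPe : ∀ x ∈ Icc (0 : ℝ) 1, P x = x := fun x hx => by
    simp only [hP, projIcc_of_mem _ hx]
  have hPeq : ∀ x, P x = max 0 (min 1 x) := fun x => by simp only [hP, coe_projIcc]
  set G : ℝ → ℝ := fun x => (x - P x) + F (P x) with hG
  have hGc : Continuous G := (continuous_id.sub hPc).add (hFc.comp hPc)
  have hGm : StrictMono G := by
    intro x y hxy
    have h1 : P x ≤ P y := by
      simp only [hPeq]; exact max_le_max le_rfl (min_le_min le_rfl hxy.le)
    have h2 : x - P x ≤ y - P y := by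
      simp only [hPeq]; rcases max_cases 0 (min 1 x) with a | a <;>
        rcases max_cases 0 (min 1 y) with b | b <;> rcases min_cases 1 x with c | c <;>
        rcases min_cases 1 y with d | d <;> linarith
    rcases h1.lt_or_eq with h | h
    · simp only [hG]; linarith [hFm (hPm x) (hPm y) h]
    · simp only [hG, h]; linarith
  have hF0 : F 0 = 0 := by simp [hF]
  have htop : Tendsto G atTop atTop := by
    refine Tendsto.congr' (f₁ := fun x => x + (F 1 - 1)) ?_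
      (tendsto_atTop_add_const_right _ _ tendsto_id)
    filter_upwards [eventually_ge_atTop 1] with x hx
    simp only [hG, hPeq, min_eq_left hx, max_eq_right zero_le_one]; ring
  have hbot : Tendsto G atBot atBot := by
    refine Tendsto.congr' (f₁ := fun x => x) ?_ tendsto_id
    filter_upwards [eventually_le_atBot 0] with x hx
    simp only [hG, hPeq, min_eq_right (hx.trans zero_le_one), max_eq_left hx, hF0]; ring
  set H := (hGm.orderIsoOfSurjective G (hGc.surjective htop hbot)).symm with hH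
  have hHG : ∀ x, H (G x) = x := fun x => (hGm.orderIsoOfSurjective G _).symm_apply_apply x
  have hGH : ∀ y, G (H y) = y := fun y => (hGm.orderIsoOfSurjective G _).apply_symm_apply y
  have hGF : ∀ x ∈ Icc (0 : ℝ) 1, G x = F x := fun x hx => by
    simp only [hG, hPe x hx, sub_self, zero_add]
  have hgc : ContinuousOn (fun t => g t ^ (p + 1)) (Icc (0 : ℝ) 1) :=
    (hg.cont.mono (Icc_subset_Icc (by norm_num) le_rfl)).pow _
  have hgi : IntervalIntegrable (fun t => g t ^ (p + 1)) volume 0 1 :=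
    hgc.intervalIntegrable_of_Icc zero_le_one
  have hsub : ∀ {a b : ℝ}, a ∈ Icc (0 : ℝ) 1 → b ∈ Icc (0 : ℝ) 1 →
      IntervalIntegrable (fun t => g t ^ (p + 1)) volume a b := fun ha hb =>
    (hgc.mono (uIcc_subset_Icc ha hb)).intervalIntegrable
  set J : ℝ → ℝ := fun t => ∫ u in (0 : ℝ)..t, g u ^ (p + 1) with hJ
  have hJc : ContinuousOn J (Icc 0 1) := by
    have := intervalIntegral.continuousOn_primitive_interval' hgi left_mem_uIcc
    rwa [uIcc_of_le zero_le_one] at this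
  have hgp : ∀ u ∈ Ico (0 : ℝ) 1, 0 < g u ^ (p + 1) := fun u hu => pow_pos (hg.pos_of_lt hu) _
  have hJd : ∀ t ∈ Ioo (0 : ℝ) 1, HasDerivAt J (g t ^ (p + 1)) t := fun t ht =>
    intervalIntegral.integral_hasDerivAt_right (hsub (left_mem_Icc.2 zero_le_one) (Ioo_subset_Icc_self ht))
      ((hgc.mono Ioo_subset_Icc_self).stronglyMeasurableAtFilter isOpen_Ioo t ht)
      (hgc.continuousAt (Icc_mem_nhds ht.1 ht.2))
  have hJm : StrictMonoOn J (Icc 0 1) := strictMonoOn_of_deriv_pos (convex_Icc 0 1) hJc fun x hx => by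
    rw [interior_Icc] at hx
    rw [(hJd x hx).deriv]
    exact hgp x ⟨hx.1.le, hx.2⟩
  have hJ0 : J 0 = 0 := by simp [hJ]
  have hJ1 : J 1 = F 1 := hvol
  set σ : ℝ → ℝ := fun t => H (J t) with hσ
  have hz : σ 0 = 0 := by
    have e : J 0 = G 0 := by rw [hJ0, hGF 0 (left_mem_Icc.2 zero_le_one), hF0]
    simp only [hσ, e, hHG]
  have ho : σ 1 = 1 := by
    have e : J 1 = G 1 := by rw [hJ1, hGF 1 (right_mem_Icc.2 zero_le_one)]
    simp only [hσ, e, hHG]
  have hmem : ∀ t ∈ Icc (0 : ℝ) 1, σ t ∈ Icc (0 : ℝ) 1 := fun t ht =>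
    ⟨hz ▸ H.monotone (hJm.monotoneOn (left_mem_Icc.2 zero_le_one) ht ht.1),
      ho ▸ H.monotone (hJm.monotoneOn ht (right_mem_Icc.2 zero_le_one) ht.2)⟩
  have hmemo : ∀ t ∈ Ioo (0 : ℝ) 1, σ t ∈ Ioo (0 : ℝ) 1 := fun t ht =>
    ⟨hz ▸ H.strictMono (hJm (left_mem_Icc.2 zero_le_one) (Ioo_subset_Icc_self ht) ht.1),
      ho ▸ H.strictMono (hJm (Ioo_subset_Icc_self ht) (right_mem_Icc.2 zero_le_one) ht.2)⟩
  refine ⟨σ, H.continuous.comp_continuousOn hJc, hz, ho, hmem, hmemo, fun t ht => ?_,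
    fun t ht => ?_⟩
  · have hst := hmemo t ht
    have hGd : HasDerivAt G (arc (σ t) ^ (p + 1)) (σ t) := by
      refine (hFd (σ t)).congr_of_eventuallyEq ?_
      filter_upwards [Ioo_mem_nhds hst.1 hst.2] with x hx
      exact hGF x (Ioo_subset_Icc_self hx)
    have hHd : HasDerivAt (fun y => H y) (arc (σ t) ^ (p + 1))⁻¹ (J t) :=
      HasDerivAt.of_local_left_inverse H.continuous.continuousAt hGd
        (pow_pos (arc_pos ⟨by linarith [hst.1], hst.2⟩) _).ne' (Eventually.of_forall hGH)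
    refine (hHd.comp t (hJd t ht)).congr_deriv ?_
    rw [div_eq_inv_mul]
  · show F (σ t) = J t
    rw [← hGF _ (hmem t ht)]
    exact hGH _

namespace Transport

variable {p : ℕ} {g σ : ℝ → ℝ}

theorem rate_nonneg (hg : Regular g) {t : ℝ} (ht : t ∈ Icc (0 : ℝ) 1) :
    0 ≤ g t ^ (p + 1) / arc (σ t) ^ (p + 1) :=
  div_nonneg (pow_nonneg (hg.nonneg t ⟨by linarith [ht.1], ht.2⟩) _)
    (pow_nonneg (Real.sqrt_nonneg _) _)

theorem integrable_rate (h : Transport p g σ) (hg : Regular g) :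
    IntervalIntegrable (fun t => g t ^ (p + 1) / arc (σ t) ^ (p + 1)) volume 0 1 := by
  rw [intervalIntegrable_iff_integrableOn_Ioc_of_le zero_le_one]
  exact intervalIntegral.integrableOn_deriv_right_of_nonneg h.cont
    (fun x hx => (h.deriv x hx).hasDerivWithinAt) fun x hx => rate_nonneg hg (Ioo_subset_Icc_self hx)

/-- Change of variables from the profile to the circle. -/
theorem integral_rate_mul (h : Transport p g σ) (hg : Regular g) {φ : ℝ → ℝ} (hφ : Continuous φ) :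
    ∫ t in (0 : ℝ)..1, g t ^ (p + 1) / arc (σ t) ^ (p + 1) * φ (σ t) = ∫ s in (0 : ℝ)..1, φ s := by
  set Φ : ℝ → ℝ := fun x => ∫ u in (0 : ℝ)..x, φ u with hΦ
  have hd : ∀ x, HasDerivAt Φ (φ x) x := fun x => (hφ.integral_hasStrictDerivAt 0 x).hasDerivAt
  have hi : IntervalIntegrable (fun t => g t ^ (p + 1) / arc (σ t) ^ (p + 1) * φ (σ t)) volume 0 1 :=
    (h.integrable_rate hg).mul_continuousOn (by
      rw [uIcc_of_le zero_le_one]; exact hφ.comp_continuousOn h.cont)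
  rw [intervalIntegral.integral_eq_sub_of_hasDerivAt_of_le zero_le_one
    ((continuous_iff_continuousAt.2 fun x => (hd x).continuousAt).comp_continuousOn h.cont)
    (fun t ht => ((hd _).comp t (h.deriv t ht)).congr_deriv (by ring)) hi]
  simp [hΦ, h.zero, h.one]

end Transport

theorem Regular.icept_ne {g : ℝ → ℝ} (hg : Regular g) {t : ℝ} (ht : t ∈ Ioo (0 : ℝ) 1) :
    g t - t * slopeR g t ≠ 0 :=
  (hg.icept_pos ⟨by linarith [ht.1], ht.2⟩).ne'

/-- The integrand of the linear functional is integrable. -/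
theorem Regular.integrable_identL {g : ℝ → ℝ} (hg : Regular g) (p : ℕ) (M1 M2 : ℝ) :
    IntervalIntegrable (identL p M1 M2 g) volume (-1) 1 := by
  have hu : uIcc (-1 : ℝ) 1 = Icc (-1) 1 := uIcc_of_le (by norm_num)
  have hgp : ContinuousOn (fun t => g t ^ p) (uIcc (-1 : ℝ) 1) := hu.symm ▸ hg.cont.pow p
  have i1 : IntervalIntegrable (fun t => g t ^ p * slopeR g t * bestTest g t) volume (-1) 1 := by
    have hp := hg.integrable_slopeR.continuousOn_mul hgp
    rw [intervalIntegrable_iff] at hp ⊢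
    exact hp.mul_bdd (monotone_bestTest hg).measurable.aestronglyMeasurable
      (ae_of_all _ fun t => by rw [Real.norm_eq_abs]; exact abs_bestTest_le hg t)
  have i2 := hgp.intervalIntegrable (μ := volume)
  refine ((i2.add ((hg.integrable_pi p).const_mul (-M1))).add (i1.const_mul (-M2))).congr_ae ?_
  rw [uIoc_of_le (by norm_num : (-1 : ℝ) ≤ 1)]
  filter_upwards [ae_restrict_mem measurableSet_Ioc, ae_restrict_of_ae (Measure.ae_ne volume (1 : ℝ))]
    with t ht h1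
  have hto : t ∈ Ioo (-1 : ℝ) 1 := ⟨ht.1, lt_of_le_of_ne ht.2 h1⟩
  have := (hg.icept_pos hto).ne'
  simp only [identL, bestTest_eq hto, Pi.add_apply]
  field_simp
  ring

/-- The exact identity for the linear functional on the half line. -/
theorem halfForm_eq {p : ℕ} (hp : 2 ≤ p) (M1 M2 : ℝ) {g σ : ℝ → ℝ} (hg : Regular g)
    (hσ : Transport p g σ) (k kt ks Φ Φt Φs : ℝ → ℝ → ℝ)
    (hk : ∀ s ∈ Ioo (0 : ℝ) 1, ∀ t ∈ Ioo (0 : ℝ) 1, HasFDerivAt (fun x : ℝ × ℝ => k x.1 x.2)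
      (ks s t • ContinuousLinearMap.fst ℝ ℝ ℝ + kt s t • ContinuousLinearMap.snd ℝ ℝ ℝ) (s, t))
    (hΦ : ∀ s ∈ Ioo (0 : ℝ) 1, ∀ t ∈ Ioo (0 : ℝ) 1, HasFDerivAt (fun x : ℝ × ℝ => Φ x.1 x.2)
      (Φs s t • ContinuousLinearMap.fst ℝ ℝ ℝ + Φt s t • ContinuousLinearMap.snd ℝ ℝ ℝ) (s, t))
    (hkc : ContinuousOn (fun x : ℝ × ℝ => k x.1 x.2) (Icc 0 1 ×ˢ Icc 0 1))
    (hktc : ContinuousOn (fun x : ℝ × ℝ => kt x.1 x.2) (Icc 0 1 ×ˢ Icc 0 1))
    (hksc : ContinuousOn (fun x : ℝ × ℝ => ks x.1 x.2) (Icc 0 1 ×ˢ Icc 0 1))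
    (hΦc : ContinuousOn (fun x : ℝ × ℝ => Φ x.1 x.2) (Icc 0 1 ×ˢ Icc 0 1))
    (hΦtc : ContinuousOn (fun x : ℝ × ℝ => Φt x.1 x.2) (Icc 0 1 ×ˢ Icc 0 1))
    (hΦsc : ContinuousOn (fun x : ℝ × ℝ => Φs x.1 x.2) (Icc 0 1 ×ˢ Icc 0 1))
    (hk0 : k 0 0 = 0) (hk1 : k 1 1 = 1) :
    IntervalIntegrable (fun t => identK p M1 M2 k kt ks Φt Φs (σ t) t (g t)
        (g t ^ (p + 1) / arc (σ t) ^ (p + 1))) volume 0 1 ∧
      IntervalIntegrable (fun t => identE p M1 M2 k (σ t) t (g t) (slopeR g t)) volume 0 1 ∧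
      halfForm p M1 M2 g =
        (∫ t in (0 : ℝ)..1, identK p M1 M2 k kt ks Φt Φs (σ t) t (g t)
            (g t ^ (p + 1) / arc (σ t) ^ (p + 1))) +
          (∫ t in (0 : ℝ)..1, identE p M1 M2 k (σ t) t (g t) (slopeR g t)) + (Φ 1 1 - Φ 0 0) := by
  have hu : uIcc (0 : ℝ) 1 = Icc 0 1 := uIcc_of_le zero_le_one
  set r : ℝ → ℝ := fun t => g t ^ (p + 1) / arc (σ t) ^ (p + 1) with hr
  have hgc : ContinuousOn g (Icc 0 1) := hg.cont.mono (Icc_subset_Icc (by norm_num) le_rfl)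
  have hst : ContinuousOn (fun t => (σ t, t)) (Icc (0 : ℝ) 1) := hσ.cont.prodMk continuousOn_id
  have hmaps : MapsTo (fun t => (σ t, t)) (Icc (0 : ℝ) 1) (Icc 0 1 ×ˢ Icc 0 1) :=
    fun t ht => ⟨hσ.mem t ht, ht⟩
  have ck : ContinuousOn (fun t => k (σ t) t) (Icc 0 1) := hkc.comp hst hmaps
  have ckt : ContinuousOn (fun t => kt (σ t) t) (Icc 0 1) := hktc.comp hst hmaps
  have cks : ContinuousOn (fun t => ks (σ t) t) (Icc 0 1) := hksc.comp hst hmaps
  have cP : ContinuousOn (fun t => Φ (σ t) t) (Icc 0 1) := hΦc.comp hst hmaps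
  have cPt : ContinuousOn (fun t => Φt (σ t) t) (Icc 0 1) := hΦtc.comp hst hmaps
  have cPs : ContinuousOn (fun t => Φs (σ t) t) (Icc 0 1) := hΦsc.comp hst hmaps
  have hri : IntervalIntegrable r volume 0 1 := hσ.integrable_rate hg
  have hqi : IntervalIntegrable (slopeR g) volume 0 1 := hg.integrable_slopeR.mono_set (by
    rw [hu, uIcc_of_le (by norm_num : (-1 : ℝ) ≤ 1)]; exact Icc_subset_Icc (by norm_num) le_rfl)
  have hLi : IntervalIntegrable (identL p M1 M2 g) volume 0 1 :=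
    (hg.integrable_identL p M1 M2).mono_set (by
      rw [hu, uIcc_of_le (by norm_num : (-1 : ℝ) ≤ 1)]; exact Icc_subset_Icc (by norm_num) le_rfl)
  set K := fun t => identK p M1 M2 k kt ks Φt Φs (σ t) t (g t) (r t) with hK
  set D := fun t => identD p M1 M2 k kt ks Φt Φs (σ t) t (g t) (r t) (slopeR g t) with hD
  have hKi : IntervalIntegrable K volume 0 1 := by
    have e1 : ContinuousOn (fun t => identK p M1 M2 k kt ks Φt Φs (σ t) t (g t) 0) (uIcc (0 : ℝ) 1) := by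
      rw [hu]; simp only [identK]; fun_prop
    have e2 : ContinuousOn (fun t => identK p M1 M2 k kt ks Φt Φs (σ t) t (g t) 1 -
        identK p M1 M2 k kt ks Φt Φs (σ t) t (g t) 0) (uIcc (0 : ℝ) 1) := by
      rw [hu]; simp only [identK]; fun_prop
    refine (e1.intervalIntegrable.add (hri.mul_continuousOn e2)).congr fun t _ => ?_
    simp only [hK, identK]
    ring
  have hDi : IntervalIntegrable D volume 0 1 := by
    have e0 : ContinuousOn (fun t => identD p M1 M2 k kt ks Φt Φs (σ t) t (g t) 0 0)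
        (uIcc (0 : ℝ) 1) := by
      rw [hu]; simp only [identD]; fun_prop
    have e1 : ContinuousOn (fun t => identD p M1 M2 k kt ks Φt Φs (σ t) t (g t) 1 0 -
        identD p M1 M2 k kt ks Φt Φs (σ t) t (g t) 0 0) (uIcc (0 : ℝ) 1) := by
      rw [hu]; simp only [identD]; fun_prop
    have e2 : ContinuousOn (fun t => identD p M1 M2 k kt ks Φt Φs (σ t) t (g t) 0 1 -
        identD p M1 M2 k kt ks Φt Φs (σ t) t (g t) 0 0) (uIcc (0 : ℝ) 1) := by
      rw [hu]; simp only [identD]; fun_prop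
    refine ((e0.intervalIntegrable.add (hri.mul_continuousOn e1)).add
      (hqi.mul_continuousOn e2)).congr fun t _ => ?_
    simp only [hD, identD]
    ring
  have hpt : ∀ t ∈ Ioo (0 : ℝ) 1, identE p M1 M2 k (σ t) t (g t) (slopeR g t) =
      identL p M1 M2 g t - K t - D t := fun t ht => by
    rw [hK, hD, identL, icept, ident_pointwise hp M1 M2 k kt ks Φt Φs (r := r t) (hg.icept_ne ht)]
    ring
  have hEi : IntervalIntegrable (fun t => identE p M1 M2 k (σ t) t (g t) (slopeR g t)) volume 0 1 := by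
    refine ((hLi.sub hKi).sub hDi).congr_ae ?_
    rw [uIoc_of_le zero_le_one]
    filter_upwards [ae_restrict_mem measurableSet_Ioc,
      ae_restrict_of_ae (Measure.ae_ne volume (1 : ℝ))] with t ht h1
    exact (hpt t ⟨ht.1, lt_of_le_of_ne ht.2 h1⟩).symm
  refine ⟨hKi, hEi, ?_⟩
  set Ψ := fun t => identPsi p M1 M2 k Φ (σ t) t (g t) with hΨ
  have hΨd : ∀ t ∈ Ioo (0 : ℝ) 1, HasDerivWithinAt Ψ (D t) (Ioi t) t := fun t ht => by
    have hg' := hasDerivWithinAt_slopeR hg.concave (⟨by linarith [ht.1], ht.2⟩ : t ∈ Ioo (-1 : ℝ) 1)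
    have hs' := (hσ.deriv t ht).hasDerivWithinAt (s := Ioi t)
    have hid : HasDerivWithinAt (fun u : ℝ => u) 1 (Ioi t) t := hasDerivWithinAt_id t _
    have hpair : HasDerivWithinAt (fun u => (σ u, u)) (r t, 1) (Ioi t) t := hs'.prodMk hid
    have hk' := HasFDerivAt.comp_hasDerivWithinAt (f := fun u => (σ u, u))
      (l := fun x : ℝ × ℝ => k x.1 x.2) t (hk _ (hσ.mem_Ioo t ht) t ht) hpair
    have hΦ' := HasFDerivAt.comp_hasDerivWithinAt (f := fun u => (σ u, u))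
      (l := fun x : ℝ × ℝ => Φ x.1 x.2) t (hΦ _ (hσ.mem_Ioo t ht) t ht) hpair
    simp only [Function.comp_def, ContinuousLinearMap.add_apply, ContinuousLinearMap.smul_apply,
      ContinuousLinearMap.coe_fst', ContinuousLinearMap.coe_snd', smul_eq_mul] at hk' hΦ'
    have hkt := hk'.mul hid
    have ha := (((hk'.mul (hkt.const_sub 2)).const_mul (-M2)).mul (hg'.fun_pow (p + 1))).div_const
      ((p : ℝ) + 1)
    have hb := (((hid.mul ((hkt.const_sub 1).fun_pow 2)).const_mul M1).mul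
      (hg'.fun_pow (p - 1))).div_const ((p : ℝ) - 1)
    refine ((ha.sub hb).add hΦ').congr_deriv ?_
    obtain ⟨j, rfl⟩ := Nat.exists_eq_add_of_le' hp
    have h2 : (0 : ℝ) < (j : ℝ) + 1 := by positivity
    have h3 : (0 : ℝ) < ((j + 2 : ℕ) : ℝ) + 1 := by positivity
    simp only [hD, hr, identD, show ((j + 2 : ℕ) : ℝ) - 1 = (j : ℝ) + 1 by push_cast; ring,
      show j + 2 - 1 = j + 1 from rfl, show j + 2 - 2 = j from rfl, Nat.add_sub_cancel, Pi.mul_apply,
      Pi.sub_apply, Pi.pow_apply]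
    push_cast
    field_simp
    ring
  have hFTC := intervalIntegral.integral_eq_sub_of_hasDeriv_right_of_le zero_le_one
    (by simp only [hΨ, identPsi]; fun_prop) hΨd hDi
  have hends : Ψ 1 - Ψ 0 = -M2 * g 1 ^ (p + 1) / ((p : ℝ) + 1) + (Φ 1 1 - Φ 0 0) := by
    simp only [hΨ, identPsi, hσ.zero, hσ.one, hk0, hk1]
    ring
  have hint : ∫ t in (0 : ℝ)..1, identL p M1 M2 g t =
      ∫ t in (0 : ℝ)..1, (K t + identE p M1 M2 k (σ t) t (g t) (slopeR g t) + D t) := by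
    refine intervalIntegral.integral_congr_ae ?_
    filter_upwards [Measure.ae_ne volume (1 : ℝ)] with t h1 ht
    rw [uIoc_of_le zero_le_one] at ht
    rw [hpt t ⟨ht.1, lt_of_le_of_ne ht.2 h1⟩]
    ring
  rw [halfForm, hint, intervalIntegral.integral_add (hKi.add hEi) hDi,
    intervalIntegral.integral_add hKi hEi, hFTC, hends]
  ring

end Vale.Agent.P237.Petty
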