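import Vale.Agent.P237.Petty.StepJohn

/-!
# P237: the chain of the induction in an arbitrary direction

For a symmetric fixed point of the squared projection body map every unit direction `u` gives, on
the profile of the sections scaled to `[-1, 1]`, the inequality
`R (∫ g^k)^(k+1) ≤ ratio K (∫ g^(k+1))^k`.
-/

namespace Vale.Agent.P237.Petty

open MeasureTheory Set Module
open AllN (hslice vroot glue)
open scoped RealInnerProductSpace Pointwise

universe u

set_option linter.unusedSectionVars false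

variable {E : Type u} [NormedAddCommGroup E] [InnerProductSpace ℝ E] [FiniteDimensional ℝ E]
  [MeasurableSpace E] [BorelSpace E]

/-- The profile of the sections orthogonal to `u`, scaled to `[-1, 1]`. -/
noncomputable def dirProfile (k : ℕ) (K : Set E) (u : E) (t : ℝ) : ℝ :=
  vroot (hslice u K (supp K u * t)) / kappa (k + 1) ^ ((k + 1 : ℝ)⁻¹)

theorem supp_pos_of_body {K : Set E} (hK : Body K) (hs : -K = K) {u : E} (hu : ‖u‖ = 1) :
    0 < supp K u := by
  obtain ⟨r, hr, hball⟩ := Metric.nhds_basis_closedBall.mem_iff.1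
    (mem_interior_iff_mem_nhds.1 (hK.zero_mem_interior hs))
  refine lt_of_lt_of_le hr ((le_of_eq ?_).trans (le_supp hK.compact u (hball (show r • u ∈
    Metric.closedBall (0 : E) r by
      simp [norm_smul, hu, abs_of_pos hr]))))
  rw [real_inner_smul_right, real_inner_self_eq_norm_sq, hu, one_pow, mul_one]

theorem dirProfile_facts (k : ℕ) (hfin : finrank ℝ E = k + 2) {K : Set E} (hK : Body K)
    (hs : -K = K) {u : E} (hu : ‖u‖ = 1) :
    ConcaveOn ℝ (Icc (-1) 1) (dirProfile k K u) ∧
      (∀ t, dirProfile k K u (-t) = dirProfile k K u t) ∧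
      (∀ t ∈ Icc (-1 : ℝ) 1, 0 ≤ dirProfile k K u t) ∧
      (∀ t, volume.real (hslice u K (supp K u * t)) =
        kappa (k + 1) * dirProfile k K u t ^ (k + 1)) ∧
      (∀ j : ℕ, IntervalIntegrable (fun t => dirProfile k K u t ^ j) volume (-1) 1) ∧
      volume.real K = kappa (k + 1) * supp K u * ∫ t in (-1)..1, dirProfile k K u t ^ (k + 1) := by
  have : Fact (finrank ℝ E = (k + 1) + 1) := ⟨hfin⟩
  have hm : finrank ℝ (ℝ ∙ u)ᗮ = k + 1 :=
    Submodule.finrank_orthogonal_span_singleton (norm_ne_zero_iff.1 (by simp [hu]))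
  have : Nontrivial (ℝ ∙ u)ᗮ := Module.nontrivial_of_finrank_eq_succ hm
  set h := supp K u with hh
  have hpos : 0 < h := supp_pos_of_body hK hs hu
  set ρ : ℝ := kappa (k + 1) ^ ((k + 1 : ℝ)⁻¹) with hρdef
  have hκ := kappa_pos (k + 1)
  have hρ : 0 < ρ := Real.rpow_pos_of_pos hκ _
  have hρp : ρ ^ (k + 1) = kappa (k + 1) := by
    rw [hρdef, show (k + 1 : ℝ) = ((k + 1 : ℕ) : ℝ) by push_cast; rfl]
    exact Real.rpow_inv_natCast_pow hκ.le (by omega)
  have hX := hK.compact
  obtain ⟨x, hx, hxu⟩ := exists_supp_eq hX hK.nonempty u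
  have hne : ∀ t ∈ Icc (-h) h, (hslice u K t).Nonempty := fun t ht => by
    set a := (1 + t / h) / 2 with ha
    have h1 : t / h ∈ Icc (-1 : ℝ) 1 :=
      ⟨by rw [le_div_iff₀ hpos]; linarith [ht.1], by rw [div_le_one hpos]; exact ht.2⟩
    have hxn : -x ∈ K := by rw [← hs]; simpa using hx
    set z := a • x + (1 - a) • -x with hz
    have hzK : z ∈ K := hK.convex hx hxn (by rw [ha]; linarith [h1.1])
      (by rw [ha]; linarith [h1.2]) (by ring)
    have hzu : ⟪u, z⟫ = t := by
      rw [hz, inner_add_right, real_inner_smul_right, real_inner_smul_right, inner_neg_right, hxu,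
        ← hh, ha]
      field_simp
      ring
    refine ⟨(ℝ ∙ u)ᗮ.orthogonalProjectionOnto z, ?_⟩
    show glue u ((ℝ ∙ u)ᗮ.orthogonalProjectionOnto z, t) ∈ K
    rwa [← hzu, AllN.glue_proj hu]
  have hconc : ConcaveOn ℝ (Icc (-h) h) fun t => vroot (hslice u K t) :=
    AllN.concaveOn_vroot_hslice u hX hK.convex hne
  have hmem : ∀ t ∈ Icc (-1 : ℝ) 1, h * t ∈ Icc (-h) h := fun t ht =>
    ⟨by nlinarith [ht.1, hpos], by nlinarith [ht.2, hpos]⟩
  have hc : ConcaveOn ℝ (Icc (-1) 1) (dirProfile k K u) := by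
    refine ⟨convex_Icc _ _, fun a ha b hb p q hp hq hpq => ?_⟩
    have := hconc.2 (hmem a ha) (hmem b hb) hp hq hpq
    simp only [smul_eq_mul, dirProfile, ← hh, ← hρdef] at this ⊢
    rw [show h * (p * a + q * b) = p * (h * a) + q * (h * b) by ring, mul_div_assoc', mul_div_assoc',
      ← add_div]
    exact div_le_div_of_nonneg_right this hρ.le
  have hvol : ∀ t, volume.real (hslice u K (h * t)) =
      kappa (k + 1) * dirProfile k K u t ^ (k + 1) := fun t => by
    rw [dirProfile, ← hρdef, ← hh, div_pow, hρp, mul_div_cancel₀ _ hκ.ne', ← hm, AllN.vroot_pow]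
  refine ⟨hc, fun t => ?_, fun t _ => div_nonneg (AllN.vroot_nonneg _) hρ.le, hvol, ?_, ?_⟩
  · have e : hslice u K (h * -t) = -hslice u K (h * t) := by
      ext y
      show glue u (y, h * -t) ∈ K ↔ glue u (-y, h * t) ∈ K
      conv_rhs => rw [← hs, Set.mem_neg]
      simp only [glue, Submodule.coe_neg, neg_add, neg_neg, mul_neg, neg_smul]
    rw [dirProfile, dirProfile, ← hh, e, vroot, vroot, measureReal_def, measureReal_def,
      Measure.measure_neg]
  · intro j
    obtain ⟨x₀, -, hmax⟩ := AllN.exists_max_hslice u hX (show -h ≤ h by linarith)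
    exact AllN.integrable_pow (by norm_num) hc
      (fun t _ => div_nonneg (AllN.vroot_nonneg _) hρ.le)
      (fun t ht => div_le_div_of_nonneg_right (hmax _ (hmem t ht)) hρ.le) j
  · have hv := AllN.measurePreserving_glue hu
    have e1 : volume.real K = ∫ t in (-h)..h, volume.real (hslice u K t) := by
      have hb : ∀ y ∈ (h⁻¹ • K), |⟪u, y⟫| ≤ 1 := by
        rintro _ ⟨y, hy, rfl⟩
        simp only [real_inner_smul_right, abs_mul, abs_inv, abs_of_pos hpos]
        rw [inv_mul_le_iff₀ hpos, mul_one]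
        exact abs_inner_le_supp hK hs hy
      have h2 := integral_height hu (hX.smul h⁻¹) hb (h := fun _ => (1 : ℝ)) measurable_const
        (C := 1) (fun _ _ => by simp)
      rw [setIntegral_const, smul_eq_mul, mul_one] at h2
      simp only [one_mul] at h2
      have hvs : volume.real (h⁻¹ • K) = h⁻¹ ^ finrank ℝ E * volume.real K := by
        rw [measureReal_def, Measure.addHaar_smul_of_nonneg _ (inv_nonneg.2 hpos.le),
          ENNReal.toReal_mul, ENNReal.toReal_ofReal (pow_nonneg (inv_nonneg.2 hpos.le) _),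
          ← measureReal_def]
      have hsl : ∀ t, volume.real (hslice u (h⁻¹ • K) t) =
          h⁻¹ ^ (k + 1) * volume.real (hslice u K (h * t)) := fun t => by
        have e : hslice u (h⁻¹ • K) t = h⁻¹ • hslice u K (h * t) := by
          ext y
          rw [mem_smul_set_iff_inv_smul_mem₀ (inv_ne_zero hpos.ne'), inv_inv]
          show glue u (y, t) ∈ h⁻¹ • K ↔ glue u (h • y, h * t) ∈ K
          rw [mem_smul_set_iff_inv_smul_mem₀ (inv_ne_zero hpos.ne'), inv_inv]
          simp only [glue, Submodule.coe_smul, smul_add, smul_smul]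
        rw [e, measureReal_def, Measure.addHaar_smul_of_nonneg _ (inv_nonneg.2 hpos.le),
          ENNReal.toReal_mul, ENNReal.toReal_ofReal (pow_nonneg (inv_nonneg.2 hpos.le) _),
          ← measureReal_def, hm]
      simp only [hvs, hsl, intervalIntegral.integral_const_mul, hfin] at h2
      rw [intervalIntegral.integral_comp_mul_left (fun t => volume.real (hslice u K t)) hpos.ne',
        smul_eq_mul, mul_neg, mul_one, pow_succ _ (k + 1), mul_assoc] at h2
      have := mul_left_cancel₀ (pow_ne_zero _ (inv_ne_zero hpos.ne')) h2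
      exact mul_left_cancel₀ (inv_ne_zero hpos.ne') this
    have h2 := intervalIntegral.integral_comp_mul_left (a := (-1 : ℝ)) (b := 1)
      (fun t => volume.real (hslice u K t)) hpos.ne'
    rw [mul_neg, mul_one, ← e1, smul_eq_mul] at h2
    simp only [hvol, intervalIntegral.integral_const_mul] at h2
    rw [mul_assoc, mul_left_comm, h2, mul_inv_cancel_left₀ hpos.ne']

/-- The chain of the induction in the direction `u`. -/
theorem dir_chain {k : ℕ} (hfin : finrank ℝ E = k + 2) {R : ℝ} (hR : 0 ≤ R) {u : E} (hu : ‖u‖ = 1)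
    (H : ∀ L : Set (ℝ ∙ u)ᗮ, IsCompact L → Convex ℝ L →
      R * volume.real L ^ k ≤ volume.real (projBody L))
    {K : Set E} (hK : Body K) (hs : -K = K) (hfix : ratio K ≤ ratio (projBody K)) :
    R * (∫ t in (-1)..1, dirProfile k K u t ^ k) ^ (k + 1) ≤
      ratio K * (∫ t in (-1)..1, dirProfile k K u t ^ (k + 1)) ^ k := by
  have hn : 2 ≤ finrank ℝ E := by omega
  obtain ⟨-, -, -, hvol, -, hV⟩ := dirProfile_facts k hfin hK hs hu
  set h := supp K u with hh
  have hpos : 0 < h := supp_pos_of_body hK hs hu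
  set ρ : ℝ := kappa (k + 1) ^ ((k + 1 : ℝ)⁻¹) with hρdef
  have hκ := kappa_pos (k + 1)
  have hρ : 0 < ρ := Real.rpow_pos_of_pos hκ _
  have hρp : ρ ^ (k + 1) = kappa (k + 1) := by
    rw [hρdef, show (k + 1 : ℝ) = ((k + 1 : ℕ) : ℝ) by push_cast; rfl]
    exact Real.rpow_inv_natCast_pow hκ.le (by omega)
  have hne : ∀ t ∈ Icc (-h) h, (hslice u K t).Nonempty := fun t ht => by
    obtain ⟨x, hx, hxu⟩ := exists_supp_eq hK.compact hK.nonempty u
    have hxn : -x ∈ K := by rw [← hs]; simpa using hx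
    have : Convex ℝ ((fun y => ⟪u, y⟫) '' K) :=
      hK.convex.linear_image (innerₗ E u)
    obtain ⟨y, hy, hyt⟩ := this.ordConnected.out
      (mem_image_of_mem _ hxn) (mem_image_of_mem _ hx)
      (show t ∈ Icc ⟪u, -x⟫ ⟪u, x⟫ by rw [inner_neg_right, hxu, ← hh]; exact ht)
    refine ⟨(ℝ ∙ u)ᗮ.orthogonalProjectionOnto y, ?_⟩
    show glue u ((ℝ ∙ u)ᗮ.orthogonalProjectionOnto y, t) ∈ K
    rwa [← hyt, AllN.glue_proj hu]
  have hsh := shadow_projBody k hR hu hfin H hK.compact hK.convex (hK.zero_mem_interior hs)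
    (show -h ≤ h by linarith) hne
  have hint : ∫ t in (-h)..h, vroot (hslice u K t) ^ k =
      h * (ρ ^ k * ∫ t in (-1)..1, dirProfile k K u t ^ k) := by
    have h2 := intervalIntegral.integral_comp_mul_left (a := (-1 : ℝ)) (b := 1)
      (fun t => vroot (hslice u K t) ^ k) hpos.ne'
    rw [mul_neg, mul_one, smul_eq_mul] at h2
    rw [← intervalIntegral.integral_const_mul]
    have e : ∀ t, ρ ^ k * dirProfile k K u t ^ k = vroot (hslice u K (h * t)) ^ k := fun t => by
      rw [dirProfile, ← hρdef, ← hh, ← mul_pow, mul_div_cancel₀ _ hρ.ne']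
    simp only [e, h2, mul_inv_cancel_left₀ hpos.ne']
  rw [hint, fixed_symm hn hK hs hfix hu, ← hh] at hsh
  have hr1 : volume.real (projBody K) / volume.real K = ratio K * volume.real K ^ k := by
    rw [ratio, show finrank ℝ E - 1 = k + 1 by omega, pow_succ]
    have := hK.volume_pos.ne'
    field_simp
  rw [hr1, hV] at hsh
  set A := ∫ t in (-1 : ℝ)..1, dirProfile k K u t ^ k
  set B := ∫ t in (-1 : ℝ)..1, dirProfile k K u t ^ (k + 1)
  refine le_of_mul_le_mul_left ?_ (mul_pos (pow_pos hpos (k + 1)) (pow_pos hκ k))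
  calc h ^ (k + 1) * kappa (k + 1) ^ k * (R * A ^ (k + 1))
      = R * (h * (ρ ^ k * A)) ^ (k + 1) := by
        rw [mul_pow, mul_pow, ← pow_mul, mul_comm k (k + 1), pow_mul, hρp]; ring
    _ ≤ ratio K * (kappa (k + 1) * h * B) ^ k * h := hsh
    _ = h ^ (k + 1) * kappa (k + 1) ^ k * (ratio K * B ^ k) := by
        rw [mul_pow, mul_pow]; ring

end Vale.Agent.P237.Petty
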