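import Vale.Agent.P237.Petty.DirLimit
import Vale.Agent.P237.Petty.Even

/-!
# P237: from the linear inequality to the criterion in John position
-/

namespace Vale.Agent.P237.Petty

open MeasureTheory Set Filter Topology

/-- The entropy term of a profile is, up to any `ε`, at most the Fisher bound of its Schwarz body. -/
def StamBound (p : ℕ) : Prop :=
  ∀ f : ℝ → ℝ, Regular f → (∀ t ∈ Icc (-1 : ℝ) 1, √(1 - t ^ 2) ≤ f t) → ∀ ε : ℝ, 0 < ε →
    ∃ g : ℝ → ℝ, Continuous g ∧ (∀ t, 0 < g t) ∧ Integrable g ∧ (∫ t, g t) ≤ 1 ∧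
      (∃ (A : ℝ) (k : ℕ), ∀ t, |Real.log (g t)| ≤ A * (1 + |t|) ^ k) ∧
      entTerm p f g ≤ ((p : ℝ) + 1) / 2 *
          Real.log (piInt p f / ∫ t in (-1 : ℝ)..1, f t ^ (p + 1)) +
        ((p : ℝ) + 1) / ((p : ℝ) + 2) * Real.log (relVolume p f) + ε

/-- A concave even profile has a continuous version. -/
theorem exists_regular {f : ℝ → ℝ} (hc : ConcaveOn ℝ (Icc (-1) 1) f) (he : ∀ t, f (-t) = f t)
    (hge : ∀ t ∈ Icc (-1 : ℝ) 1, √(1 - t ^ 2) ≤ f t) :
    ∃ F : ℝ → ℝ, Regular F ∧ (∀ t ∈ Icc (-1 : ℝ) 1, √(1 - t ^ 2) ≤ F t) ∧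
      ∀ t ∈ Ioo (-1 : ℝ) 1, F t = f t := by
  set L := sInf (f '' Ioo (0 : ℝ) 1)
  set F : ℝ → ℝ := fun t => if |t| < 1 then f t else L with hF
  have hmono := antitoneOn_of_concave_even hc he
  have hnn : ∀ t ∈ Ioo (0 : ℝ) 1, 0 ≤ f t := fun t ht =>
    (Real.sqrt_nonneg _).trans (hge t ⟨by linarith [ht.1], ht.2.le⟩)
  have hbdd : BddBelow (f '' Ioo (0 : ℝ) 1) := ⟨0, by rintro _ ⟨t, ht, rfl⟩; exact hnn t ht⟩
  have hlim : Tendsto f (𝓝[<] 1) (𝓝 L) :=
    (hmono.mono Ioo_subset_Icc_self).tendsto_nhdsWithin_Ioo_left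
      (nonempty_Ioo.2 zero_lt_one) hbdd
  have hin : ∀ t ∈ Ioo (-1 : ℝ) 1, F t = f t := fun t ht => if_pos (abs_lt.2 ht)
  have heven : ∀ t, F (-t) = F t := fun t => by simp only [hF, abs_neg, he]
  have hone : F 1 = L := by simp [hF]
  have hcI : ContinuousOn f (Ioo (-1) 1) :=
    (hc.subset Ioo_subset_Icc_self (convex_Ioo _ _)).continuousOn isOpen_Ioo
  have hat : ∀ x ∈ Icc (-1 : ℝ) 1, Tendsto (fun r => f (r * x)) (𝓝[<] 1) (𝓝 (F x)) := by
    intro x hx
    by_cases h : |x| < 1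
    · rw [hin x (abs_lt.1 h)]
      refine (hcI.continuousAt (Ioo_mem_nhds (abs_lt.1 h).1 (abs_lt.1 h).2)).tendsto.comp ?_
      exact ((continuous_mul_const x).tendsto' 1 x (one_mul x)).mono_left nhdsWithin_le_nhds
    · rcases eq_or_eq_neg_of_abs_eq (le_antisymm (abs_le.2 hx) (not_lt.1 h)) with rfl | rfl
      · simp only [mul_one, hone]; exact hlim
      · simp only [mul_neg, mul_one, he, heven, hone]; exact hlim
  have hconc : ConcaveOn ℝ (Icc (-1) 1) F := by
    refine ⟨convex_Icc _ _, fun x hx y hy a b ha hb hab => ?_⟩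
    refine le_of_tendsto_of_tendsto (((hat x hx).const_smul a).add ((hat y hy).const_smul b))
      (hat _ ((convex_Icc _ _) hx hy ha hb hab)) ?_
    filter_upwards [Ioo_mem_nhdsLT zero_lt_one] with r hr
    have hm : ∀ z ∈ Icc (-1 : ℝ) 1, r * z ∈ Icc (-1 : ℝ) 1 := fun z hz =>
      ⟨by nlinarith [hz.1, hr.1, hr.2], by nlinarith [hz.2, hr.1, hr.2]⟩
    have := hc.2 (hm x hx) (hm y hy) ha hb hab
    simp only [smul_eq_mul] at this ⊢
    rwa [show r * (a * x + b * y) = a * (r * x) + b * (r * y) by ring]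
  have hgeF : ∀ t ∈ Icc (-1 : ℝ) 1, √(1 - t ^ 2) ≤ F t := by
    intro t ht
    by_cases h : |t| < 1
    · rw [hin t (abs_lt.1 h)]; exact hge t ht
    · have : 1 - t ^ 2 ≤ 0 := by nlinarith [sq_abs t, not_lt.1 h]
      rw [Real.sqrt_eq_zero'.2 this, hF]
      simp only [if_neg h]
      exact le_csInf ((nonempty_Ioo.2 zero_lt_one).image f)
        (by rintro _ ⟨u, hu, rfl⟩; exact hnn u hu)
  have hnnF : ∀ t ∈ Icc (-1 : ℝ) 1, 0 ≤ F t := fun t ht => (Real.sqrt_nonneg _).trans (hgeF t ht)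
  have hright : ContinuousWithinAt F (Icc (-1) 1) 1 := by
    rw [ContinuousWithinAt, nhdsWithin_Icc_eq_nhdsLE (by norm_num : (-1 : ℝ) < 1),
      show Iic (1 : ℝ) = Iio 1 ∪ {1} by ext; simp [le_iff_lt_or_eq], nhdsWithin_union,
      nhdsWithin_singleton, tendsto_sup, hone]
    refine ⟨hlim.congr' ?_, by rw [← hone]; exact tendsto_pure_nhds _ _⟩
    filter_upwards [Ioo_mem_nhdsLT (by norm_num : (-1 : ℝ) < 1)] with r hr using (hin r hr).symm
  have hcont : ContinuousOn F (Icc (-1) 1) := by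
    intro x hx
    by_cases h : |x| < 1
    · have hU := Ioo_mem_nhds (abs_lt.1 h).1 (abs_lt.1 h).2
      refine ((hcI.continuousAt hU).congr ?_).continuousWithinAt
      filter_upwards [hU] with y hy using (hin y hy).symm
    · rcases eq_or_eq_neg_of_abs_eq (le_antisymm (abs_le.2 hx) (not_lt.1 h)) with rfl | rfl
      · exact hright
      · have e : F = F ∘ Neg.neg := funext fun t => (heven t).symm
        rw [e]
        exact hright.comp_of_eq (continuous_neg.continuousWithinAt)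
          (fun t ht => ⟨by linarith [ht.2], by linarith [ht.1]⟩) (neg_neg 1)
  refine ⟨F, ⟨hconc, hcont, heven, hnnF, ?_⟩, hgeF, hin⟩
  have := hgeF 0 (by norm_num)
  norm_num at this
  linarith

/-- Integrals only see the open interval. -/
theorem integral_congr_Ioo {u w : ℝ → ℝ} (h : ∀ t ∈ Ioo (-1 : ℝ) 1, u t = w t) :
    ∫ t in (-1 : ℝ)..1, u t = ∫ t in (-1 : ℝ)..1, w t := by
  refine intervalIntegral.integral_congr_ae ?_
  filter_upwards [Measure.ae_ne volume (1 : ℝ)] with t h1 ht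
  rw [uIoc_of_le (by norm_num : (-1 : ℝ) ≤ 1)] at ht
  exact h t ⟨ht.1, lt_of_le_of_ne ht.2 h1⟩

theorem pavg_congr {f F : ℝ → ℝ} (h : ∀ t ∈ Ioo (-1 : ℝ) 1, F t = f t) (j : ℕ) (u : ℝ → ℝ) :
    pavg j F u = pavg j f u := by
  rw [pavg, pavg]
  congr 1 <;> exact integral_congr_Ioo fun t ht => by rw [h t ht]

theorem Regular.integrable_pi {f : ℝ → ℝ} (hf : Regular f) (p : ℕ) :
    IntervalIntegrable (fun t => f t ^ p / icept f t) volume (-1) 1 := by
  obtain ⟨C, hC⟩ := isCompact_Icc.exists_bound_of_continuousOn hf.cont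
  have hs := (intervalIntegrable_iff.1 hf.integrable_slopeR).aestronglyMeasurable
  rw [intervalIntegrable_iff, uIoc_of_le (by norm_num : (-1 : ℝ) ≤ 1)] at *
  have hfm : AEStronglyMeasurable f (volume.restrict (Ioc (-1 : ℝ) 1)) :=
    (hf.cont.mono Ioc_subset_Icc_self).aestronglyMeasurable measurableSet_Ioc
  have hD : AEStronglyMeasurable (icept f) (volume.restrict (Ioc (-1 : ℝ) 1)) :=
    hfm.sub (continuous_id.aestronglyMeasurable.mul hs)
  refine IntegrableOn.of_bound measure_Ioc_lt_top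
    (((hfm.pow p).aemeasurable.div hD.aemeasurable).aestronglyMeasurable) (|C| ^ p / f 0) ?_
  filter_upwards [ae_restrict_mem measurableSet_Ioc, ae_restrict_of_ae (Measure.ae_ne volume (1 : ℝ))]
    with t ht h1
  have hto : t ∈ Ioo (-1 : ℝ) 1 := ⟨ht.1, lt_of_le_of_ne ht.2 h1⟩
  rw [norm_div, norm_pow, Real.norm_eq_abs, Real.norm_eq_abs, abs_of_pos (hf.icept_pos hto)]
  exact div_le_div₀ (by positivity) (pow_le_pow_left₀ (abs_nonneg _)
    ((hC t (Ioc_subset_Icc_self ht)).trans (le_abs_self C)) p) hf.pos (hf.le_icept hto)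

theorem Regular.smul {f : ℝ → ℝ} (hf : Regular f) {s : ℝ} (hs : 0 < s) :
    Regular fun t => s * f t :=
  ⟨by simpa [smul_eq_mul] using hf.concave.smul hs.le, continuousOn_const.mul hf.cont,
    fun t => by simp only [hf.even], fun t ht => mul_nonneg hs.le (hf.nonneg t ht),
    mul_pos hs hf.pos⟩

theorem slopeR_smul {f : ℝ → ℝ} (hf : Regular f) (s : ℝ) {t : ℝ} (ht : t ∈ Ioo (-1 : ℝ) 1) :
    slopeR (fun x => s * f x) t = s * slopeR f t :=
  ((hasDerivWithinAt_slopeR hf.concave ht).const_mul s).derivWithin (uniqueDiffWithinAt_Ioi t)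

/-- The algebra at a contact where the combination of averaged facts is nonnegative. -/
theorem contact_conclusion (p : ℕ) {c0 c1 A B AG s Φ C : ℝ} (hc0 : 0 < c0) (hB : 0 < B)
    (hs : s ^ (p + 1) = c1 / B) (hAG : AG = s ^ p * A) (hC : 0 ≤ C) (h0 : 0 ≤ Φ)
    (hle : Φ ≤ ((p : ℝ) + 1) * (AG / c0 - 1) - C) (heq : Φ = 0 → s = 1) :
    c0 ^ (p + 1) * B ^ p ≤ A ^ (p + 1) * c1 ^ p ∧
      (c0 ^ (p + 1) * B ^ p = A ^ (p + 1) * c1 ^ p → B = c1) := by
  have hp : (0 : ℝ) < (p : ℝ) + 1 := by positivity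
  have h3 : 0 ≤ ((p : ℝ) + 1) * (AG / c0 - 1) := by linarith
  have h4 := nonneg_of_mul_nonneg_right h3 hp
  rw [sub_nonneg, one_le_div hc0] at h4
  have hpow : AG ^ (p + 1) = c1 ^ p * A ^ (p + 1) / B ^ p := by
    rw [hAG, mul_pow, ← pow_mul, mul_comm p (p + 1), pow_mul, hs, div_pow, div_mul_eq_mul_div]
  have hBp : 0 < B ^ p := pow_pos hB p
  constructor
  · have := pow_le_pow_left₀ hc0.le h4 (p + 1)
    rw [hpow, le_div_iff₀ hBp] at this
    linarith
  · intro he
    have e : AG ^ (p + 1) = c0 ^ (p + 1) := by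
      rw [hpow, div_eq_iff hBp.ne', he, mul_comm]
    have eA : AG = c0 := (pow_left_inj₀ (hc0.le.trans h4) hc0.le (Nat.succ_ne_zero p)).1 e
    rw [eA, div_self hc0.ne', sub_self, mul_zero, zero_sub] at hle
    have hs' := heq (le_antisymm (by linarith) h0)
    rw [hs', one_pow] at hs
    exact ((div_eq_one_iff_eq hB.ne').1 hs.symm).symm

/-- The linearised bound of the logarithms. -/
theorem log_bound (p : ℕ) {X s : ℝ} (hX : 0 < X) (hs : 0 < s) :
    ((p : ℝ) + 1) / 2 * Real.log (X * s ^ 2) +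
        ((p : ℝ) + 1) / ((p : ℝ) + 2) * -(((p : ℝ) + 1) * Real.log s) ≤
      ((p : ℝ) + 1) / 2 * (X - 1) + ((p : ℝ) + 1) / ((p : ℝ) + 2) * (s - 1) := by
  have h2 : (p : ℝ) + 2 ≠ 0 := by positivity
  have e : ((p : ℝ) + 1) / 2 * Real.log (X * s ^ 2) +
      ((p : ℝ) + 1) / ((p : ℝ) + 2) * -(((p : ℝ) + 1) * Real.log s) =
      ((p : ℝ) + 1) / 2 * Real.log X + ((p : ℝ) + 1) / ((p : ℝ) + 2) * Real.log s := by
    rw [Real.log_mul hX.ne' (by positivity), Real.log_pow]
    push_cast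
    field_simp
    ring
  rw [e]
  exact add_le_add (mul_le_mul_of_nonneg_left (Real.log_le_sub_one_of_pos hX) (by positivity))
    (mul_le_mul_of_nonneg_left (Real.log_le_sub_one_of_pos hs) (by positivity))

/-- The criterion for profiles of bounded relative volume. -/
theorem criterion_of_linear {p : ℕ} {mu nu s₀ : ℝ} (hmu : 0 ≤ mu) (hnu : 0 ≤ nu)
    (hL : LinearLemma p mu nu s₀) (hS : StamBound p) (f : ℝ → ℝ)
    (hc : ConcaveOn ℝ (Icc (-1) 1) f) (he : ∀ t, f (-t) = f t)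
    (hge : ∀ t ∈ Icc (-1 : ℝ) 1, √(1 - t ^ 2) ≤ f t)
    (hvol : s₀ ^ (p + 1) * relVolume p f ≤ 1) :
    ∃ φ ψ χ g : ℝ → ℝ, Tests φ ψ χ g ∧
      (0 ≤ nu * dirTerm p f φ + 0 * corTerm p f ψ χ + mu * entTerm p f g →
        circ p ^ (p + 1) * (∫ t in (-1)..1, f t ^ (p + 1)) ^ p ≤
            (∫ t in (-1)..1, f t ^ p) ^ (p + 1) * circ (p + 1) ^ p ∧
          (circ p ^ (p + 1) * (∫ t in (-1)..1, f t ^ (p + 1)) ^ p =
            (∫ t in (-1)..1, f t ^ p) ^ (p + 1) * circ (p + 1) ^ p →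
            ∫ t in (-1)..1, f t ^ (p + 1) = circ (p + 1))) := by
  obtain ⟨F, hF, hgeF, hin⟩ := exists_regular hc he hge
  have hA : ∫ t in (-1 : ℝ)..1, f t ^ p = ∫ t in (-1 : ℝ)..1, F t ^ p :=
    integral_congr_Ioo fun t ht => by rw [hin t ht]
  have hB : ∫ t in (-1 : ℝ)..1, f t ^ (p + 1) = ∫ t in (-1 : ℝ)..1, F t ^ (p + 1) :=
    integral_congr_Ioo fun t ht => by rw [hin t ht]
  have hdir : ∀ φ, dirTerm p f φ = dirTerm p F φ := fun φ => by
    rw [dirTerm, dirTerm, pavg_congr hin]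
  have hrel : relVolume p f = relVolume p F := by rw [relVolume, relVolume, hB]
  have hent : ∀ g, entTerm p f g = entTerm p F g := fun g => by
    simp only [entTerm, hrel, pavg_congr hin]
  have hc0 := circ_pos p
  have hc1 := circ_pos (p + 1)
  set B := ∫ t in (-1 : ℝ)..1, F t ^ (p + 1) with hBdef
  have hu : uIcc (-1 : ℝ) 1 = Icc (-1) 1 := uIcc_of_le (by norm_num)
  have hFi : ∀ j : ℕ, IntervalIntegrable (fun t => F t ^ j) volume (-1) 1 := fun j =>
    (ContinuousOn.pow (by rw [hu]; exact hF.cont) j).intervalIntegrable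
  have hBge : circ (p + 1) ≤ B :=
    intervalIntegral.integral_mono_on (by norm_num)
      (Continuous.intervalIntegrable (by fun_prop) _ _) (hFi _)
      fun t ht => pow_le_pow_left₀ (Real.sqrt_nonneg _) (hgeF t ht) _
  have hBpos : 0 < B := hc1.trans_le hBge
  have hFpos : ∀ t ∈ Ioo (-1 : ℝ) 1, 0 < F t := fun t ht =>
    (Real.sqrt_pos.2 (by nlinarith [ht.1, ht.2])).trans_le (hgeF t (Ioo_subset_Icc_self ht))
  have hPi : 0 < piInt p F :=
    intervalIntegral.intervalIntegral_pos_of_pos_on (hF.integrable_pi p)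
      (fun t ht => div_pos (pow_pos (hFpos t ht) p) (hF.icept_pos ht)) (by norm_num)
  -- scaling
  set s := (circ (p + 1) / B) ^ (((p + 1 : ℕ) : ℝ)⁻¹) with hsdef
  have hs : 0 < s := Real.rpow_pos_of_pos (div_pos hc1 hBpos) _
  have hsm : s ^ (p + 1) = circ (p + 1) / B :=
    Real.rpow_inv_natCast_pow (div_nonneg hc1.le hBpos.le) (Nat.succ_ne_zero p)
  have hs1 : s ≤ 1 := Real.rpow_le_one (div_nonneg hc1.le hBpos.le) ((div_le_one hBpos).2 hBge)
    (by positivity)
  have hs0 : s₀ ≤ s := by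
    by_cases h0 : s₀ ≤ 0
    · linarith
    have h1 : s₀ ^ (p + 1) ≤ s ^ (p + 1) := by
      rw [hsm, le_div_iff₀ hBpos]
      rw [hrel, relVolume, ← hBdef, ← mul_div_assoc, div_le_one hc1] at hvol
      exact hvol
    exact le_of_pow_le_pow_left₀ (Nat.succ_ne_zero p) hs.le h1
  set G := fun t => s * F t with hG
  have hGB : ∫ t in (-1 : ℝ)..1, G t ^ (p + 1) = circ (p + 1) := by
    simp only [hG, mul_pow]
    rw [intervalIntegral.integral_const_mul, hsm, ← hBdef, div_mul_cancel₀ _ hBpos.ne']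
  have hLl := hL G s (hF.smul hs).concave (hF.smul hs).cont (hF.smul hs).even hGB hs hs1 hs0
    fun t ht => mul_le_mul_of_nonneg_left (hgeF t ht) hs.le
  have hGA : ∫ t in (-1 : ℝ)..1, G t ^ p = s ^ p * ∫ t in (-1 : ℝ)..1, F t ^ p := by
    simp only [hG, mul_pow]
    rw [intervalIntegral.integral_const_mul]
  have hGp : piInt p G * s = s ^ p * piInt p F := by
    rw [piInt, piInt, ← intervalIntegral.integral_mul_const, ← intervalIntegral.integral_const_mul]
    refine integral_congr_Ioo fun t ht => ?_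
    have := (hF.icept_pos ht).ne'
    simp only [icept, hG, slopeR_smul hF s ht, mul_pow]
    rw [show s * F t - t * (s * slopeR F t) = s * (F t - t * slopeR F t) by ring]
    unfold icept at this
    field_simp
  have hGJ : jInt p G = s ^ (p + 1) * jInt p F := by
    rw [jInt, jInt, mul_add]
    refine congrArg₂ (· + ·) ?_ (by simp only [hG, mul_pow]; ring)
    rw [← mul_assoc, mul_comm (s ^ (p + 1)), mul_assoc]
    congr 1
    rw [← intervalIntegral.integral_const_mul]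
    refine integral_congr_Ioo fun t ht => ?_
    have := (hF.icept_pos ht).ne'
    simp only [icept, hG, slopeR_smul hF s ht, mul_pow]
    rw [show s * F t - t * (s * slopeR F t) = s * (F t - t * slopeR F t) by ring]
    unfold icept at this
    field_simp
    ring
  set X := piInt p G / circ (p + 1) with hX
  have hXe : piInt p F / B = X * s ^ 2 := by
    have h2 : piInt p G * s ^ 2 = s ^ (p + 1) * piInt p F := by
      rw [pow_succ s p, sq, ← mul_assoc, hGp]; ring
    rw [hX, div_mul_eq_mul_div, h2, hsm]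
    field_simp
  have hXpos : 0 < X := by
    have : 0 < X * s ^ 2 := hXe ▸ div_pos hPi hBpos
    exact pos_of_mul_pos_left this (sq_nonneg s)
  have hJe : jInt p G / circ (p + 1) = jInt p F / B := by
    rw [hGJ, hsm]; field_simp
  have hlogs : Real.log (relVolume p F) = -(((p : ℝ) + 1) * Real.log s) := by
    have e : relVolume p F = (s ^ (p + 1))⁻¹ := by rw [relVolume, hsm, inv_div]
    rw [e, Real.log_inv, Real.log_pow]
    push_cast
    ring
  set b := ((p : ℝ) + 1) / 2 * Real.log (piInt p F / B) +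
    ((p : ℝ) + 1) / ((p : ℝ) + 2) * Real.log (relVolume p F) with hb
  have hbub : b ≤ ((p : ℝ) + 1) / 2 * (X - 1) + ((p : ℝ) + 1) / ((p : ℝ) + 2) * (s - 1) := by
    rw [hb, hXe, hlogs]
    exact log_bound p hXpos hs
  set C := mu * b + nu * (1 - jInt p F / B) with hCdef
  clear_value C
  -- tests
  have hex : ∀ δ : ℝ, 0 < δ → ∃ φ ψ χ g : ℝ → ℝ, Tests φ ψ χ g ∧
      nu * dirTerm p f φ + 0 * corTerm p f ψ χ + mu * entTerm p f g ≤ C + (mu + nu) * δ := by
    intro δ hδ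
    obtain ⟨φ, hφ, hd⟩ := exists_dir hF p hBpos hδ
    obtain ⟨g, g1, g2, g3, g4, g5, hg⟩ := hS F hF hgeF δ hδ
    refine ⟨φ, fun t => t ^ 2 / 2, fun t => t ^ 2 / 2, g,
      ⟨hφ, by fun_prop, by fun_prop, fun u _ v _ => by nlinarith [sq_nonneg (u - v)],
        g1, g2, g3, g4, g5⟩, ?_⟩
    rw [hdir, hent, zero_mul, add_zero]
    have h1 := mul_le_mul_of_nonneg_left hd hnu
    have h2 := mul_le_mul_of_nonneg_left (show entTerm p F g ≤ b + δ from hg) hmu
    calc nu * dirTerm p F φ + mu * entTerm p F g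
        ≤ nu * (1 - jInt p F / B + δ) + mu * (b + δ) := add_le_add h1 h2
      _ = C + (mu + nu) * δ := by rw [hCdef]; ring
  by_cases hC : C < 0
  · obtain ⟨φ, ψ, χ, g, ht, hle⟩ := hex (-C / (2 * (mu + nu + 1))) (by
      exact div_pos (neg_pos.2 hC) (by positivity))
    refine ⟨φ, ψ, χ, g, ht, fun h => absurd (h.trans hle) (not_le.2 ?_)⟩
    have hpos : (0 : ℝ) < 2 * (mu + nu + 1) := by positivity
    have e : (mu + nu) * (-C / (2 * (mu + nu + 1))) = -C / 2 * ((mu + nu) / (mu + nu + 1)) := by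
      rw [div_mul_div_comm, mul_div_assoc']
      ring
    have h1 : (mu + nu) / (mu + nu + 1) ≤ 1 := (div_le_one (by positivity)).2 (by linarith)
    have h2 := mul_le_mul_of_nonneg_left h1 (by linarith : (0 : ℝ) ≤ -C / 2)
    rw [e]
    linarith
  · obtain ⟨φ, ψ, χ, g, ht, -⟩ := hex 1 one_pos
    refine ⟨φ, ψ, χ, g, ht, fun _ => ?_⟩
    rw [hA, hB]
    refine contact_conclusion p hc0 hBpos hsm hGA (not_lt.1 hC) hLl.1 ?_ hLl.2
    have h2 := mul_le_mul_of_nonneg_left hbub hmu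
    simp only [hCdef, linearForm, ← hX, hJe]
    linarith

end Vale.Agent.P237.Petty
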