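import Vale.Agent.P237.Petty.LinearCriterion
import Vale.Agent.P237.Petty.DirChain
import Vale.Agent.P237.Petty.Stam.Outer
import Vale.Agent.P237.Petty.Three

/-!
# P237: bodies of large relative volume, and the step from the linear inequality

A body in John position whose volume exceeds an explicit threshold has a contact direction in which
the step already holds, by the geometric Brascamp-Lieb inequality. Below the threshold the linear
one-variable inequality gives the step.
-/

namespace Vale.Agent.P237.Petty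

open MeasureTheory Set Module Filter Topology
open AllN (hslice vroot glue)
open scoped RealInnerProductSpace Pointwise

universe u

set_option linter.unusedSectionVars false

variable {E : Type u} [NormedAddCommGroup E] [InnerProductSpace ℝ E] [FiniteDimensional ℝ E]
  [MeasurableSpace E] [BorelSpace E]

/-- The arithmetic-geometric mean inequality behind the large volume case. -/
theorem young_contacts {ι : Type*} (s : Finset ι) (c z : ι → ℝ) (hc : ∀ i ∈ s, 0 ≤ c i)
    (hz : ∀ i ∈ s, 0 < z i) {N a P : ℝ} (hN : 0 < N) (hsum : ∑ i ∈ s, c i = N) (ha : 0 ≤ a)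
    (ha1 : a ≤ 1) (hP : 0 ≤ P) :
    P ^ a * ∏ i ∈ s, z i ^ ((1 - a) * (c i / N)) ≤
      a * P + (1 - a) * ∑ i ∈ s, c i / N * z i := by
  have h1 : ∏ i ∈ s, z i ^ (c i / N) ≤ ∑ i ∈ s, c i / N * z i :=
    Real.geom_mean_le_arith_mean_weighted s _ z (fun i hi => div_nonneg (hc i hi) hN.le)
      (by rw [← Finset.sum_div, hsum, div_self hN.ne']) fun i hi => (hz i hi).le
  have h0 : 0 ≤ ∏ i ∈ s, z i ^ (c i / N) :=
    Finset.prod_nonneg fun i hi => Real.rpow_nonneg (hz i hi).le _
  have e : ∏ i ∈ s, z i ^ ((1 - a) * (c i / N)) = (∏ i ∈ s, z i ^ (c i / N)) ^ (1 - a) := by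
    rw [← Real.finsetProd_rpow _ _ fun i hi => Real.rpow_nonneg (hz i hi).le _]
    exact Finset.prod_congr rfl fun i hi => by rw [← Real.rpow_mul (hz i hi).le, mul_comm]
  rw [e]
  calc _ ≤ a * P + (1 - a) * ∏ i ∈ s, z i ^ (c i / N) :=
        Real.geom_mean_le_arith_mean2_weighted ha (by linarith) hP h0 (by ring)
    _ ≤ _ := by gcongr

/-- In a body in John position some contact profile carries the root of the volume. -/
theorem exists_contact_volume (k : ℕ) (hfin : finrank ℝ E = k + 2) {K : Set E} (hK : Body K)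
    (hs : -K = K) (hball : Metric.closedBall 0 1 ⊆ K) (s : Finset E) (c : E → ℝ)
    (hc : ∀ v ∈ s, 0 ≤ c v ∧ ‖v‖ = 1 ∧ supp K v = 1) (hsum : ∑ v ∈ s, c v = finrank ℝ E)
    (hid : ∀ x : E, ∑ v ∈ s, c v * ⟪v, x⟫ ^ 2 = ‖x‖ ^ 2) :
    let f := fun v t => vroot (hslice v K t) / kappa (k + 1) ^ ((k + 1 : ℝ)⁻¹)
    ∃ v ∈ s, volume.real K ^ ((k + 2 : ℝ)⁻¹) * (∫ t in (-1)..1, f v t ^ (k + 1)) ^ k ≤
      (∫ t in (-1)..1, f v t ^ k) ^ (k + 1) := by
  intro f
  set V := volume.real K with hVdef
  have hV : 0 < V := hK.volume_pos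
  have hκ := kappa_pos (k + 1)
  set κ := kappa (k + 1) with hκdef
  set N : ℝ := (k : ℝ) + 2 with hNdef
  have hN : 0 < N := by positivity
  have hsN : ∑ v ∈ s, c v = N := by rw [hsum, hfin]; push_cast; ring
  have hprof := fun v (hv : v ∈ s) => contact_profile k hfin hK hs hball (hc v hv).2.1 (hc v hv).2.2
  choose! F hF hgeF hin using fun v (hv : v ∈ s) =>
    exists_regular (hprof v hv).2.1 (hprof v hv).2.2.1 (hprof v hv).2.2.2.1
  set G : E → ℝ → ℝ := fun v => IccExtend (by norm_num : (-1 : ℝ) ≤ 1) ((Icc (-1) 1).domRestrict (F v))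
    with hG
  have hGc : ∀ v ∈ s, Continuous (G v) := fun v hv =>
    (hF v hv).cont.domRestrict.Icc_extend'
  have hG0 : ∀ v ∈ s, ∀ t, 0 ≤ G v t := fun v hv t => (hF v hv).nonneg _ (projIcc _ _ _ t).2
  have hGin : ∀ v ∈ s, ∀ t ∈ Ioo (-1 : ℝ) 1, G v t = f v t := fun v hv t ht => by
    rw [hG]
    simp only [IccExtend_of_mem _ _ (Ioo_subset_Icc_self ht), Set.domRestrict_apply]
    exact hin v hv t ht
  set B : ℝ → E → ℝ := fun δ v => ∫ t in (-1 : ℝ)..1, (G v t + δ) ^ (k + 1) with hB
  set A : ℝ → E → ℝ := fun δ v => ∫ t in (-1 : ℝ)..1, (G v t + δ) ^ k with hA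
  -- the estimate for a positive shift
  have key : ∀ δ, 0 < δ → ∃ v ∈ s, V ^ N⁻¹ * V ^ (k + 1) ≤ B δ v * (κ * A δ v) ^ (k + 1) := by
    intro δ hδ
    have hp : ∀ v ∈ s, ∀ t, 0 < G v t + δ := fun v hv t => by linarith [hG0 v hv t]
    have hBp : ∀ v ∈ s, 0 < B δ v := fun v hv =>
      intervalIntegral.intervalIntegral_pos_of_pos
        ((((hGc v hv).add continuous_const).pow _).intervalIntegrable _ _)
        (fun t => pow_pos (hp v hv t) _) (by norm_num)
    have hAp : ∀ v ∈ s, 0 < A δ v := fun v hv =>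
      intervalIntegral.intervalIntegral_pos_of_pos
        ((((hGc v hv).add continuous_const).pow _).intervalIntegrable _ _)
        (fun t => pow_pos (hp v hv t) _) (by norm_num)
    set ρ : E → ℝ → ℝ := fun v t => (G v t + δ) ^ (k + 1) / B δ v with hρdef
    set P : E → ℝ := fun x => ∏ v ∈ s, ρ v ⟪v, x⟫ ^ c v with hPdef
    set z : E → E → ℝ := fun v x => (G v ⟪v, x⟫ + δ)⁻¹ / (κ * A δ v / V) with hzdef
    have hρ0 : ∀ v ∈ s, ∀ t, 0 < ρ v t := fun v hv t => div_pos (pow_pos (hp v hv t) _) (hBp v hv)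
    have hρc : ∀ v ∈ s, Continuous (ρ v) := fun v hv =>
      (((hGc v hv).add continuous_const).pow _).div_const _
    have hPc : Continuous P := continuous_finsetProd s fun v hv =>
      ((hρc v hv).comp (continuous_const.inner continuous_id)).rpow_const
        fun x => Or.inl (hρ0 v hv _).ne'
    have hP0 : ∀ x, 0 < P x := fun x =>
      Finset.prod_pos fun v hv => Real.rpow_pos_of_pos (hρ0 v hv _) _
    have hzc : ∀ v ∈ s, Continuous (z v) := fun v hv =>
      ((((hGc v hv).comp (continuous_const.inner continuous_id)).add continuous_const).inv₀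
        fun x => (hp v hv _).ne').div_const _
    have hint : interior K =ᵐ[volume] K :=
      interior_ae_eq_of_null_frontier (hK.convex.addHaar_frontier volume)
    have hsub : ∀ x ∈ interior K, ∀ v ∈ s, ⟪v, x⟫ ∈ Ioo (-1 : ℝ) 1 := fun x hx v hv => by
      obtain ⟨r, hr, hrK⟩ := Metric.nhds_basis_closedBall.mem_iff.1
        (mem_interior_iff_mem_nhds.1 hx)
      have hv1 := (hc v hv).2.1
      have h1 : ∀ σ : ℝ, |σ| ≤ r → |⟪v, x⟫ + σ| ≤ 1 := fun σ hσ => by
        have h := abs_inner_le_supp hK hs (hrK (show x + σ • v ∈ Metric.closedBall x r by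
          simp [norm_smul, hv1, hσ])) (v := v)
        rwa [inner_add_right, real_inner_smul_right, real_inner_self_eq_norm_sq, hv1, one_pow,
          mul_one, (hc v hv).2.2] at h
      exact ⟨by linarith [(abs_le.1 (h1 (-r) (by rw [abs_neg, abs_of_pos hr]))).1],
        by linarith [(abs_le.1 (h1 r (abs_of_pos hr).le)).2]⟩
    have hPi : IntegrableOn P K := hPc.continuousOn.integrableOn_compact hK.compact
    have hP1 : ∫ x in K, P x ≤ 1 := by
      rw [← setIntegral_congr_set hint, ← ENNReal.ofReal_le_ofReal_iff zero_le_one,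
        ofReal_integral_eq_lintegral_ofReal (hPi.congr_set_ae hint)
          (ae_of_all _ fun x => (hP0 x).le)]
      refine (Asym.geometric_bl (ι := E) (w := id) (p := fun _ => (-1 : ℝ)) (q := fun _ => 1)
        (f := ρ) (fun v hv => (hc v hv).1) (fun v hv => (hc v hv).2.1) hid
        (fun v hv => (hρc v hv).continuousOn) (fun v hv t _ => hρ0 v hv t)
        (fun v hv => (hρc v hv).integrableOn_Ioc.mono_set Ioo_subset_Ioc_self) measurableSet_interior
        hsub).trans (le_of_eq ?_)
      congr 1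
      refine Finset.prod_eq_one fun v hv => ?_
      rw [← integral_Ioc_eq_integral_Ioo, ← intervalIntegral.integral_of_le (by norm_num : (-1 : ℝ) ≤ 1)]
      simp only [hρdef, intervalIntegral.integral_div]
      rw [show (∫ t in (-1 : ℝ)..1, (G v t + δ) ^ (k + 1)) = B δ v from rfl, div_self (hBp v hv).ne',
        Real.one_rpow]
    have hz1 : ∀ v ∈ s, ∫ x in K, z v x ≤ V := fun v hv => by
      obtain ⟨hne, -, -, hge, hpow, hsl, -⟩ := hprof v hv
      have hh : Continuous fun t => (G v t + δ)⁻¹ :=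
        ((hGc v hv).add continuous_const).inv₀ fun t => (hp v hv t).ne'
      have hb : ∀ x ∈ K, |⟪v, x⟫| ≤ 1 := fun x hx =>
        (hc v hv).2.2 ▸ abs_inner_le_supp hK hs hx
      have hbd : ∀ t ∈ Icc (-1 : ℝ) 1, |(G v t + δ)⁻¹| ≤ δ⁻¹ := fun t _ => by
        rw [abs_of_pos (inv_pos.2 (hp v hv t))]
        exact inv_anti₀ hδ (by linarith [hG0 v hv t])
      simp only [hzdef, integral_div]
      rw [integral_height (hc v hv).2.1 hK.compact hb hh.measurable hbd]
      simp only [hsl]
      rw [div_le_iff₀ (by have := hAp v hv; positivity), mul_div_cancel₀ _ hV.ne', hA,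
        ← intervalIntegral.integral_const_mul]
      refine intervalIntegral.integral_mono_on_of_le_Ioo (by norm_num)
        (((hpow (k + 1)).const_mul κ).continuousOn_mul hh.continuousOn)
        (((((hGc v hv).add continuous_const).pow _).const_smul κ).intervalIntegrable _ _)
        fun t ht => ?_
      have hf0 : 0 ≤ f v t := (Real.sqrt_nonneg _).trans (hge t (Ioo_subset_Icc_self ht))
      show (G v t + δ)⁻¹ * (κ * f v t ^ (k + 1)) ≤ κ * (G v t + δ) ^ k
      rw [inv_mul_le_iff₀ (hp v hv t), hGin v hv t ht, mul_comm (f v t + δ), mul_assoc, ← pow_succ]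
      gcongr
      linarith
    set a : ℝ := (1 + ((k : ℝ) + 1) * N)⁻¹ with hadef
    have ha : 0 < a := by positivity
    have ha1 : a ≤ 1 := inv_le_one_of_one_le₀ (le_add_of_nonneg_right (by positivity))
    have hb : ∀ v, (1 - a) * (c v / N) = c v * a * ((k + 1 : ℕ) : ℝ) := fun v => by
      rw [hadef]; push_cast; field_simp; ring
    set X : E → ℝ := fun v => (V / (κ * A δ v)) ^ (k + 1) / B δ v with hXdef
    have hX0 : ∀ v ∈ s, 0 < X v := fun v hv => by
      have := hAp v hv; have := hBp v hv; simp only [hXdef]; positivity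
    have hconst : ∀ x, (V * P x) ^ a * ∏ v ∈ s, z v x ^ ((1 - a) * (c v / N)) =
        V ^ a * ∏ v ∈ s, X v ^ (c v * a) := fun x => by
      rw [Real.mul_rpow hV.le (hP0 x).le, mul_assoc]
      congr 1
      rw [hPdef, ← Real.finsetProd_rpow _ _ fun v hv => Real.rpow_nonneg (hρ0 v hv _).le _,
        ← Finset.prod_mul_distrib]
      refine Finset.prod_congr rfl fun v hv => ?_
      have hg := hp v hv ⟪v, x⟫
      have hA1 : 0 < κ * A δ v / V := div_pos (mul_pos hκ (hAp v hv)) hV
      have hz0 : 0 < z v x := div_pos (inv_pos.2 hg) hA1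
      rw [← Real.rpow_mul (hρ0 v hv _).le, hb, mul_comm (c v * a), Real.rpow_mul hz0.le,
        Real.rpow_natCast, ← Real.mul_rpow (hρ0 v hv _).le (pow_nonneg hz0.le _)]
      congr 1
      simp only [hρdef, hzdef, hXdef, div_pow, mul_pow, inv_pow]
      field_simp
    have hi1 : IntegrableOn (fun x => a * (V * P x)) K :=
      (continuous_const.mul (continuous_const.mul hPc)).continuousOn.integrableOn_compact hK.compact
    have hi2 : IntegrableOn (fun x => (1 - a) * ∑ v ∈ s, c v / N * z v x) K :=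
      (continuous_const.mul (continuous_finsetSum s fun v hv =>
        continuous_const.mul (hzc v hv))).continuousOn.integrableOn_compact hK.compact
    have hmain : V ^ a * (∏ v ∈ s, X v ^ (c v * a)) * V ≤ V := by
      have h := setIntegral_mono_on (f := fun _ => V ^ a * ∏ v ∈ s, X v ^ (c v * a))
        (integrableOn_const hK.compact.measure_ne_top) (hi1.add hi2) hK.compact.measurableSet
        fun x _ => (hconst x).symm.le.trans
          (young_contacts s c (fun v => z v x) (fun v hv => (hc v hv).1)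
            (fun v hv => div_pos (inv_pos.2 (hp v hv _)) (div_pos (mul_pos hκ (hAp v hv)) hV))
            hN hsN ha.le ha1 (mul_pos hV (hP0 x)).le)
      rw [setIntegral_const, smul_eq_mul, mul_comm] at h
      refine h.trans ?_
      rw [integral_add' hi1 hi2, integral_const_mul, integral_const_mul, integral_const_mul,
        integral_finsetSum s fun v hv =>
          ((hzc v hv).continuousOn.integrableOn_compact hK.compact).const_mul _]
      have h2 : ∑ v ∈ s, ∫ x in K, c v / N * z v x ≤ V := by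
        calc ∑ v ∈ s, ∫ x in K, c v / N * z v x ≤ ∑ v ∈ s, c v / N * V :=
              Finset.sum_le_sum fun v hv => by
                rw [integral_const_mul]
                exact mul_le_mul_of_nonneg_left (hz1 v hv) (div_nonneg (hc v hv).1 hN.le)
          _ = V := by rw [← Finset.sum_mul, ← Finset.sum_div, hsN, div_self hN.ne', one_mul]
      calc a * (V * ∫ x in K, P x) + (1 - a) * ∑ v ∈ s, ∫ x in K, c v / N * z v x
          ≤ a * (V * 1) + (1 - a) * V := by gcongr
        _ = V := by ring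
    have h1 := (le_div_iff₀ hV).2 hmain
    rw [div_self hV.ne'] at h1
    by_contra hno
    simp only [not_exists, not_and, not_le] at hno
    have hlow : ∀ v ∈ s, (V ^ N⁻¹)⁻¹ < X v := fun v hv => by
      have := hAp v hv
      have := hBp v hv
      simp only [hXdef, div_pow, div_div]
      rw [inv_eq_one_div, div_lt_div_iff₀ (by positivity) (by positivity), one_mul]
      calc _ = B δ v * (κ * A δ v) ^ (k + 1) := by ring
        _ < V ^ N⁻¹ * V ^ (k + 1) := hno v hv
        _ = _ := by ring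
    have h2 : ∏ v ∈ s, ((V ^ N⁻¹)⁻¹) ^ (c v * a) < ∏ v ∈ s, X v ^ (c v * a) := by
      refine Finset.prod_lt_prod (fun v hv => Real.rpow_pos_of_pos (by positivity) _)
        (fun v hv => Real.rpow_le_rpow (by positivity) (hlow v hv).le
          (mul_nonneg (hc v hv).1 ha.le)) ?_
      obtain ⟨w, hw, hcw⟩ : ∃ w ∈ s, c w ≠ 0 :=
        Finset.exists_ne_zero_of_sum_ne_zero (by rw [hsN]; exact hN.ne')
      exact ⟨w, hw, Real.rpow_lt_rpow (by positivity) (hlow w hw)
        (mul_pos ((hc w hw).1.lt_of_ne hcw.symm) ha)⟩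
    rw [← Real.rpow_sum_of_pos (inv_pos.2 (Real.rpow_pos_of_pos hV _)), ← Finset.sum_mul, hsN,
      Real.inv_rpow (Real.rpow_nonneg hV.le _), ← Real.rpow_mul hV.le, inv_mul_cancel_left₀ hN.ne']
      at h2
    have h3 := mul_lt_mul_of_pos_left h2 (Real.rpow_pos_of_pos hV a)
    rw [mul_inv_cancel₀ (Real.rpow_pos_of_pos hV a).ne'] at h3
    linarith
  -- let the shift tend to zero
  by_contra hno
  simp only [not_exists, not_and, not_le] at hno
  have hev : ∀ v ∈ s, ∀ᶠ δ in 𝓝[>] (0 : ℝ),
      B δ v * (κ * A δ v) ^ (k + 1) < V ^ N⁻¹ * V ^ (k + 1) := fun v hv => by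
    have hcj : ∀ j : ℕ, Continuous fun δ => ∫ t in (-1 : ℝ)..1, (G v t + δ) ^ j := fun j =>
      intervalIntegral.continuous_parametric_intervalIntegral_of_continuous'
        (f := fun δ t => (G v t + δ) ^ j)
        ((((hGc v hv).comp continuous_snd).add continuous_fst).pow j) _ _
    have hcont : Continuous fun δ => B δ v * (κ * A δ v) ^ (k + 1) :=
      (hcj (k + 1)).mul ((continuous_const.mul (hcj k)).pow _)
    refine ((hcont.tendsto 0).mono_left nhdsWithin_le_nhds).eventually_lt_const ?_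
    have e : ∀ j : ℕ, ∫ t in (-1 : ℝ)..1, (G v t + 0) ^ j = ∫ t in (-1 : ℝ)..1, f v t ^ j :=
      fun j => integral_congr_Ioo fun t ht => by rw [add_zero, hGin v hv t ht]
    have hvol : V = κ * ∫ t in (-1 : ℝ)..1, f v t ^ (k + 1) := (hprof v hv).2.2.2.2.2.2
    have hB0 : 0 < ∫ t in (-1 : ℝ)..1, f v t ^ (k + 1) := pos_of_mul_pos_right (hvol ▸ hV) hκ.le
    simp only [hB, hA, e]
    have h := mul_lt_mul_of_pos_left (hno v hv)
      (mul_pos (pow_pos hκ (k + 1)) hB0)
    calc (∫ t in (-1 : ℝ)..1, f v t ^ (k + 1)) * (κ * ∫ t in (-1 : ℝ)..1, f v t ^ k) ^ (k + 1)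
        = κ ^ (k + 1) * (∫ t in (-1 : ℝ)..1, f v t ^ (k + 1)) *
            (∫ t in (-1 : ℝ)..1, f v t ^ k) ^ (k + 1) := by ring
      _ < _ := h
      _ = V ^ N⁻¹ * (κ * ∫ t in (-1 : ℝ)..1, f v t ^ (k + 1)) ^ (k + 1) := by ring
      _ = _ := by rw [← hvol]
  obtain ⟨δ, hall, hδ⟩ :=
    (((s.eventually_all).2 hev).and self_mem_nhdsWithin).exists
  obtain ⟨v, hv, hle⟩ := key δ hδ
  exact absurd (hall v hv) (not_lt.2 hle)

/-- The linear inequality above the threshold gives the step in dimension `p + 2`. -/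
theorem stepHolds_of_linear {p : ℕ} {mu nu s₀ : ℝ} (hmu : 0 ≤ mu) (hnu : 0 ≤ nu) (hs₀ : 0 ≤ s₀)
    (hL : LinearLemma p mu nu s₀)
    (hthr : (circ p ^ (p + 1) / circ (p + 1) ^ p) ^ (p + 2) * s₀ ^ (p + 1) ≤ kappa (p + 2)) :
    StepHolds.{u} p := by
  intro E _ _ _ _ _ hfin R hR H K hK hs hfix
  have hn : 2 ≤ finrank ℝ E := by omega
  have : Nontrivial E := Module.nontrivial_of_finrank_eq_succ hfin
  obtain ⟨T, hball, s, c, hc, hsum, hid⟩ := exists_john_position hK hs
  set K' := T '' K with hK'def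
  have hK' : Body K' := hK.image T
  have hs' : -K' = K' := by
    rw [hK'def, ← Set.image_neg_eq_neg, image_image]
    conv_rhs => rw [← hs, ← Set.image_neg_eq_neg, image_image]
    simp
  have hrat : ratio K' = ratio K := ratio_image T hK
  have hfix' : ratio K' ≤ ratio (projBody K') := by
    rw [hK'def, ratio_projBody_image hK T]; rw [hrat]; exact hfix
  set V := volume.real K'
  have hV : 0 < V := hK'.volume_pos
  set f := fun v t => vroot (hslice v K' t) / kappa (p + 1) ^ ((p + 1 : ℝ)⁻¹) with hf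
  have hprof := fun v (hv : v ∈ s) => contact_profile p hfin hK' hs' hball (hc v hv).2.1 (hc v hv).2.2
  have hκ := kappa_pos (p + 1)
  have hκ2 := kappa_pos (p + 2)
  have hrel : ∀ v ∈ s, relVolume p (f v) = V / kappa (p + 2) := fun v hv => by
    rw [relVolume, circ_eq, show V = kappa (p + 1) * ∫ t in (-1)..1, f v t ^ (p + 1) from
      (hprof v hv).2.2.2.2.2.2]
    field_simp
  have hc0 := circ_pos p
  have hck1 := circ_pos (p + 1)
  obtain ⟨v, hv, hl1, hl2⟩ : ∃ v ∈ s,
      circ p ^ (p + 1) * (∫ t in (-1)..1, f v t ^ (p + 1)) ^ p ≤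
        (∫ t in (-1)..1, f v t ^ p) ^ (p + 1) * circ (p + 1) ^ p ∧
      (circ p ^ (p + 1) * (∫ t in (-1)..1, f v t ^ (p + 1)) ^ p =
        (∫ t in (-1)..1, f v t ^ p) ^ (p + 1) * circ (p + 1) ^ p →
        ∫ t in (-1)..1, f v t ^ (p + 1) = circ (p + 1)) := by
    by_cases hsmall : s₀ ^ (p + 1) * (V / kappa (p + 2)) ≤ 1
    · choose! φ ψ χ g htest himp using fun v (hv : v ∈ s) =>
        criterion_of_linear hmu hnu hL (Stam.stamBound p) (f v) (hprof v hv).2.1 (hprof v hv).2.2.1
          (hprof v hv).2.2.2.1 (by rw [hrel v hv]; exact hsmall)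
      have hcomb := combination_nonneg p hfin hK' hs' hball s c hc hsum hid hnu le_rfl hmu
        φ ψ χ g htest
      obtain ⟨v, hv, hgood⟩ : ∃ v ∈ s, 0 ≤ nu * dirTerm p (f v) (φ v) +
          0 * corTerm p (f v) (ψ v) (χ v) + mu * entTerm p (f v) (g v) := by
        by_contra hno
        simp only [not_exists, not_and, not_le] at hno
        obtain ⟨w, hw, hcw⟩ : ∃ w ∈ s, c w ≠ 0 := by
          refine Finset.exists_ne_zero_of_sum_ne_zero ?_
          rw [hsum]
          exact_mod_cast (by omega : finrank ℝ E ≠ 0)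
        refine absurd hcomb (not_le.2 (Finset.sum_neg' (fun u hu => ?_) ⟨w, hw, ?_⟩))
        · exact mul_nonpos_of_nonneg_of_nonpos (hc u hu).1 (hno u hu).le
        · exact mul_neg_of_pos_of_neg ((hc w hw).1.lt_of_ne hcw.symm) (hno w hw)
      exact ⟨v, hv, himp v hv hgood⟩
    · obtain ⟨v, hv, hle⟩ := exists_contact_volume p hfin hK' hs' hball s c hc hsum hid
      set G := circ p ^ (p + 1) / circ (p + 1) ^ p with hG
      have hG0 : 0 < G := by positivity
      have hbig : G < V ^ ((p + 2 : ℝ)⁻¹) := by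
        rw [not_le, ← mul_div_assoc, lt_div_iff₀ hκ2, one_mul] at hsmall
        have hs0 : 0 < s₀ ^ (p + 1) := by
          rcases (pow_nonneg hs₀ (p + 1)).eq_or_lt with h | h
          · rw [← h, zero_mul] at hsmall; linarith
          · exact h
        have h1 : G ^ (p + 2) < V := lt_of_mul_lt_mul_left
          (by rw [mul_comm] at hthr; linarith) hs0.le
        rw [Real.lt_rpow_inv_iff_of_pos hG0.le hV.le (by positivity)]
        exact_mod_cast h1
      have hB0 : 0 < ∫ t in (-1)..1, f v t ^ (p + 1) := by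
        have h1 : V = kappa (p + 1) * ∫ t in (-1)..1, f v t ^ (p + 1) :=
          (hprof v hv).2.2.2.2.2.2
        exact pos_of_mul_pos_right (h1 ▸ hV) hκ.le
      have hlt : circ p ^ (p + 1) * (∫ t in (-1)..1, f v t ^ (p + 1)) ^ p <
          (∫ t in (-1)..1, f v t ^ p) ^ (p + 1) * circ (p + 1) ^ p := by
        calc _ = G * (∫ t in (-1)..1, f v t ^ (p + 1)) ^ p * circ (p + 1) ^ p := by
              rw [hG]; field_simp
          _ < V ^ ((p + 2 : ℝ)⁻¹) * (∫ t in (-1)..1, f v t ^ (p + 1)) ^ p * circ (p + 1) ^ p := by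
              gcongr
          _ ≤ _ := mul_le_mul_of_nonneg_right hle (pow_nonneg hck1.le _)
      exact ⟨v, hv, hlt.le, fun h => absurd h hlt.ne⟩
  obtain ⟨hne, -, -, -, -, -, hvol⟩ := hprof v hv
  have hsupp := (hc v hv).2.2
  have hmain := dir_chain hfin hR.le (hc v hv).2.1 (H v (hc v hv).2.1) hK' hs' hfix'
  have hdp : dirProfile p K' v = f v := by
    funext t; simp only [dirProfile, hsupp, one_mul, hf]
  rw [hdp, hrat] at hmain
  set A := ∫ t in (-1 : ℝ)..1, f v t ^ p with hA
  set B := ∫ t in (-1 : ℝ)..1, f v t ^ (p + 1) with hB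
  change volume.real K' = kappa (p + 1) * B at hvol
  have hBpos : 0 < B := pos_of_mul_pos_right (hvol ▸ hV) hκ.le
  have hBk : 0 < B ^ p := pow_pos hBpos p
  have hfirst : stepValue p R ≤ ratio K := by
    rw [stepValue, div_le_iff₀ (pow_pos hck1 p)]
    refine le_of_mul_le_mul_right ?_ hBk
    calc R * circ p ^ (p + 1) * B ^ p = R * (circ p ^ (p + 1) * B ^ p) := by ring
      _ ≤ R * (A ^ (p + 1) * circ (p + 1) ^ p) := mul_le_mul_of_nonneg_left hl1 hR.le
      _ = R * A ^ (p + 1) * circ (p + 1) ^ p := by ring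
      _ ≤ ratio K * B ^ p * circ (p + 1) ^ p := mul_le_mul_of_nonneg_right hmain (by positivity)
      _ = ratio K * circ (p + 1) ^ p * B ^ p := by ring
  refine ⟨hfirst, fun hle => ⟨T, hK', hball, ?_⟩⟩
  rw [hvol]
  congr 1
  refine hl2 (le_antisymm hl1 ?_)
  refine le_of_mul_le_mul_left ?_ hR
  have h2 : ratio K * circ (p + 1) ^ p ≤ R * circ p ^ (p + 1) := by
    rwa [stepValue, le_div_iff₀ (pow_pos hck1 p)] at hle
  calc R * (A ^ (p + 1) * circ (p + 1) ^ p) = R * A ^ (p + 1) * circ (p + 1) ^ p := by ring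
    _ ≤ ratio K * B ^ p * circ (p + 1) ^ p := mul_le_mul_of_nonneg_right hmain (by positivity)
    _ = ratio K * circ (p + 1) ^ p * B ^ p := by ring
    _ ≤ R * circ p ^ (p + 1) * B ^ p := mul_le_mul_of_nonneg_right h2 hBk.le
    _ = R * (circ p ^ (p + 1) * B ^ p) := by ring

/-- Petty's inequality with its equality cases in every dimension where the linear inequality holds
down to the threshold. -/
theorem petty_of_linear {n : ℕ} (hn : 3 ≤ n)
    (hL : ∀ p, 2 ≤ p → p + 2 ≤ n → ∃ mu nu s₀ : ℝ, 0 ≤ mu ∧ 0 ≤ nu ∧ 0 ≤ s₀ ∧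
      LinearLemma p mu nu s₀ ∧
      (circ p ^ (p + 1) / circ (p + 1) ^ p) ^ (p + 2) * s₀ ^ (p + 1) ≤ kappa (p + 2))
    (hfin : finrank ℝ E = n) {K : Set E} (hK : Body K) :
    cPetty n * volume.real K ^ (n - 1) ≤ volume.real (projBody K) ∧
      (volume.real (projBody K) = cPetty n * volume.real K ^ (n - 1) ↔
        ∃ (T : E ≃L[ℝ] E) (a : E), K = (fun x => a + x) '' (T '' Metric.closedBall 0 1)) := by
  refine petty_of_steps hn (fun p hp hpn => ?_) hfin hK
  rcases hp.eq_or_lt with h | h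
  · subst h; exact stepHolds_of_profileLemma profileLemma_one
  · obtain ⟨mu, nu, s₀, h1, h2, h3, h4, h5⟩ := hL p h hpn
    exact stepHolds_of_linear h1 h2 h3 h4 h5

end Vale.Agent.P237.Petty
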