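import Vale.Agent.P237.Petty.Defs

/-!
# P237: John position of a symmetric body, with its contact decomposition
-/

namespace Vale.Agent.P237.Petty

open MeasureTheory Set Module Metric Filter Topology
open scoped RealInnerProductSpace Pointwise Matrix

set_option linter.unusedSectionVars false

/-- The convex hull of a compact set in a finite-dimensional space is compact. -/
theorem isCompact_hull {V : Type*} [NormedAddCommGroup V] [NormedSpace ℝ V] [FiniteDimensional ℝ V]
    {W : Set V} (hW : IsCompact W) : IsCompact (convexHull ℝ W) := by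
  classical
  rcases W.eq_empty_or_nonempty with rfl | ⟨w₀, hw₀⟩
  · simp
  set d := finrank ℝ V + 1
  have hc : IsCompact ((fun p : (Fin d → ℝ) × (Fin d → V) => ∑ i, p.1 i • p.2 i) ''
      (stdSimplex ℝ (Fin d) ×ˢ univ.pi fun _ => W)) :=
    ((isCompact_stdSimplex ℝ (Fin d)).prod (isCompact_univ_pi fun _ => hW)).image (by fun_prop)
  convert hc using 1
  refine subset_antisymm (fun x hx => ?_) ?_
  · obtain ⟨ι, _, z, w, hz, hind, hw0, hw1, hwz⟩ := eq_pos_convex_span_of_mem_convexHull hx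
    have hcard : Fintype.card ι ≤ d :=
      hind.card_le_finrank_succ.trans (Nat.add_le_add_right (Submodule.finrank_le _) 1)
    set e : ι ↪ Fin d := (Fintype.equivFin ι).toEmbedding.trans (Fin.castLEEmb hcard)
    refine ⟨(Function.extend e w 0, Function.extend e z (fun _ => w₀)),
      ⟨⟨fun i => ?_, ?_⟩, fun i _ => ?_⟩, ?_⟩
    · by_cases h : ∃ j, e j = i
      · obtain ⟨j, rfl⟩ := h; dsimp only; rw [e.injective.extend_apply]; exact (hw0 j).le
      · dsimp only; rw [Function.extend_apply' _ _ _ h]; simp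
    · rw [← hw1]
      refine (Fintype.sum_of_injective e e.injective _ _ (fun i hi => ?_) fun j => ?_).symm
      · dsimp only; rw [Function.extend_apply' _ _ _ (by simpa using hi)]; rfl
      · dsimp only; rw [e.injective.extend_apply]
    · by_cases h : ∃ j, e j = i
      · obtain ⟨j, rfl⟩ := h; dsimp only; rw [e.injective.extend_apply]; exact hz ⟨j, rfl⟩
      · dsimp only; rw [Function.extend_apply' _ _ _ h]; exact hw₀
    · rw [← hwz]
      refine (Fintype.sum_of_injective e e.injective _ _ (fun i hi => ?_) fun j => ?_).symm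
      · dsimp only; rw [Function.extend_apply' _ _ _ (by simpa using hi)]; simp
      · dsimp only; rw [e.injective.extend_apply, e.injective.extend_apply]
  · rintro _ ⟨⟨p, z⟩, ⟨hp, hz⟩, rfl⟩
    exact (convex_convexHull ℝ W).sum_mem (fun i _ => hp.1 i) hp.2
      fun i _ => subset_convexHull ℝ W (hz i (mem_univ i))

variable {E : Type*} [NormedAddCommGroup E] [InnerProductSpace ℝ E] [FiniteDimensional ℝ E]
  [MeasurableSpace E] [BorelSpace E]

/-- Membership through the support function. -/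
theorem mem_of_inner_le_supp {K : Set E} (hK : Body K) (h0 : (0 : E) ∈ K) {x : E}
    (h : ∀ u : E, ‖u‖ = 1 → ⟪u, x⟫ ≤ supp K u) : x ∈ K := by
  by_contra hx
  obtain ⟨f, a, hf, hfx⟩ := geometric_hahn_banach_closed_point hK.convex hK.compact.isClosed hx
  set w := (InnerProductSpace.toDual ℝ E).symm f
  have hw : ∀ z, ⟪w, z⟫ = f z := fun z => InnerProductSpace.toDual_symm_apply
  have hw0 : w ≠ 0 := fun h' => by
    have h1 := hf 0 h0
    rw [← hw, h', inner_zero_left] at h1 hfx
    linarith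
  have hn : 0 < ‖w‖⁻¹ := inv_pos.2 (norm_pos_iff.2 hw0)
  obtain ⟨z, hz, hzw⟩ := exists_supp_eq hK.compact hK.nonempty (‖w‖⁻¹ • w)
  have h1 := h (‖w‖⁻¹ • w) (norm_smul_inv_norm hw0)
  rw [← hzw, real_inner_smul_left, real_inner_smul_left, hw, hw] at h1
  have := le_of_mul_le_mul_left h1 hn
  linarith [hf z hz]

/-- Continuity of the support function. -/
theorem continuous_supp {K : Set E} (hK : IsCompact K) (hne : K.Nonempty) :
    Continuous (supp K) := by
  obtain ⟨R, hR⟩ := hK.isBounded.subset_closedBall 0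
  refine (LipschitzWith.of_le_add_mul (Real.toNNReal R) fun u v => ?_).continuous
  obtain ⟨x, hx, hxu⟩ := exists_supp_eq hK hne u
  have h1 := le_supp hK v hx
  have h2 : ‖x‖ ≤ R := mem_closedBall_zero_iff.1 (hR hx)
  have h3 := real_inner_le_norm (u - v) x
  rw [inner_sub_left, hxu] at h3
  have h4 : ‖u - v‖ * ‖x‖ ≤ (Real.toNNReal R : ℝ) * dist u v := by
    rw [dist_eq_norm, mul_comm]
    exact mul_le_mul_of_nonneg_right (h2.trans (Real.le_coe_toNNReal R)) (norm_nonneg _)
  linarith

/-- A linear image of a symmetric body contains the unit ball and no ellipsoid of larger volume. -/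
theorem exists_max_ellipsoid {K : Set E} (hK : Body K) (hs : -K = K) :
    ∃ T : E ≃L[ℝ] E, closedBall (0 : E) 1 ⊆ T '' K ∧
      ∀ S : E →L[ℝ] E, (∀ x ∈ closedBall (0 : E) 1, S x ∈ T '' K) →
        |LinearMap.det (S : E →ₗ[ℝ] E)| ≤ 1 := by
  obtain ⟨R, hR⟩ := hK.compact.isBounded.subset_closedBall 0
  set F : Set (E →L[ℝ] E) := {S | ∀ x ∈ closedBall (0 : E) 1, S x ∈ K} with hF
  have hF0 : F.Nonempty := ⟨0, fun x _ => by simpa using interior_subset (hK.zero_mem_interior hs)⟩
  have hR0 : 0 ≤ R := by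
    simpa using hR (interior_subset (hK.zero_mem_interior hs))
  have hFc : IsCompact F := by
    refine (isCompact_closedBall (0 : E →L[ℝ] E) R).of_isClosed_subset ?_ fun S hS => ?_
    · simp only [hF, ofPred_forall]
      exact isClosed_biInter fun x _ => hK.compact.isClosed.preimage
        (ContinuousLinearMap.apply ℝ E x).continuous
    · rw [mem_closedBall_zero_iff]
      refine S.opNorm_le_bound hR0 fun x => ?_
      rcases eq_or_ne x 0 with rfl | hx
      · simp
      have h := hR (hS _ (show (‖x‖⁻¹ : ℝ) • x ∈ closedBall (0 : E) 1 by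
        rw [mem_closedBall_zero_iff, norm_smul, norm_inv, norm_norm,
          inv_mul_cancel₀ (norm_ne_zero_iff.2 hx)]))
      rw [mem_closedBall_zero_iff, map_smul, norm_smul, norm_inv, norm_norm,
        inv_mul_le_iff₀ (norm_pos_iff.2 hx)] at h
      linarith
  have hdet : Continuous fun S : E →L[ℝ] E => |LinearMap.det (S : E →ₗ[ℝ] E)| :=
    continuous_abs.comp ContinuousLinearMap.continuous_det
  obtain ⟨S₀, hS₀, hmax⟩ := hFc.exists_isMaxOn hF0 hdet.continuousOn
  obtain ⟨ρ, hρ, hball⟩ := Metric.nhds_basis_closedBall.mem_iff.1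
    (mem_interior_iff_mem_nhds.1 (hK.zero_mem_interior hs))
  have hpos : 0 < |LinearMap.det (S₀ : E →ₗ[ℝ] E)| := by
    refine lt_of_lt_of_le ?_ (hmax (show ρ • ContinuousLinearMap.id ℝ E ∈ F from fun x hx => hball ?_))
    · simp [LinearMap.det_smul, hρ.ne']
    · simp only [smul_apply, ContinuousLinearMap.id_apply, mem_closedBall_zero_iff, norm_smul,
        Real.norm_eq_abs, abs_of_pos hρ]
      calc ρ * ‖x‖ ≤ ρ * 1 := mul_le_mul_of_nonneg_left (mem_closedBall_zero_iff.1 hx) hρ.le
        _ = ρ := mul_one ρ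
  have hne : LinearMap.det (S₀ : E →ₗ[ℝ] E) ≠ 0 := abs_pos.1 hpos
  set e : E ≃L[ℝ] E :=
    (LinearMap.equivOfDetNeZero (S₀ : E →ₗ[ℝ] E) hne).toContinuousLinearEquiv with he
  have heS : ∀ x, e x = S₀ x := fun x => rfl
  refine ⟨e.symm, fun x hx => ⟨S₀ x, hS₀ x hx, by rw [← heS, e.symm_apply_apply]⟩, fun S hS => ?_⟩
  have hmem : S₀ ∘L S ∈ F := fun x hx => by
    obtain ⟨y, hy, hyx⟩ := hS x hx
    show S₀ (S x) ∈ K
    rwa [← hyx, ← heS, e.apply_symm_apply]
  have h := hmax hmem
  simp only [mem_ofPred_eq, ContinuousLinearMap.toLinearMap_comp, LinearMap.det_comp, abs_mul] at h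
  exact (mul_le_iff_le_one_right hpos).1 h

/-- The rank one form of a vector in coordinates. -/
noncomputable def outer (b : OrthonormalBasis (Fin (finrank ℝ E)) ℝ E) (v : E) :
    Fin (finrank ℝ E) → Fin (finrank ℝ E) → ℝ := fun i j => ⟪b i, v⟫ * ⟪b j, v⟫

/-- The contact points of the maximal ellipsoid decompose the identity. -/
theorem exists_john [Nontrivial E] {K : Set E} (hK : Body K) (hs : -K = K)
    (hball : closedBall (0 : E) 1 ⊆ K)
    (hmax : ∀ S : E →L[ℝ] E, (∀ x ∈ closedBall (0 : E) 1, S x ∈ K) →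
      |LinearMap.det (S : E →ₗ[ℝ] E)| ≤ 1) :
    ∃ (s : Finset E) (c : E → ℝ), (∀ v ∈ s, 0 ≤ c v ∧ ‖v‖ = 1 ∧ supp K v = 1) ∧
      (∑ v ∈ s, c v = finrank ℝ E) ∧ ∀ x : E, ∑ v ∈ s, c v * ⟪v, x⟫ ^ 2 = ‖x‖ ^ 2 := by
  classical
  set n := finrank ℝ E with hn
  set b := stdOrthonormalBasis ℝ E
  set C := {v : E | ‖v‖ = 1 ∧ supp K v = 1} with hC
  have hcont := continuous_supp hK.compact hK.nonempty
  have hsphere : IsCompact {v : E | ‖v‖ = 1} := by
    convert isCompact_sphere (0 : E) 1 using 1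
    ext; simp
  have hCc : IsCompact C := hsphere.inter_right (isClosed_eq hcont continuous_const)
  set W := outer b '' C with hW
  have hWc : IsCompact W := hCc.image (by unfold outer; fun_prop)
  set J : Fin n → Fin n → ℝ := fun i j => if i = j then (n : ℝ)⁻¹ else 0 with hJ
  have hn0 : (0 : ℝ) < n := Nat.cast_pos.2 finrank_pos
  have hsupp1 : ∀ u : E, ‖u‖ = 1 → 1 ≤ supp K u := fun u hu => by
    have h := le_supp hK.compact u (hball (show u ∈ closedBall (0 : E) 1 by simp [hu]))
    rwa [real_inner_self_eq_norm_sq, hu, one_pow] at h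
  have hmemJ : J ∈ convexHull ℝ W := by
    by_contra hJW
    obtain ⟨f, a, hfa, haJ⟩ := geometric_hahn_banach_closed_point (convex_convexHull ℝ W)
      (isCompact_hull hWc).isClosed hJW
    set H : Matrix (Fin n) (Fin n) ℝ := fun i j => f (Pi.single i (Pi.single j 1)) -
      if i = j then f J else 0 with hH
    set q : E → ℝ := fun v => ∑ i, ∑ j, H i j * (⟪b i, v⟫ * ⟪b j, v⟫) with hq
    have hfX : ∀ X : Fin n → Fin n → ℝ,
        f X = ∑ i, ∑ j, f (Pi.single i (Pi.single j 1)) * X i j := by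
      intro X
      conv_lhs => rw [show X = ∑ i, ∑ j, X i j • Pi.single i (Pi.single j (1 : ℝ)) by
        funext i j
        simp [Finset.sum_apply, Pi.single_apply, Finset.sum_ite_eq, ite_apply, apply_ite]]
      simp only [map_sum, map_smul, smul_eq_mul]
      exact Finset.sum_congr rfl fun i _ => Finset.sum_congr rfl fun j _ => mul_comm _ _
    have hfJ : f J = (n : ℝ)⁻¹ * ∑ i, f (Pi.single i (Pi.single i 1)) := by
      rw [hfX, Finset.mul_sum]
      refine Finset.sum_congr rfl fun i _ => ?_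
      simp [hJ, mul_comm]
    have htr : Matrix.trace H = 0 := by
      simp only [Matrix.trace, Matrix.diag, hH, if_true, Finset.sum_sub_distrib, Finset.sum_const,
        Finset.card_univ, Fintype.card_fin, nsmul_eq_mul]
      rw [hfJ, ← mul_assoc, mul_inv_cancel₀ hn0.ne', one_mul, sub_self]
    have hq' : ∀ v, ‖v‖ = 1 → q v = f (outer b v) - f J := by
      intro v hv
      have hb : ∑ i, ⟪b i, v⟫ * ⟪b i, v⟫ = 1 := by
        rw [← one_pow 2, ← hv, ← b.sum_sq_norm_inner_right v]
        exact Finset.sum_congr rfl fun i _ => by rw [Real.norm_eq_abs, sq_abs, sq]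
      rw [hfX (outer b v)]
      simp only [hq, hH, sub_mul, Finset.sum_sub_distrib, ite_mul, zero_mul, Finset.sum_ite_eq,
        Finset.mem_univ, if_true, outer]
      rw [← Finset.mul_sum, hb, mul_one]
    have hqC : ∀ v ∈ C, q v < -(f J - a) := fun v hv => by
      rw [hq' v hv.1]
      linarith [hfa _ (subset_convexHull ℝ W (mem_image_of_mem _ hv))]
    set δ := f J - a with hδ
    have hδ0 : 0 < δ := sub_pos.2 haJ
    -- the perturbing map
    set L : E →L[ℝ] E := LinearMap.toContinuousLinearMap (Matrix.toLin b.toBasis b.toBasis H)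
    have hL : ∀ u, ⟪u, L u⟫ = q u := by
      intro u
      show ⟪u, Matrix.toLin b.toBasis b.toBasis H u⟫ = _
      rw [Matrix.toLin_apply]
      simp only [inner_sum, real_inner_smul_right, Matrix.mulVec, dotProduct,
        OrthonormalBasis.coe_toBasis, OrthonormalBasis.coe_toBasis_repr_apply,
        OrthonormalBasis.repr_apply_apply, hq, Finset.sum_mul]
      refine Finset.sum_congr rfl fun i _ => Finset.sum_congr rfl fun j _ => ?_
      rw [real_inner_comm u (b i)]
      ring
    set Lt : E →L[ℝ] E := ContinuousLinearMap.adjoint L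
    set P := {u : E | ‖u‖ = 1 ∧ -(δ / 2) ≤ q u}
    have hqc : Continuous q := by
      show Continuous fun v : E => ∑ i, ∑ j, H i j * (⟪b i, v⟫ * ⟪b j, v⟫)
      fun_prop
    have hPc : IsCompact P := hsphere.inter_right (isClosed_le continuous_const hqc)
    obtain ⟨η, hη, hPη⟩ : ∃ η > (0 : ℝ), ∀ u ∈ P, 1 + η ≤ supp K u := by
      rcases P.eq_empty_or_nonempty with hP | hP
      · exact ⟨1, one_pos, fun u hu => absurd hu (by simp [hP])⟩
      · obtain ⟨u₀, hu₀, hmin⟩ := hPc.exists_isMinOn hP hcont.continuousOn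
        refine ⟨supp K u₀ - 1, sub_pos.2 ((hsupp1 u₀ hu₀.1).lt_of_ne fun h => ?_),
          fun u hu => by have := hmin hu; simp only [mem_ofPred_eq] at this; linarith⟩
        linarith [hqC u₀ ⟨hu₀.1, h.symm⟩, hu₀.2]
    set B := ‖Lt‖
    have hB : 0 ≤ B := norm_nonneg _
    -- small perturbations fit into a smaller copy
    have hfit : ∀ᶠ ε in 𝓝[>] (0 : ℝ),
        |LinearMap.det ((ContinuousLinearMap.id ℝ E + ε • L : E →L[ℝ] E) : E →ₗ[ℝ] E)| ≤
          (1 - ε * δ / 4) ^ n := by
      have h1 : ∀ᶠ ε in 𝓝[>] (0 : ℝ), ε * δ / 4 < 1 / 2 ∧ ε * B ^ 2 ≤ δ / 2 ∧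
          (1 + ε * B) ≤ (1 + η) * (1 - ε * δ / 4) := by
        have t1 : Tendsto (fun ε : ℝ => ε * δ / 4) (𝓝[>] 0) (𝓝 0) :=
          (Continuous.tendsto' (by fun_prop) 0 0 (by simp)).mono_left nhdsWithin_le_nhds
        have t2 : Tendsto (fun ε : ℝ => ε * B ^ 2) (𝓝[>] 0) (𝓝 0) :=
          (Continuous.tendsto' (by fun_prop) 0 0 (by simp)).mono_left nhdsWithin_le_nhds
        have t3 : Tendsto (fun ε : ℝ => (1 + η) * (1 - ε * δ / 4) - (1 + ε * B)) (𝓝[>] 0) (𝓝 η) :=
          (Continuous.tendsto' (by fun_prop) 0 η (by simp)).mono_left nhdsWithin_le_nhds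
        filter_upwards [(tendsto_order.1 t1).2 _ one_half_pos,
          (tendsto_order.1 t2).2 _ (half_pos hδ0), (tendsto_order.1 t3).1 0 hη] with ε a b c
        exact ⟨a, b.le, by linarith⟩
      filter_upwards [h1, self_mem_nhdsWithin] with ε ⟨he1, he2, he3⟩ (hε : 0 < ε)
      set τ := 1 - ε * δ / 4
      have hτ : 0 < τ := by simp only [τ]; linarith
      set S := ContinuousLinearMap.id ℝ E + ε • L with hS
      have hin : ∀ x ∈ closedBall (0 : E) 1, (τ⁻¹ • S) x ∈ K := by
        intro x hx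
        refine mem_of_inner_le_supp hK (interior_subset (hK.zero_mem_interior hs)) fun u hu => ?_
        have hx1 := mem_closedBall_zero_iff.1 hx
        have e : ⟪u, (τ⁻¹ • S) x⟫ = τ⁻¹ * ⟪u + ε • Lt u, x⟫ := by
          simp only [hS, Lt, smul_apply, add_apply,
            ContinuousLinearMap.id_apply, real_inner_smul_right, inner_add_right, inner_add_left,
            real_inner_smul_left, ContinuousLinearMap.adjoint_inner_left]
        rw [e, inv_mul_le_iff₀ hτ]
        refine (real_inner_le_norm _ _).trans (le_trans (mul_le_of_le_one_right (norm_nonneg _) hx1) ?_)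
        have hLt : ‖Lt u‖ ≤ B := by simpa [hu] using Lt.le_opNorm u
        by_cases hPu : u ∈ P
        · calc ‖u + ε • Lt u‖ ≤ ‖u‖ + ‖ε • Lt u‖ := norm_add_le _ _
            _ ≤ 1 + ε * B := by
              rw [hu, norm_smul, Real.norm_eq_abs, abs_of_pos hε]
              exact add_le_add le_rfl (mul_le_mul_of_nonneg_left hLt hε.le)
            _ ≤ τ * (1 + η) := by linarith
            _ ≤ _ := mul_le_mul_of_nonneg_left (hPη u hPu) hτ.le
        · have hqu : q u < -(δ / 2) := not_le.1 fun h => hPu ⟨hu, h⟩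
          have hsq : ‖u + ε • Lt u‖ ^ 2 ≤ τ ^ 2 := by
            rw [norm_add_sq_real, hu, norm_smul, Real.norm_eq_abs, abs_of_pos hε,
              real_inner_smul_right, ContinuousLinearMap.adjoint_inner_right, real_inner_comm, hL]
            have h2 : (ε * ‖Lt u‖) ^ 2 ≤ ε * (δ / 2) := by
              calc (ε * ‖Lt u‖) ^ 2 ≤ (ε * B) ^ 2 :=
                    pow_le_pow_left₀ (by positivity) (mul_le_mul_of_nonneg_left hLt hε.le) 2
                _ = ε * (ε * B ^ 2) := by ring
                _ ≤ _ := mul_le_mul_of_nonneg_left he2 hε.le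
            have h3 := mul_lt_mul_of_pos_left hqu hε
            simp only [τ]
            nlinarith [sq_nonneg (ε * δ / 4)]
          calc ‖u + ε • Lt u‖ ≤ τ := (pow_le_pow_iff_left₀ (norm_nonneg _) hτ.le two_ne_zero).1 hsq
            _ ≤ _ := le_mul_of_one_le_right hτ.le (hsupp1 u hu)
      have h := hmax (τ⁻¹ • S) hin
      rw [ContinuousLinearMap.toLinearMap_smul, LinearMap.det_smul, abs_mul, abs_pow, abs_inv,
        abs_of_pos hτ, inv_pow, inv_mul_le_iff₀ (pow_pos hτ _), mul_one] at h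
      exact h
    -- first order contradiction
    obtain ⟨r, hr⟩ : ∃ r : ℝ → ℝ, (∀ ε, LinearMap.det
        ((ContinuousLinearMap.id ℝ E + ε • L : E →L[ℝ] E) : E →ₗ[ℝ] E) = 1 + r ε * ε ^ 2) ∧
        Continuous r := by
      refine ⟨fun ε => ((Matrix.det (1 + (Polynomial.X : Polynomial ℝ) • H.map Polynomial.C)).divX.divX).eval ε,
        fun ε => ?_, Polynomial.continuous _⟩
      have e : ((ContinuousLinearMap.id ℝ E + ε • L : E →L[ℝ] E) : E →ₗ[ℝ] E) =
          Matrix.toLin b.toBasis b.toBasis (1 + ε • H) := by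
        ext x
        simp [L, Matrix.toLin_one, map_add, map_smul]
      rw [e, LinearMap.det_toLin, Matrix.det_one_add_smul, htr]
      ring
    obtain ⟨hr1, hr2⟩ := hr
    have hcontra : ∀ᶠ ε in 𝓝[>] (0 : ℝ), 1 + r ε * ε ^ 2 ≤ 1 - ε * δ / 4 := by
      filter_upwards [hfit, self_mem_nhdsWithin,
        (tendsto_order.1 ((Continuous.tendsto' (by fun_prop) 0 0 (by simp) :
          Tendsto (fun ε : ℝ => ε * δ / 4) (𝓝 0) (𝓝 0)).mono_left nhdsWithin_le_nhds)).2 1 one_pos]
        with ε hε (hε0 : 0 < ε) hε1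
      rw [hr1] at hε
      refine (le_abs_self _).trans (hε.trans ?_)
      exact pow_le_of_le_one (by linarith) (by nlinarith) finrank_pos.ne'
    have hlim : Tendsto (fun ε => r ε * ε) (𝓝[>] (0 : ℝ)) (𝓝 0) :=
      (Continuous.tendsto' (by fun_prop) 0 0 (by simp)).mono_left nhdsWithin_le_nhds
    obtain ⟨ε, h1, h2, hε0⟩ := (hcontra.and (((tendsto_order.1 hlim).1 (-(δ / 4)) (by linarith)).and
      self_mem_nhdsWithin)).exists
    have hε0' : 0 < ε := hε0
    nlinarith
  -- unpack the convex combination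
  obtain ⟨ι, _, w, z, hw0, hw1, hz, hwz⟩ := mem_convexHull_iff_exists_fintype.1 hmemJ
  choose v hv hvz using fun i => hz i
  refine ⟨Finset.univ.image v, fun x => n * ∑ i ∈ Finset.univ.filter (fun i => v i = x), w i,
    fun x hx => ?_, ?_, fun x => ?_⟩
  · obtain ⟨i, -, rfl⟩ := Finset.mem_image.1 hx
    exact ⟨mul_nonneg hn0.le (Finset.sum_nonneg fun j _ => hw0 j), (hv i).1, (hv i).2⟩
  · rw [← Finset.mul_sum, Finset.sum_fiberwise_of_maps_to (fun i _ =>
      Finset.mem_image_of_mem v (Finset.mem_univ i)), hw1, mul_one]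
  · have e : ∑ y ∈ Finset.univ.image v, (n * ∑ i ∈ Finset.univ.filter (fun i => v i = y), w i) * ⟪y, x⟫ ^ 2
        = n * ∑ i, w i * ⟪v i, x⟫ ^ 2 := by
      rw [← Finset.sum_fiberwise_of_maps_to (g := v) (t := Finset.univ.image v)
        (fun i _ => Finset.mem_image_of_mem v (Finset.mem_univ i)) (fun i => w i * ⟪v i, x⟫ ^ 2),
        Finset.mul_sum]
      refine Finset.sum_congr rfl fun y _ => ?_
      rw [mul_assoc, Finset.sum_mul]
      congr 1
      refine Finset.sum_congr rfl fun i hi => ?_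
      rw [(Finset.mem_filter.1 hi).2]
    have hij : ∀ i j, ∑ k, w k * (⟪b i, v k⟫ * ⟪b j, v k⟫) = J i j := fun i j => by
      rw [← hwz]
      simp [Finset.sum_apply, ← hvz, outer]
    rw [e, ← b.sum_sq_norm_inner_right x]
    have hv2 : ∀ k, ⟪v k, x⟫ = ∑ i, ⟪b i, x⟫ * ⟪b i, v k⟫ := fun k => by
      rw [← b.sum_inner_mul_inner (v k) x]
      exact Finset.sum_congr rfl fun i _ => by rw [real_inner_comm (b i) (v k), mul_comm]
    simp only [hv2, sq, Finset.sum_mul_sum]
    calc (n : ℝ) * ∑ k, w k * ∑ i, ∑ j, ⟪b i, x⟫ * ⟪b i, v k⟫ * (⟪b j, x⟫ * ⟪b j, v k⟫)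
        = n * ∑ i, ∑ j, ⟪b i, x⟫ * ⟪b j, x⟫ * J i j := by
          simp only [← hij, Finset.mul_sum]
          rw [Finset.sum_comm]
          refine Finset.sum_congr rfl fun i _ => ?_
          rw [Finset.sum_comm]
          exact Finset.sum_congr rfl fun j _ => Finset.sum_congr rfl fun k _ => by ring
      _ = _ := by
          simp only [hJ, mul_ite, mul_zero, Finset.sum_ite_eq, Finset.mem_univ, if_true,
            Real.norm_eq_abs, abs_mul_abs_self, Finset.mul_sum]
          exact Finset.sum_congr rfl fun i _ => by field_simp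

/-- John position: a linear image with contact points decomposing the identity. -/
theorem exists_john_position [Nontrivial E] {K : Set E} (hK : Body K) (hs : -K = K) :
    ∃ T : E ≃L[ℝ] E, closedBall (0 : E) 1 ⊆ T '' K ∧
      ∃ (s : Finset E) (c : E → ℝ), (∀ v ∈ s, 0 ≤ c v ∧ ‖v‖ = 1 ∧ supp (T '' K) v = 1) ∧
        (∑ v ∈ s, c v = finrank ℝ E) ∧ ∀ x : E, ∑ v ∈ s, c v * ⟪v, x⟫ ^ 2 = ‖x‖ ^ 2 := by
  obtain ⟨T, hball, hmax⟩ := exists_max_ellipsoid hK hs
  refine ⟨T, hball, exists_john (K := T '' K) ?_ ?_ hball hmax⟩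
  · exact ⟨hK.compact.image T.continuous, hK.convex.linear_image (T.toLinearEquiv : E →ₗ[ℝ] E),
      ⟨0, interior_mono hball (mem_interior_iff_mem_nhds.2 (closedBall_mem_nhds 0 one_pos))⟩⟩
  · rw [← Set.image_neg_eq_neg, image_image]
    conv_rhs => rw [← hs, ← Set.image_neg_eq_neg, image_image]
    simp

end Vale.Agent.P237.Petty
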