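import Vale.Agent.P237.Petty.Ball
import Vale.Agent.P237.Petty.John

/-!
# P237: the correlation of a body with the unit ball

For potentials `Φ`, `Ψ` with `⟪x, y⟫ ≤ Φ x + Ψ y` on the product of a convex body with the unit ball,
the sum of their averages is at least `n / (n + 2)` times the radius of the ball of the same volume.
The proof is by induction on the dimension, pairing sections of equal mass fraction.
-/

namespace Vale.Agent.P237.Petty

open MeasureTheory Set Module Metric Filter Topology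
open AllN (hslice glue)
open scoped RealInnerProductSpace Pointwise

set_option linter.unusedSectionVars false

universe u

section General

variable {E : Type*} [NormedAddCommGroup E] [InnerProductSpace ℝ E] [FiniteDimensional ℝ E]
  [MeasurableSpace E] [BorelSpace E]

/-- Integrals over a compact set, by slices. -/
theorem integral_slices_real {v : E} (hv : ‖v‖ = 1) {X : Set E} (hX : IsCompact X) {g : E → ℝ}
    (hg : Continuous g) :
    Integrable (fun t => ∫ y in hslice v X t, g (glue v (y, t))) ∧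
      ∫ x in X, g x = ∫ t, ∫ y in hslice v X t, g (glue v (y, t)) := by
  have hm := AllN.measurePreserving_glue hv
  have hinj : Function.Injective (glue v) := fun p q h => by
    have h1 := congrArg (ℝ ∙ v)ᗮ.orthogonalProjectionOnto h
    have h2 := congrArg (fun z => ⟪v, z⟫) h
    rw [AllN.proj_glue, AllN.proj_glue] at h1
    simp only [AllN.inner_glue hv] at h2
    exact Prod.ext h1 h2
  have he := (AllN.continuous_glue v).measurableEmbedding hinj
  set F := (glue v ⁻¹' X).indicator (fun p => g (glue v p))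
  have hmeas : MeasurableSet (glue v ⁻¹' X) := (AllN.continuous_glue v).measurable hX.measurableSet
  have hF : Integrable F := by
    rw [integrable_indicator_iff hmeas]
    exact (hm.integrableOn_comp_preimage he).2 (hg.continuousOn.integrableOn_compact hX)
  have hsl : ∀ t, ∫ y, F (y, t) = ∫ y in hslice v X t, g (glue v (y, t)) := fun t => by
    rw [← integral_indicator (AllN.isCompact_hslice v hX t).measurableSet]
    rfl
  rw [Measure.volume_eq_prod] at hF
  have hI := hF.integral_prod_right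
  simp only [hsl] at hI
  refine ⟨hI, ?_⟩
  rw [← hm.setIntegral_preimage_emb he, ← integral_indicator hmeas, Measure.volume_eq_prod,
    integral_prod_symm _ hF]
  exact integral_congr_ae (Eventually.of_forall hsl)

/-- The derivative of a power of the half circle. -/
theorem hasDerivAt_half_circle (j : ℕ) {t : ℝ} (ht : t ∈ Ioo (-1 : ℝ) 1) :
    HasDerivAt (fun t : ℝ => √(1 - t ^ 2) ^ (j + 2))
      (-((j + 2 : ℝ) * t * √(1 - t ^ 2) ^ j)) t := by
  have h0 : 0 < 1 - t ^ 2 := by nlinarith [ht.1, ht.2]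
  have hq := Real.sqrt_pos.2 h0
  refine ((((hasDerivAt_pow 2 t).const_sub 1).sqrt h0.ne').pow (j + 2)).congr_deriv ?_
  rw [show j + 2 - 1 = j + 1 from rfl, pow_succ]
  push_cast
  field_simp

/-- The recursion of the half circle integrals. -/
theorem circle_step (j : ℕ) :
    ((j : ℝ) + 3) * ∫ t in (-1)..1, √(1 - t ^ 2) ^ (j + 2) =
      ((j : ℝ) + 2) * ∫ t in (-1)..1, √(1 - t ^ 2) ^ j := by
  have hi : ∀ i : ℕ, IntervalIntegrable (fun t : ℝ => √(1 - t ^ 2) ^ i) volume (-1) 1 :=
    fun i => Continuous.intervalIntegrable (by fun_prop) _ _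
  have h := intervalIntegral.integral_eq_sub_of_hasDerivAt_of_le (by norm_num : (-1 : ℝ) ≤ 1)
    (f := fun t => t * √(1 - t ^ 2) ^ (j + 2))
    (f' := fun t => ((j : ℝ) + 3) * √(1 - t ^ 2) ^ (j + 2) - ((j : ℝ) + 2) * √(1 - t ^ 2) ^ j)
    (by fun_prop) (fun t ht => by
      refine ((hasDerivAt_id t).mul (hasDerivAt_half_circle j ht)).congr_deriv ?_
      have hs : √(1 - t ^ 2) ^ 2 = 1 - t ^ 2 := Real.sq_sqrt (by nlinarith [ht.1, ht.2])
      have ht2 : t ^ 2 = 1 - √(1 - t ^ 2) ^ 2 := by rw [hs]; ring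
      simp only [id_eq]
      calc 1 * √(1 - t ^ 2) ^ (j + 2) + t * -((j + 2 : ℝ) * t * √(1 - t ^ 2) ^ j)
          = √(1 - t ^ 2) ^ (j + 2) - (j + 2 : ℝ) * √(1 - t ^ 2) ^ j * t ^ 2 := by ring
        _ = √(1 - t ^ 2) ^ (j + 2) -
            (j + 2 : ℝ) * √(1 - t ^ 2) ^ j * (1 - √(1 - t ^ 2) ^ 2) := by rw [← ht2]
        _ = _ := by ring)
    (((hi _).const_mul _).sub ((hi _).const_mul _))
  rw [intervalIntegral.integral_sub ((hi _).const_mul _) ((hi _).const_mul _),
    intervalIntegral.integral_const_mul, intervalIntegral.integral_const_mul] at h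
  norm_num at h
  linarith

/-- The weighted mean inequality behind the induction. -/
theorem mean_step (m : ℕ) {b z : ℝ} (hb : 0 < b) (hz : 0 < z) :
    ((m : ℝ) + 1) * b ≤ m * z + b ^ (m + 1) / z ^ m := by
  have h := mul_le_mul_of_nonneg_left (one_add_mul_le_pow (a := b / z - 1)
    (by linarith [div_pos hb hz]) (m + 1)) hz.le
  rw [add_sub_cancel, div_pow, pow_succ z] at h
  push_cast at h
  have e1 : z * (1 + ((m : ℝ) + 1) * (b / z - 1)) = ((m : ℝ) + 1) * b - m * z := by
    field_simp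
    ring
  have e2 : z * (b ^ (m + 1) / (z ^ m * z)) = b ^ (m + 1) / z ^ m := by field_simp
  linarith

end General

/-- The inductive step. -/
theorem correlation_step (m : ℕ)
    (ih : ∀ {F : Type u} [NormedAddCommGroup F] [InnerProductSpace ℝ F] [FiniteDimensional ℝ F]
      [MeasurableSpace F] [BorelSpace F], finrank ℝ F = m → ∀ L : Set F, Body L →
      ∀ Φ Ψ : F → ℝ, Continuous Φ → Continuous Ψ →
      (∀ x ∈ L, ∀ y : F, ‖y‖ ≤ 1 → ⟪x, y⟫ ≤ Φ x + Ψ y) →
      (m : ℝ) / (m + 2) * (volume.real L / kappa m) ^ ((m : ℝ)⁻¹) ≤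
        (∫ x in L, Φ x) / volume.real L + (∫ y in closedBall (0 : F) 1, Ψ y) / kappa m)
    {E : Type u} [NormedAddCommGroup E] [InnerProductSpace ℝ E] [FiniteDimensional ℝ E]
    [MeasurableSpace E] [BorelSpace E] (hfin : finrank ℝ E = m + 1) {K : Set E} (hK : Body K)
    {Φ Ψ : E → ℝ} (hΦ : Continuous Φ) (hΨ : Continuous Ψ)
    (h : ∀ x ∈ K, ∀ y : E, ‖y‖ ≤ 1 → ⟪x, y⟫ ≤ Φ x + Ψ y) :
    ((m : ℝ) + 1) / (m + 3) * (volume.real K / kappa (m + 1)) ^ (((m : ℝ) + 1)⁻¹) ≤
      (∫ x in K, Φ x) / volume.real K + (∫ y in closedBall (0 : E) 1, Ψ y) / kappa (m + 1) := by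
  have : Nontrivial E := Module.nontrivial_of_finrank_eq_succ hfin
  obtain ⟨v, hv⟩ : ∃ v : E, ‖v‖ = 1 := exists_norm_eq E zero_le_one
  have hm : finrank ℝ (ℝ ∙ v)ᗮ = m := by rw [finrank_perp hv, hfin]; rfl
  set V := volume.real K with hVdef
  have hV : 0 < V := hK.volume_pos
  have hκ := kappa_pos m
  have hκ1 := kappa_pos (m + 1)
  set β := V / kappa (m + 1) with hβdef
  have hβ : 0 < β := div_pos hV hκ1
  -- the range of heights
  have hic : Continuous fun x : E => ⟪v, x⟫ := continuous_const.inner continuous_id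
  obtain ⟨xa, hxa, hmin⟩ := hK.compact.exists_isMinOn hK.nonempty hic.continuousOn
  obtain ⟨xb, hxb, hmax⟩ := hK.compact.exists_isMaxOn hK.nonempty hic.continuousOn
  set a := ⟪v, xa⟫
  set b := ⟪v, xb⟫
  have hout : ∀ s, s ∉ Icc a b → hslice v K s = ∅ := fun s hs =>
    eq_empty_of_forall_notMem fun y hy => hs (by
      have h1 : ⟪v, glue v (y, s)⟫ = s := AllN.inner_glue hv _
      exact ⟨h1 ▸ hmin hy, h1 ▸ hmax hy⟩)
  have hlift : ∀ {S : Set E} {s : ℝ}, s ∈ (fun x : E => ⟪v, x⟫) '' S →
      ∃ y, glue v (y, s) ∈ S := by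
    rintro S s ⟨x, hx, rfl⟩
    exact ⟨(ℝ ∙ v)ᗮ.orthogonalProjectionOnto x, by rwa [AllN.glue_proj hv]⟩
  have hord : ∀ {S : Set E}, Convex ℝ S → OrdConnected ((fun x : E => ⟪v, x⟫) '' S) := fun hS =>
    (hS.linear_image (innerₗ E v)).ordConnected
  have hne : ∀ s ∈ Icc a b, (hslice v K s).Nonempty := fun s hs => by
    obtain ⟨y, hy⟩ := hlift ((hord hK.convex).out (mem_image_of_mem _ hxa)
      (mem_image_of_mem _ hxb) hs)
    exact ⟨y, hy⟩
  have hclos : closure (interior K) = K := by
    rw [hK.convex.closure_interior_eq_closure_of_nonempty_interior hK.interior_nonempty,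
      hK.compact.isClosed.closure_eq]
  have hint : ∀ s ∈ Ioo a b, (interior (hslice v K s)).Nonempty := fun s hs => by
    obtain ⟨p, hp, hp'⟩ := mem_closure_iff.1 (hclos.symm ▸ hxa : xa ∈ closure (interior K)) _
      (isOpen_Iio.preimage hic) (show a < s from hs.1)
    obtain ⟨p', hp₁, hp₂⟩ := mem_closure_iff.1 (hclos.symm ▸ hxb : xb ∈ closure (interior K)) _
      (isOpen_Ioi.preimage hic) (show s < b from hs.2)
    obtain ⟨y, hy⟩ := hlift ((hord hK.convex.interior).out (mem_image_of_mem _ hp')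
      (mem_image_of_mem _ hp₂) ⟨le_of_lt hp, le_of_lt hp₁⟩)
    exact ⟨y, interior_maximal (fun z (hz : glue v (z, s) ∈ interior K) =>
      (interior_subset (s := K) hz : glue v (z, s) ∈ K))
      (isOpen_interior.preimage ((AllN.continuous_glue v).comp (continuous_id.prodMk continuous_const))) hy⟩
  have hab : a < b := by
    obtain ⟨x₀, hx₀⟩ := hK.interior_nonempty
    obtain ⟨ε, hε, hball⟩ := Metric.mem_nhds_iff.1 (mem_interior_iff_mem_nhds.1 hx₀)
    have h1 : x₀ + (ε / 2) • v ∈ K := hball (by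
      simp [dist_eq_norm, norm_smul, hv, abs_of_pos hε]; linarith)
    have h2 := hmax h1
    have h3 := hmin (interior_subset hx₀)
    simp only [mem_ofPred_eq, inner_add_right, real_inner_smul_right, real_inner_self_eq_norm_sq,
      hv] at h2 h3
    linarith
  -- section volumes
  set w := fun s => volume.real (hslice v K s) with hw
  obtain ⟨hwi', hwV⟩ := integral_slices_real hv hK.compact (g := fun _ => (1 : ℝ)) continuous_const
  simp only [setIntegral_const, smul_eq_mul, mul_one] at hwi' hwV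
  have hwi : IntervalIntegrable w volume a b := hwi'.intervalIntegrable
  have hwpos : ∀ s ∈ Ioo a b, 0 < w s := fun s hs =>
    ENNReal.toReal_pos (Measure.measure_pos_of_nonempty_interior volume (hint s hs)).ne'
      (AllN.isCompact_hslice v hK.compact s).measure_lt_top.ne
  have hzero : m = 0 → ∀ s ∈ Icc a b, w s = kappa m := fun h0 s hs => by
    have : Subsingleton (ℝ ∙ v)ᗮ := Module.finrank_zero_iff.1 (hm.trans h0)
    show volume.real (hslice v K s) = _
    rw [← real_closedBall hm, (hne s hs).eq_univ,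
      (nonempty_closedBall.2 zero_le_one : (closedBall (0 : (ℝ ∙ v)ᗮ) 1).Nonempty).eq_univ]
  have hwc : ContinuousOn w (Ioo a b) := by
    rcases Nat.eq_zero_or_pos m with h0 | h0
    · exact continuousOn_const.congr fun s hs => hzero h0 s (Ioo_subset_Icc_self hs)
    · have : Nontrivial (ℝ ∙ v)ᗮ := Module.nontrivial_of_finrank_pos (R := ℝ) (by omega)
      have hc := ((AllN.concaveOn_vroot_hslice v hK.compact hK.convex hne).subset
        Ioo_subset_Icc_self (convex_Ioo a b)).continuousOn isOpen_Ioo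
      exact (hc.pow (finrank ℝ (ℝ ∙ v)ᗮ)).congr fun s _ => (AllN.vroot_pow _).symm
  set F := fun s => ∫ u in a..s, w u with hF
  have hFc : ContinuousOn F (Icc a b) := by
    rw [← uIcc_of_le hab.le]
    exact intervalIntegral.continuousOn_primitive_interval' hwi left_mem_uIcc
  have hFd : ∀ s ∈ Ioo a b, HasDerivAt F (w s) s := fun s hs =>
    intervalIntegral.integral_hasDerivAt_right hwi'.intervalIntegrable
      hwi'.aestronglyMeasurable.stronglyMeasurableAtFilter
      (hwc.continuousAt (isOpen_Ioo.mem_nhds hs))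
  have hFm : StrictMonoOn F (Icc a b) :=
    strictMonoOn_of_hasDerivWithinAt_pos (convex_Icc a b) hFc
      (fun s hs => (hFd s (by rwa [interior_Icc] at hs)).hasDerivWithinAt)
      (fun s hs => hwpos s (by rwa [interior_Icc] at hs))
  have hFa : F a = 0 := intervalIntegral.integral_same
  have hFb : F b = V := by
    show ∫ u in a..b, w u = V
    have hz : ∀ s, s ∉ Icc a b → w s = 0 := fun s hs => by simp [w, hout s hs]
    rw [intervalIntegral.integral_of_le hab.le, ← integral_Icc_eq_integral_Ioc,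
      setIntegral_eq_integral_of_forall_compl_eq_zero hz]
    exact hwV.symm
  -- the inverse of the mass function
  set G := Function.invFunOn F (Icc a b)
  have himg : F '' Icc a b = Icc 0 V := by
    rw [hFc.image_Icc_of_monotoneOn hab.le hFm.monotoneOn, hFa, hFb]
  have hG : ∀ y ∈ Icc (0 : ℝ) V, G y ∈ Icc a b ∧ F (G y) = y := fun y hy =>
    Function.invFunOn_pos (by rw [← himg] at hy; exact hy)
  have hGF : ∀ s ∈ Icc a b, G (F s) = s := fun s hs =>
    hFm.injOn (hG _ (himg ▸ mem_image_of_mem F hs)).1 hs (hG _ (himg ▸ mem_image_of_mem F hs)).2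
  have hGc : ContinuousOn G (Icc 0 V) := by
    rw [continuousOn_iff_isClosed]
    refine fun C hC => ⟨F '' (C ∩ Icc a b),
      ((isCompact_Icc.inter_left hC).image_of_continuousOn
        (hFc.mono inter_subset_right)).isClosed, ?_⟩
    ext y
    constructor
    · rintro ⟨hy, hy'⟩
      exact ⟨⟨G y, ⟨hy, (hG y hy').1⟩, (hG y hy').2⟩, hy'⟩
    · rintro ⟨⟨s, ⟨hs, hs'⟩, rfl⟩, hy'⟩
      exact ⟨by rw [mem_preimage, hGF s hs']; exact hs, hy'⟩
  -- the mass function of the ball
  set q := fun t : ℝ => √(1 - t ^ 2) with hq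
  have hqc : Continuous q := by fun_prop
  set M := fun t => β * kappa m * ∫ u in (-1 : ℝ)..t, q u ^ m with hM
  have hMd : ∀ t, HasDerivAt M (β * kappa m * q t ^ m) t := fun t =>
    ((hqc.pow m).integral_hasStrictDerivAt (-1) t).hasDerivAt.const_mul _
  have hMc : Continuous M := continuous_iff_continuousAt.2 fun t => (hMd t).continuousAt
  have hqpos : ∀ t ∈ Ioo (-1 : ℝ) 1, 0 < q t := fun t ht =>
    Real.sqrt_pos.2 (by nlinarith [ht.1, ht.2])
  have hMm : StrictMonoOn M (Icc (-1) 1) :=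
    strictMonoOn_of_hasDerivWithinAt_pos (convex_Icc _ _) hMc.continuousOn
      (fun t _ => (hMd t).hasDerivWithinAt)
      (fun t ht => mul_pos (mul_pos hβ hκ) (pow_pos (hqpos t (by rwa [interior_Icc] at ht)) _))
  have hM0 : M (-1) = 0 := by simp [M]
  have hM1 : M 1 = V := by
    simp only [M, q]
    rw [circle_integral, hβdef]
    field_simp
  have hMimg : M '' Ioo (-1) 1 = Ioo 0 V := by
    rw [hMc.continuousOn.image_Ioo_of_strictMonoOn (by norm_num) hMm, hM0, hM1]
  have hMI : ∀ t ∈ Icc (-1 : ℝ) 1, M t ∈ Icc 0 V := fun t ht =>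
    ⟨hM0 ▸ hMm.monotoneOn (left_mem_Icc.2 (by norm_num)) ht ht.1,
      hM1 ▸ hMm.monotoneOn ht (right_mem_Icc.2 (by norm_num)) ht.2⟩
  set T := fun t => G (M t) with hT
  have hTc : ContinuousOn T (Icc (-1) 1) := hGc.comp hMc.continuousOn hMI
  have hTmem : ∀ t ∈ Ioo (-1 : ℝ) 1, T t ∈ Ioo a b := fun t ht => by
    have hy : M t ∈ Ioo 0 V := hMimg ▸ mem_image_of_mem M ht
    obtain ⟨h1, h2⟩ := hG _ (Ioo_subset_Icc_self hy)
    change T t ∈ Icc a b at h1
    change F (T t) = M t at h2
    refine ⟨lt_of_le_of_ne h1.1 fun e => ?_, lt_of_le_of_ne h1.2 fun e => ?_⟩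
    · rw [← e, hFa] at h2; exact hy.1.ne h2
    · rw [e, hFb] at h2; exact hy.2.ne h2.symm
  set T' := fun t => (w (T t))⁻¹ * (β * kappa m * q t ^ m)
  have hTd : ∀ t ∈ Ioo (-1 : ℝ) 1, HasDerivAt T (T' t) t := fun t ht => by
    have hy : M t ∈ Ioo 0 V := hMimg ▸ mem_image_of_mem M ht
    refine (HasDerivAt.of_local_left_inverse
      (hGc.continuousAt (Icc_mem_nhds hy.1 hy.2)) (hFd _ (hTmem t ht)) (hwpos _ (hTmem t ht)).ne'
      ?_).comp t (hMd t)
    filter_upwards [Ioo_mem_nhds hy.1 hy.2] with y hy' using (hG y (Ioo_subset_Icc_self hy')).2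
  have hTinj : InjOn T (Ioo (-1) 1) := fun t ht t' ht' e => by
    have h1 := (hG _ (hMI t (Ioo_subset_Icc_self ht))).2
    have h2 := (hG _ (hMI t' (Ioo_subset_Icc_self ht'))).2
    refine hMm.injOn (Ioo_subset_Icc_self ht) (Ioo_subset_Icc_self ht') ?_
    rw [← h1, ← h2]
    exact congrArg F e
  have hTimg : T '' Ioo (-1) 1 = Ioo a b := by
    refine subset_antisymm (image_subset_iff.2 hTmem) fun s hs => ?_
    have : F s ∈ M '' Ioo (-1) 1 := by
      rw [hMimg, ← hFa, ← hFb]
      exact ⟨hFm (left_mem_Icc.2 hab.le) (Ioo_subset_Icc_self hs) hs.1,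
        hFm (Ioo_subset_Icc_self hs) (right_mem_Icc.2 hab.le) hs.2⟩
    obtain ⟨t, ht, e⟩ := this
    exact ⟨t, ht, by rw [hT]; simp only [e, hGF s (Ioo_subset_Icc_self hs)]⟩
  -- slice integrals of the potentials
  set P := fun s => ∫ y in hslice v K s, Φ (glue v (y, s))
  set Q := fun t => ∫ y in hslice v (closedBall (0 : E) 1) t, Ψ (glue v (y, t))
  obtain ⟨hPi, hPK⟩ := integral_slices_real hv hK.compact hΦ
  have hBb : ∀ x ∈ closedBall (0 : E) 1, |⟪v, x⟫| ≤ 1 := fun x hx =>
    (abs_real_inner_le_norm v x).trans (by rw [hv, one_mul]; exact mem_closedBall_zero_iff.1 hx)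
  obtain ⟨hQi, hQB⟩ := integral_slices hv (isCompact_closedBall (0 : E) 1) hBb hΨ
  have hP : ∫ x in K, Φ x = ∫ s in Ioo a b, P s := by
    rw [hPK, ← integral_Icc_eq_integral_Ioo,
      setIntegral_eq_integral_of_forall_compl_eq_zero fun s hs => by simp [P, hout s hs]]
  have hJ := integral_image_eq_integral_abs_deriv_smul measurableSet_Ioo
    (fun t ht => (hTd t ht).hasDerivWithinAt) hTinj P
  have hJi := (integrableOn_image_iff_integrableOn_abs_deriv_smul measurableSet_Ioo
    (fun t ht => (hTd t ht).hasDerivWithinAt) hTinj P).1 hPi.integrableOn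
  rw [hTimg, ← hP] at hJ
  simp only [smul_eq_mul] at hJ hJi
  set r := β ^ (((m : ℝ) + 1)⁻¹) with hr
  have hr0 : 0 < r := Real.rpow_pos_of_pos hβ _
  have hrpow : r ^ (m + 1) = β := by
    rw [hr, show ((m : ℝ) + 1) = ((m + 1 : ℕ) : ℝ) by push_cast; rfl,
      Real.rpow_inv_natCast_pow hβ.le (Nat.succ_ne_zero m)]
  set c := ((m : ℝ) + 1) / (m + 2) * r with hc
  set f := fun t => (|T' t| * P (T t)) / β + Q t
  have hQi' : IntegrableOn Q (Ioo (-1) 1) :=
    ((intervalIntegrable_iff_integrableOn_Ioo_of_le (by norm_num)).1 hQi)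
  have hfi : IntegrableOn f (Ioo (-1) 1) := (hJi.div_const β).add hQi'
  have hfint : ∫ t in Ioo (-1 : ℝ) 1, f t =
      (∫ x in K, Φ x) / β + ∫ y in closedBall (0 : E) 1, Ψ y := by
    rw [integral_add (hJi.div_const β) hQi', integral_div, ← hJ, hQB,
      intervalIntegral.integral_of_le (by norm_num), integral_Ioc_eq_integral_Ioo]
  -- the pointwise bound
  have key : ∀ t ∈ Ioo (-1 : ℝ) 1,
      t * q t ^ m * T t - q t ^ (m + 2) * T' t / (m + 2) ≤ f t / kappa m - c * q t ^ (m + 2) := by
    intro t ht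
    set s := T t with hs
    have hsI := hTmem t ht
    have hW := hwpos s hsI
    have hq0 := hqpos t ht
    set L := hslice v K s
    have hL : Body L := ⟨AllN.isCompact_hslice v hK.compact s,
      AllN.convex_hslice v hK.convex s, hint s hsI⟩
    have hgl : ∀ (x y : (ℝ ∙ v)ᗮ) (σ τ : ℝ),
        ⟪glue v (x, σ), glue v (y, τ)⟫ = ⟪x, y⟫ + σ * τ := fun x y σ τ => by
      simp only [glue, inner_add_left, inner_add_right, real_inner_smul_left,
        real_inner_smul_right, real_inner_self_eq_norm_sq, hv, AllN.perp_inner,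
        real_inner_comm (v : E) (x : E), Submodule.coe_inner]
      ring
    have hIH := ih hm L hL (fun y => (Φ (glue v (y, s)) - s * t) / q t)
      (fun y => Ψ (glue v (q t • y, t)) / q t)
      ((((hΦ.comp ((AllN.continuous_glue v).comp (continuous_id.prodMk continuous_const)))).sub
        continuous_const).div_const _)
      ((hΨ.comp ((AllN.continuous_glue v).comp
        ((continuous_id.const_smul (q t)).prodMk continuous_const))).div_const _)
      (fun x hx y hy => by
        have hn : ‖glue v (q t • y, t)‖ ≤ 1 := by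
          rw [← sq_le_one_iff₀ (norm_nonneg _), norm_glue_sq hv, norm_smul, Real.norm_eq_abs,
            abs_of_pos hq0, mul_pow, show q t ^ 2 = 1 - t ^ 2 from
              Real.sq_sqrt (by nlinarith [ht.1, ht.2])]
          have := mul_le_mul_of_nonneg_left (pow_le_one₀ (n := 2) (norm_nonneg y) hy)
            (show (0 : ℝ) ≤ 1 - t ^ 2 by nlinarith [ht.1, ht.2])
          linarith
        have : ⟪glue v (x, s), glue v (q t • y, t)⟫ ≤
            Φ (glue v (x, s)) + Ψ (glue v (q t • y, t)) := h _ hx _ hn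
        rw [hgl, real_inner_smul_right] at this
        rw [← add_div, le_div_iff₀ hq0]
        linarith)
    have hI1 : IntegrableOn (fun y => Φ (glue v (y, s))) L :=
      (hΦ.comp ((AllN.continuous_glue v).comp
        (continuous_id.prodMk continuous_const))).continuousOn.integrableOn_compact hL.compact
    have hball : ∫ y in closedBall (0 : (ℝ ∙ v)ᗮ) 1, Ψ (glue v (q t • y, t)) = Q t / q t ^ m := by
      rw [Measure.setIntegral_comp_smul_of_pos volume (fun y => Ψ (glue v (y, t))) _ hq0,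
        smul_unitClosedBall, Real.norm_eq_abs, abs_of_pos hq0, hm, smul_eq_mul, inv_mul_eq_div,
        ← hslice_ball hv (Ioo_subset_Icc_self ht)]
    rw [integral_div, integral_div, integral_sub hI1 (integrableOn_const hL.compact.measure_lt_top.ne),
      setIntegral_const, smul_eq_mul, hball] at hIH
    set R := (w s / kappa m) ^ ((m : ℝ)⁻¹)
    have hR0 : 0 < R := Real.rpow_pos_of_pos (div_pos hW hκ) _
    have hRpow : R ^ m = w s / kappa m := by
      rcases Nat.eq_zero_or_pos m with h0 | h0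
      · rw [hzero h0 s (Ioo_subset_Icc_self hsI), div_self hκ.ne']
        subst h0
        exact pow_zero R
      · exact Real.rpow_inv_natCast_pow (div_pos hW hκ).le h0.ne'
    have hz := mean_step m hr0 (div_pos hR0 hq0)
    rw [hrpow, div_pow, hRpow] at hz
    have hTpos : 0 ≤ T' t := mul_nonneg (inv_nonneg.2 hW.le)
      (mul_nonneg (mul_nonneg hβ.le hκ.le) (pow_nonneg hq0.le _))
    have hqpow : q t ^ (m + 2) = q t ^ m * q t ^ 2 := pow_add _ _ _
    have h1 := mul_le_mul_of_nonneg_left hz (div_nonneg (pow_nonneg hq0.le (m + 2))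
      (by positivity : (0 : ℝ) ≤ m + 2))
    have h2 := mul_le_mul_of_nonneg_left hIH (pow_nonneg hq0.le (m + 1))
    have e1 : q t ^ (m + 1) * ((P s - w s * (s * t)) / q t / w s + Q t / q t ^ m / q t / kappa m) =
        f t / kappa m - t * q t ^ m * s := by
      simp only [f]
      rw [abs_of_nonneg hTpos]
      simp only [T', ← hs]
      field_simp
      ring
    have e2 : q t ^ (m + 2) / ((m : ℝ) + 2) * (m * (R / q t) + β / (w s / kappa m / q t ^ m)) =
        q t ^ (m + 1) * (m / (m + 2) * R) + q t ^ (m + 2) * T' t / (m + 2) := by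
      simp only [T', ← hs]
      field_simp
      ring
    have e3 : q t ^ (m + 2) / ((m : ℝ) + 2) * ((m + 1) * r) = c * q t ^ (m + 2) := by
      rw [hc]; ring
    change q t ^ (m + 1) * (m / (m + 2) * R) ≤
      q t ^ (m + 1) * ((P s - w s * (s * t)) / q t / w s + Q t / q t ^ m / q t / kappa m) at h2
    linarith
  -- integrate
  set g := fun t => -(q t ^ (m + 2) * T t / (m + 2))
  have hgd : ∀ t ∈ Ioo (-1 : ℝ) 1, HasDerivAt g
      (t * q t ^ m * T t - q t ^ (m + 2) * T' t / (m + 2)) t := fun t ht => by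
    refine ((((hasDerivAt_half_circle m ht).mul (hTd t ht))).div_const _).neg.congr_deriv ?_
    simp only [q]
    field_simp
    ring
  have hqi : IntegrableOn (fun t => c * q t ^ (m + 2)) (Icc (-1) 1) :=
    (continuous_const.mul (hqc.pow _)).continuousOn.integrableOn_compact isCompact_Icc
  have hφi : IntegrableOn (fun t => f t / kappa m - c * q t ^ (m + 2)) (Icc (-1) 1) :=
    ((integrableOn_Icc_iff_integrableOn_Ioo).2 hfi).div_const _ |>.sub hqi
  have hle := intervalIntegral.sub_le_integral_of_hasDeriv_right_of_le (g := g) (by norm_num)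
    ((((hqc.pow (m + 2)).continuousOn).mul hTc).div_const _).neg
    (fun t ht => (hgd t ht).hasDerivWithinAt) hφi key
  rw [intervalIntegral.integral_of_le (by norm_num), integral_Ioc_eq_integral_Ioo,
    integral_sub (hfi.div_const _) (hqi.mono_set Ioo_subset_Icc_self), integral_div, hfint,
    integral_const_mul, show (∫ t in Ioo (-1 : ℝ) 1, q t ^ (m + 2)) =
      ∫ t in (-1)..1, √(1 - t ^ 2) ^ (m + 2) by
      rw [intervalIntegral.integral_of_le (by norm_num), integral_Ioc_eq_integral_Ioo]] at hle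
  have hg0 : g 1 = 0 ∧ g (-1) = 0 := by simp [g, q]
  rw [hg0.1, hg0.2, sub_zero] at hle
  have hcirc : ∫ t in (-1)..1, √(1 - t ^ 2) ^ (m + 2) =
      ((m : ℝ) + 2) / (m + 3) * (kappa (m + 1) / kappa m) := by
    rw [← circle_integral m, div_mul_eq_mul_div, eq_div_iff (by positivity : ((m : ℝ) + 3) ≠ 0),
      ← circle_step m]
    ring
  rw [hcirc, hc] at hle
  have e : ((∫ x in K, Φ x) / β + ∫ y in closedBall (0 : E) 1, Ψ y) / kappa m =
      kappa (m + 1) / kappa m * ((∫ x in K, Φ x) / V +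
        (∫ y in closedBall (0 : E) 1, Ψ y) / kappa (m + 1)) := by
    rw [hβdef]
    field_simp
  have e' : ((m : ℝ) + 1) / (m + 2) * r * (((m : ℝ) + 2) / (m + 3) * (kappa (m + 1) / kappa m)) =
      kappa (m + 1) / kappa m * (((m : ℝ) + 1) / (m + 3) * r) := by
    field_simp
  rw [e, e', sub_nonneg] at hle
  exact le_of_mul_le_mul_left hle (div_pos hκ1 hκ)

/-- The correlation inequality: potentials dominating the inner product on `K × B` have averages
with sum at least `n / (n + 2) * (|K| / kappa n) ^ (1 / n)`. -/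
theorem correlation : ∀ (n : ℕ) {E : Type u} [NormedAddCommGroup E] [InnerProductSpace ℝ E]
    [FiniteDimensional ℝ E] [MeasurableSpace E] [BorelSpace E], finrank ℝ E = n →
    ∀ K : Set E, Body K → ∀ Φ Ψ : E → ℝ, Continuous Φ → Continuous Ψ →
      (∀ x ∈ K, ∀ y : E, ‖y‖ ≤ 1 → ⟪x, y⟫ ≤ Φ x + Ψ y) →
      (n : ℝ) / (n + 2) * (volume.real K / kappa n) ^ ((n : ℝ)⁻¹) ≤
        (∫ x in K, Φ x) / volume.real K + (∫ y in closedBall (0 : E) 1, Ψ y) / kappa n := by
  intro n
  induction n with
  | zero =>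
    intro E _ _ _ _ _ hfin K hK Φ Ψ hΦ hΨ h
    have : Subsingleton E := Module.finrank_zero_iff.1 hfin
    obtain ⟨x, hx⟩ := hK.nonempty
    have h0 := h x hx 0 (by simp)
    rw [inner_zero_right, Subsingleton.elim x 0] at h0
    simp only [Nat.cast_zero, zero_div, zero_mul, Subsingleton.elim _ (0 : E), setIntegral_const,
      smul_eq_mul, real_closedBall hfin, mul_div_cancel_left₀ _ (kappa_pos 0).ne',
      mul_div_cancel_left₀ _ hK.volume_pos.ne']
    exact h0
  | succ m ih =>
    intro E _ _ _ _ _ hfin K hK Φ Ψ hΦ hΨ h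
    have := correlation_step m ih hfin hK hΦ hΨ h
    push_cast
    rw [show (m : ℝ) + 1 + 2 = m + 3 by ring]
    exact this

/-- Averaged correlation at directions decomposing the identity. -/
theorem correlation_sum {E : Type u} [NormedAddCommGroup E] [InnerProductSpace ℝ E]
    [FiniteDimensional ℝ E] [MeasurableSpace E] [BorelSpace E] {K : Set E} (hK : Body K)
    (s : Finset E) (c : E → ℝ) (hc : ∀ v ∈ s, 0 ≤ c v)
    (hid : ∀ x : E, ∑ v ∈ s, c v * ⟪v, x⟫ ^ 2 = ‖x‖ ^ 2) (ψ χ : E → ℝ → ℝ)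
    (hψ : ∀ v ∈ s, Continuous (ψ v)) (hχ : ∀ v ∈ s, Continuous (χ v))
    (h : ∀ v ∈ s, ∀ x ∈ K, ∀ y : E, ‖y‖ ≤ 1 → ⟪v, x⟫ * ⟪v, y⟫ ≤ ψ v ⟪v, x⟫ + χ v ⟪v, y⟫) :
    (finrank ℝ E : ℝ) / (finrank ℝ E + 2) *
        (volume.real K / kappa (finrank ℝ E)) ^ ((finrank ℝ E : ℝ)⁻¹) ≤
      ∑ v ∈ s, c v * ((∫ x in K, ψ v ⟪v, x⟫) / volume.real K +
        (∫ y in closedBall (0 : E) 1, χ v ⟪v, y⟫) / kappa (finrank ℝ E)) := by
  have hpol : ∀ x y : E, ∑ v ∈ s, c v * (⟪v, x⟫ * ⟪v, y⟫) = ⟪x, y⟫ := fun x y => by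
    have h1 : ∑ v ∈ s, c v * ⟪v, x + y⟫ ^ 2 =
        ∑ v ∈ s, c v * ⟪v, x⟫ ^ 2 + 2 * ∑ v ∈ s, c v * (⟪v, x⟫ * ⟪v, y⟫) +
          ∑ v ∈ s, c v * ⟪v, y⟫ ^ 2 := by
      rw [Finset.mul_sum, ← Finset.sum_add_distrib, ← Finset.sum_add_distrib]
      exact Finset.sum_congr rfl fun v _ => by rw [inner_add_right]; ring
    rw [hid, hid, hid, norm_add_sq_real] at h1
    linarith
  have hin : ∀ v : E, Continuous fun x : E => ⟪v, x⟫ := fun v =>
    continuous_const.inner continuous_id
  have hΦ : Continuous fun x : E => ∑ v ∈ s, c v * ψ v ⟪v, x⟫ :=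
    continuous_finsetSum s fun v hv => continuous_const.mul ((hψ v hv).comp (hin v))
  have hΨ : Continuous fun y : E => ∑ v ∈ s, c v * χ v ⟪v, y⟫ :=
    continuous_finsetSum s fun v hv => continuous_const.mul ((hχ v hv).comp (hin v))
  have := correlation (finrank ℝ E) rfl K hK _ _ hΦ hΨ fun x hx y hy => by
    rw [← hpol, ← Finset.sum_add_distrib]
    exact Finset.sum_le_sum fun v hv => by
      rw [← mul_add]; exact mul_le_mul_of_nonneg_left (h v hv x hx y hy) (hc v hv)
  have hi : ∀ v ∈ s, IntegrableOn (fun x => c v * ψ v ⟪v, x⟫) K := fun v hv =>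
    (continuous_const.mul ((hψ v hv).comp (hin v))).continuousOn.integrableOn_compact hK.compact
  have hj : ∀ v ∈ s, IntegrableOn (fun y => c v * χ v ⟪v, y⟫) (closedBall (0 : E) 1) :=
    fun v hv => (continuous_const.mul ((hχ v hv).comp (hin v))).continuousOn.integrableOn_compact
      (isCompact_closedBall _ _)
  rw [integral_finsetSum s hi, integral_finsetSum s hj,
    Finset.sum_div, Finset.sum_div, ← Finset.sum_add_distrib] at this
  refine this.trans_eq (Finset.sum_congr rfl fun v _ => ?_)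
  simp only [integral_const_mul]
  ring

end Vale.Agent.P237.Petty
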