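import Vale.Agent.P237.AllN.Defs

/-!
# Common definitions for the sharp projection volume inequality
-/

namespace Vale.Agent.P237.Petty

open MeasureTheory Set Module
open scoped RealInnerProductSpace Pointwise

/-- The volume of the Euclidean unit ball of dimension `m`. -/
noncomputable def kappa (m : ℕ) : ℝ :=
  volume.real (Metric.closedBall (0 : EuclideanSpace ℝ (Fin m)) 1)

/-- The value of the normalised projection volume at Euclidean balls. -/
noncomputable def cPetty (n : ℕ) : ℝ := kappa (n - 1) ^ n / kappa n ^ (n - 2)

variable {E : Type*} [NormedAddCommGroup E] [InnerProductSpace ℝ E]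

/-- The support function. -/
noncomputable def supp (K : Set E) (v : E) : ℝ := sSup ((fun x => ⟪v, x⟫) '' K)

theorem le_supp {K : Set E} (hK : IsCompact K) (v : E) {x : E} (hx : x ∈ K) :
    ⟪v, x⟫ ≤ supp K v :=
  le_csSup (hK.image (continuous_const.inner continuous_id)).bddAbove (mem_image_of_mem _ hx)

theorem supp_le {K : Set E} (hne : K.Nonempty) {v : E} {c : ℝ} (h : ∀ x ∈ K, ⟪v, x⟫ ≤ c) :
    supp K v ≤ c :=
  csSup_le (hne.image _) fun _ ⟨x, hx, e⟩ => e ▸ h x hx

theorem exists_supp_eq {K : Set E} (hK : IsCompact K) (hne : K.Nonempty) (v : E) :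
    ∃ x ∈ K, ⟪v, x⟫ = supp K v :=
  (hK.image (continuous_const.inner continuous_id)).sSup_mem (hne.image _)

variable [FiniteDimensional ℝ E] [MeasurableSpace E] [BorelSpace E]

/-- The normalised projection volume. -/
noncomputable def ratio (K : Set E) : ℝ :=
  volume.real (projBody K) / volume.real K ^ (finrank ℝ E - 1)

/-- A convex body. -/
structure Body (K : Set E) : Prop where
  compact : IsCompact K
  convex : Convex ℝ K
  interior_nonempty : (interior K).Nonempty

theorem Body.nonempty {K : Set E} (h : Body K) : K.Nonempty :=
  h.interior_nonempty.mono interior_subset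

theorem Body.volume_pos {K : Set E} (h : Body K) : 0 < volume.real K :=
  ENNReal.toReal_pos (Measure.measure_pos_of_nonempty_interior volume h.interior_nonempty).ne'
    h.compact.measure_lt_top.ne

theorem Body.zero_mem_interior {K : Set E} (h : Body K) (hs : -K = K) : (0 : E) ∈ interior K := by
  obtain ⟨x, hx⟩ := h.interior_nonempty
  have hx' : -x ∈ K := by rw [← hs]; simpa using interior_subset hx
  have := h.convex.combo_interior_self_mem_interior hx hx' (a := (1 / 2 : ℝ)) (b := 1 / 2)
    (by norm_num) (by norm_num) (by norm_num)
  simpa using this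

end Vale.Agent.P237.Petty
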