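import Vale.Agent.P237.AllN.Zono
import Vale.Agent.P237.AllN.Cauchy
import Vale.Agent.P237.AllN.Approx

/-!
# The projection body does not increase the normalised projection volume

For a polytope the projection body is a zonotope, so the volume bound for zonotopes is exactly the
bound on the facet sum of the shadows of the projection body; Minkowski's first inequality in its
global form then passes to all convex bodies.
-/

namespace Vale.Agent.P237.Petty

open MeasureTheory Set Module Filter
open scoped RealInnerProductSpace Pointwise Topology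
open Vale.Agent.P237.AllN

variable {E : Type*} [NormedAddCommGroup E] [InnerProductSpace ℝ E] [FiniteDimensional ℝ E]
  [MeasurableSpace E] [BorelSpace E]

/-- The projection body of a polytope is a zonotope. -/
theorem projBody_poly {s : Finset E} {b : E → ℝ} (hs1 : ∀ v ∈ s, ‖v‖ = 1)
    (hP : IsCompact (poly s b)) :
    projBody (poly s b) = zono s (fun v => facet s b v / 2) := by
  have hg : ∀ v ∈ s, 0 ≤ facet s b v / 2 := fun v _ => div_nonneg (facet_nonneg s b v) (by norm_num)
  have harea : ∀ u : E, ‖u‖ = 1 →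
      area (poly s b) u = ∑ v ∈ s, facet s b v / 2 * |⟪v, u⟫| := fun u hu => by
    rw [area_poly hs1 hP hu, Finset.sum_div]
    exact Finset.sum_congr rfl fun v _ => by ring
  refine subset_antisymm (fun x hx => ?_) fun x hx u hu =>
    (inner_zono_le hg hx u).trans_eq (harea u hu).symm
  by_contra hn
  obtain ⟨f, c, hf, hc⟩ := geometric_hahn_banach_closed_point (convex_zono s _)
    (isCompact_zono s (fun v => facet s b v / 2)).isClosed hn
  set y := (InnerProductSpace.toDual ℝ E).symm f with hy
  have hfy : ∀ z, f z = ⟪z, y⟫ := fun z => by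
    rw [hy, real_inner_comm, InnerProductSpace.toDual_symm_apply]
  obtain ⟨z, hz, hzy⟩ := exists_inner_zono s (fun v => facet s b v / 2) y
  have h1 := hf z hz
  rw [hfy, hzy] at h1
  rw [hfy] at hc
  rcases eq_or_ne y 0 with h0 | h0
  · simp only [h0, inner_zero_right, abs_zero, mul_zero, Finset.sum_const_zero] at h1 hc
    linarith
  · have hn0 : 0 < ‖y‖ := norm_pos_iff.2 h0
    have hu1 : ‖‖y‖⁻¹ • y‖ = 1 := norm_smul_inv_norm h0
    have h2 := hx (‖y‖⁻¹ • y) hu1
    rw [harea _ hu1, real_inner_smul_right] at h2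
    simp only [real_inner_smul_right, abs_mul, abs_of_pos (inv_pos.2 hn0)] at h2
    have e : ∑ v ∈ s, facet s b v / 2 * (‖y‖⁻¹ * |⟪v, y⟫|) =
        ‖y‖⁻¹ * ∑ v ∈ s, facet s b v / 2 * |⟪v, y⟫| := by
      rw [Finset.mul_sum]; exact Finset.sum_congr rfl fun v _ => by ring
    rw [e] at h2
    linarith [le_of_mul_le_mul_left h2 (inv_pos.2 hn0)]

/-- Shadows are homogeneous. -/
theorem area_smul {r : ℝ} (hr : 0 ≤ r) (K : Set E) {u : E} (hu : ‖u‖ = 1) :
    area (r • K) u = r ^ (finrank ℝ E - 1) * area K u := by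
  have hF : finrank ℝ (ℝ ∙ u)ᗮ = finrank ℝ E - 1 := by
    have h := (ℝ ∙ u).finrank_add_finrank_orthogonal
    rw [finrank_span_singleton (norm_ne_zero_iff.1 (by simp [hu]))] at h
    omega
  have e : (ℝ ∙ u)ᗮ.orthogonalProjectionOnto '' (r • K) =
      r • ((ℝ ∙ u)ᗮ.orthogonalProjectionOnto '' K) := by
    rw [← Set.image_smul, ← Set.image_smul, image_image, image_image]
    exact image_congr fun x _ => map_smul _ _ _
  rw [area, area, e, measureReal_def, Measure.addHaar_smul, ENNReal.toReal_mul,
    ENNReal.toReal_ofReal (abs_nonneg _), abs_of_nonneg (pow_nonneg hr _), hF, ← measureReal_def]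

theorem smul_projBody_subset {r : ℝ} (hr : 0 ≤ r) (K : Set E) :
    r ^ (finrank ℝ E - 1) • projBody K ⊆ projBody (r • K) := by
  rintro _ ⟨y, hy, rfl⟩ u hu
  rw [real_inner_smul_left, area_smul hr K hu]
  exact mul_le_mul_of_nonneg_left (hy u hu) (pow_nonneg hr _)

theorem vroot_translate (a : E) (X : Set E) : vroot ((fun x => a + x) '' X) = vroot X := by
  rw [vroot, vroot, measureReal_def, measureReal_def, image_add_left, measure_preimage_add]

/-- The bound for polytopes, with a free scalar. -/
theorem poly_descent [Nontrivial E] {s : Finset E} {b : E → ℝ} (hs1 : ∀ v ∈ s, ‖v‖ = 1)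
    (hb : ∀ v ∈ s, 0 < b v) (hP : IsCompact (poly s b)) {t : ℝ} (ht : 0 ≤ t) :
    vroot (poly s b) ^ (finrank ℝ E - 1) *
        (vroot (poly s b + t • projBody (projBody (poly s b))) - vroot (poly s b)) ≤
      t * volume.real (projBody (poly s b)) := by
  set P := poly s b with hPdef
  set g : E → ℝ := fun v => facet s b v / 2 with hg
  have h := minkowski_global hs1 hb hP ((isCompact_projBody (projBody P)).smul t)
    (Set.Nonempty.smul_set ⟨0, zero_mem_projBody _⟩) (h := fun v => t * area (projBody P) v)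
    (fun v _ => mul_nonneg ht (area_nonneg _ _))
    (by
      rintro v hv _ ⟨q, hq, rfl⟩
      rw [real_inner_smul_right, real_inner_comm]
      exact mul_le_mul_of_nonneg_left (hq v (hs1 v hv)) ht)
  have hz := zono_volume hs1 (g := g) fun v _ =>
    div_nonneg (facet_nonneg s b v) (by norm_num)
  rw [← projBody_poly hs1 hP, ← hPdef] at hz
  have e : ∑ v ∈ s, t * area (projBody P) v * volume.real (hslice v P (b v)) =
      t * (2 * ∑ v ∈ s, g v * area (projBody P) v) := by
    rw [Finset.mul_sum, Finset.mul_sum]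
    exact Finset.sum_congr rfl fun v _ => by simp only [hg, facet, ← hPdef]; ring
  rw [e] at h
  have hn : (0 : ℝ) < finrank ℝ E := Nat.cast_pos.2 finrank_pos
  refine le_of_mul_le_mul_left ?_ hn
  calc (finrank ℝ E : ℝ) * (vroot P ^ (finrank ℝ E - 1) * _) = _ := by ring
    _ ≤ _ := h
    _ ≤ t * ((finrank ℝ E : ℝ) * volume.real (projBody P)) := mul_le_mul_of_nonneg_left hz ht
    _ = _ := by ring

/-- The factors used in the approximation. -/
theorem tendsto_factor : Tendsto (fun k : ℕ => 1 - 1 / (k + 2 : ℝ)) atTop (𝓝 1) := by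
  have h := (tendsto_add_atTop_iff_nat 1).2
    (tendsto_one_div_add_atTop_nhds_zero_nat (𝕜 := ℝ))
  have e : (fun k : ℕ => 1 - 1 / (k + 2 : ℝ)) = fun k : ℕ => 1 - 1 / (((k + 1 : ℕ) : ℝ) + 1) := by
    funext k; push_cast; ring
  rw [e]
  simpa using h.const_sub 1

theorem factor_mem (k : ℕ) : 0 < 1 - 1 / (k + 2 : ℝ) ∧ 1 - 1 / (k + 2 : ℝ) < 1 := by
  have h1 : 0 < 1 / (k + 2 : ℝ) := by positivity
  have h2 : 1 / (k + 2 : ℝ) < 1 := by
    rw [div_lt_one (by positivity)]
    linarith [(Nat.cast_nonneg k : (0 : ℝ) ≤ k)]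
  constructor <;> linarith

theorem descent_global_zero [Nontrivial E] {K : Set E} (hK : IsCompact K) (hKc : Convex ℝ K)
    (h0 : (0 : E) ∈ interior K) {t : ℝ} (ht : 0 ≤ t) :
    vroot K ^ (finrank ℝ E - 1) * (vroot (K + t • projBody (projBody K)) - vroot K) ≤
      t * volume.real (projBody K) := by
  set M := projBody (projBody K) with hM
  set N := finrank ℝ E - 1 with hN
  set r : ℕ → ℝ := fun k => 1 - 1 / (k + 2 : ℝ) with hr
  have hMc : IsCompact M := isCompact_projBody _
  have hk : ∀ k, (r k * vroot K) ^ N * (r k ^ (N * N + 1) * vroot (K + t • M) - vroot K) ≤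
      t * volume.real (projBody K) := by
    intro k
    obtain ⟨hr0, hr1⟩ := factor_mem k
    obtain ⟨s, b, hs1, hb, hP, hin, hout⟩ := exists_poly_between hK hKc h0 hr0 hr1
    set P := poly s b with hPdef
    set m := N * N + 1 with hm
    have hrm : r k ^ m ≤ r k := pow_le_of_le_one hr0.le hr1.le (Nat.succ_ne_zero _)
    have hrm0 : (0 : ℝ) ≤ r k ^ m := pow_nonneg hr0.le _
    have hM2 : (r k ^ (N * N)) • M ⊆ projBody (projBody P) := by
      have h1 : r k ^ N • projBody K ⊆ projBody P :=
        (smul_projBody_subset hr0.le K).trans (projBody_mono hP hin)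
      have h2 := (smul_projBody_subset (pow_nonneg hr0.le N) (projBody K)).trans
        (projBody_mono (isCompact_projBody P) h1)
      rwa [← hN, ← pow_mul, ← hM] at h2
    have hsub : r k ^ m • (K + t • M) ⊆ P + t • projBody (projBody P) := by
      rintro _ ⟨_, ⟨x, hx, _, ⟨y, hy, rfl⟩, rfl⟩, rfl⟩
      refine ⟨r k ^ m • x, hin ?_, t • (r k ^ m • y), smul_mem_smul_set ?_, ?_⟩
      · refine ⟨(r k ^ m / r k) • x, ?_, ?_⟩
        · exact (hKc.starConvex (interior_subset h0)).smul_mem hx (by positivity)
            ((div_le_one hr0).2 hrm)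
        · show r k • ((r k ^ m / r k) • x) = _
          have hrk : r k ≠ 0 := hr0.ne'
          rw [smul_smul]; congr 1; field_simp
      · refine hM2 ⟨r k • y, ?_, ?_⟩
        · exact ((convex_projBody _).starConvex (zero_mem_projBody _)).smul_mem hy hr0.le hr1.le
        · show r k ^ (N * N) • r k • y = _
          rw [smul_smul, hm, pow_succ]
      · simp only [smul_add, smul_smul, mul_comm t]
    have h := poly_descent hs1 hb hP ht
    rw [← hN, ← hPdef] at h
    have hbig : r k ^ m * vroot (K + t • M) ≤ vroot (P + t • projBody (projBody P)) := by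
      rw [← vroot_smul hrm0]
      exact vroot_mono (hP.add ((isCompact_projBody _).smul t)) hsub
    have hsmall : vroot P ≤ vroot K := vroot_mono hK hout
    have hlow : r k * vroot K ≤ vroot P := by rw [← vroot_smul hr0.le]; exact vroot_mono hP hin
    have hPi : volume.real (projBody P) ≤ volume.real (projBody K) :=
      measureReal_mono (projBody_mono hK hout) (isCompact_projBody K).measure_lt_top.ne
    have h1 : t * volume.real (projBody P) ≤ t * volume.real (projBody K) :=
      mul_le_mul_of_nonneg_left hPi ht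
    have hl0 : 0 ≤ r k * vroot K := mul_nonneg hr0.le (vroot_nonneg _)
    rcases le_total (r k ^ m * vroot (K + t • M) - vroot K) 0 with hneg | hpos
    · exact (mul_nonpos_of_nonneg_of_nonpos (pow_nonneg hl0 _) hneg).trans
        (mul_nonneg ht measureReal_nonneg)
    · refine le_trans ?_ (h.trans h1)
      exact mul_le_mul (pow_le_pow_left₀ hl0 hlow _) (by linarith) hpos
        (pow_nonneg (vroot_nonneg _) _)
  refine le_of_tendsto' (x := atTop) ?_ hk
  simpa [hr] using ((tendsto_factor.mul_const (vroot K)).pow N).mul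
    (((tendsto_factor.pow (N * N + 1)).mul_const (vroot (K + t • M))).sub_const (vroot K))

omit [FiniteDimensional ℝ E] [MeasurableSpace E] [BorelSpace E] in
/-- Moving a body so that the origin is inside. -/
theorem exists_centred {K : Set E} (hKc : Convex ℝ K) (hne : (interior K).Nonempty)
    (hK : IsCompact K) :
    ∃ a : E, IsCompact ((fun x => a + x) '' K) ∧ Convex ℝ ((fun x => a + x) '' K) ∧
      (0 : E) ∈ interior ((fun x => a + x) '' K) := by
  obtain ⟨x₀, hx₀⟩ := hne
  refine ⟨-x₀, hK.image (by fun_prop), hKc.translate _, ?_⟩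
  refine interior_maximal (image_mono interior_subset) ?_ ⟨x₀, hx₀, neg_add_cancel x₀⟩
  exact isOpenMap_add_left _ _ isOpen_interior

/-- The global inequality for convex bodies. -/
theorem descent_global [Nontrivial E] {K : Set E} (hK : IsCompact K) (hKc : Convex ℝ K)
    (hne : (interior K).Nonempty) {t : ℝ} (ht : 0 ≤ t) :
    vroot K ^ (finrank ℝ E - 1) * (vroot (K + t • projBody (projBody K)) - vroot K) ≤
      t * volume.real (projBody K) := by
  obtain ⟨a, h1, h2, h3⟩ := exists_centred hKc hne hK
  have h := descent_global_zero h1 h2 h3 ht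
  have e : (fun x => a + x) '' K + t • projBody (projBody K) =
      (fun x => a + x) '' (K + t • projBody (projBody K)) := by
    show (a +ᵥ K) + t • projBody (projBody K) = a +ᵥ (K + t • projBody (projBody K))
    rw [vadd_add_assoc]
  rwa [projBody_translate, e, vroot_translate, vroot_translate] at h

/-- `R(ΠK) ≤ R(K)`, with roots. -/
theorem descent_root [Nontrivial E] {K : Set E} (hK : IsCompact K) (hKc : Convex ℝ K)
    (hne : (interior K).Nonempty) :
    vroot K ^ (finrank ℝ E - 1) * vroot (projBody (projBody K)) ≤ volume.real (projBody K) := by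
  have h := descent_global hK hKc hne zero_le_one
  rw [one_smul, one_mul] at h
  have := vroot_add hK (isCompact_projBody (projBody K)) (hne.mono interior_subset)
    ⟨0, zero_mem_projBody _⟩
  refine le_trans (mul_le_mul_of_nonneg_left ?_ (pow_nonneg (vroot_nonneg _) _)) h
  linarith

/-- `R(ΠK) ≤ R(K)`. -/
theorem descent [Nontrivial E] {K : Set E} (hK : IsCompact K) (hKc : Convex ℝ K)
    (hne : (interior K).Nonempty) :
    volume.real (projBody (projBody K)) * volume.real K ^ (finrank ℝ E - 1) ≤
      volume.real (projBody K) ^ finrank ℝ E := by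
  have h := pow_le_pow_left₀ (mul_nonneg (pow_nonneg (vroot_nonneg K) _) (vroot_nonneg _))
    (descent_root hK hKc hne) (finrank ℝ E)
  rw [mul_pow, ← pow_mul, mul_comm (finrank ℝ E - 1), pow_mul, vroot_pow, vroot_pow, mul_comm] at h
  exact h

/-- The shadows of a body are the support values of its projection body. -/
theorem exists_inner_eq_area [Nontrivial E] {K : Set E} (hK : IsCompact K) (hKc : Convex ℝ K)
    (hne : (interior K).Nonempty) {u : E} (hu : ‖u‖ = 1) :
    ∃ y ∈ projBody K, ⟪y, u⟫ = area K u := by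
  obtain ⟨a, h1, h2, h3⟩ := exists_centred hKc hne hK
  rw [← projBody_translate a K, ← area_translate a K u]
  set L := (fun x => a + x) '' K
  obtain ⟨y, hy, hmax⟩ := (isCompact_projBody L).exists_isMaxOn ⟨0, zero_mem_projBody L⟩
    (f := fun z => ⟪z, u⟫) (by fun_prop)
  refine ⟨y, hy, le_antisymm (hy u hu) ?_⟩
  have hk : ∀ k : ℕ, (1 - 1 / (k + 2 : ℝ)) ^ (finrank ℝ E - 1) * area L u ≤ ⟪y, u⟫ := by
    intro k
    obtain ⟨hr0, hr1⟩ := factor_mem k
    obtain ⟨s, b, hs1, hb, hP, hin, hout⟩ := exists_poly_between h1 h2 h3 hr0 hr1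
    rw [← area_smul hr0.le L hu]
    refine (area_mono hP hin u).trans ?_
    obtain ⟨z, hz, hzu⟩ := exists_inner_zono s (fun v => facet s b v / 2) u
    rw [← projBody_poly hs1 hP] at hz
    have e : ∑ v ∈ s, facet s b v / 2 * |⟪v, u⟫| = area (poly s b) u := by
      rw [area_poly hs1 hP hu, Finset.sum_div]
      exact Finset.sum_congr rfl fun v _ => by ring
    rw [← e, ← hzu]
    exact hmax (projBody_mono h1 hout hz)
  refine le_of_tendsto' (x := atTop) ?_ hk
  simpa using (tendsto_factor.pow (finrank ℝ E - 1)).mul_const (area L u)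

/-- The projection body of a body contains a ball. -/
theorem projBody_interior {K : Set E} (hK : IsCompact K)
    (hne : (interior K).Nonempty) : (0 : E) ∈ interior (projBody K) := by
  obtain ⟨x₀, hx₀⟩ := hne
  obtain ⟨r, hr, hball⟩ := Metric.nhds_basis_closedBall.mem_iff.1 (mem_interior_iff_mem_nhds.1 hx₀)
  rcases subsingleton_or_nontrivial E with hE | hE
  · have : projBody K = univ := eq_univ_of_forall fun y u hu => by
      simp [Subsingleton.elim u 0] at hu
    simp [this]
  have hpos : ∀ u : E, ‖u‖ = 1 →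
      volume.real (Metric.closedBall (0 : (ℝ ∙ u)ᗮ) r) ≤ area K u := by
    intro u hu
    refine le_trans (le_of_eq ?_) (area_mono hK hball u)
    rw [area, measureReal_def, measureReal_def]
    congr 1
    rw [← measure_preimage_add volume (-((ℝ ∙ u)ᗮ.orthogonalProjectionOnto x₀))]
    congr 1
    ext y
    simp only [mem_preimage, mem_image, mem_closedBall_iff_norm, sub_zero]
    constructor
    · intro hy
      refine ⟨x₀ + ((-(ℝ ∙ u)ᗮ.orthogonalProjectionOnto x₀ + y : (ℝ ∙ u)ᗮ) : E), ?_, ?_⟩
      · rwa [add_sub_cancel_left, ← Submodule.coe_norm]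
      · rw [map_add, Submodule.orthogonalProjectionOnto_mem_subspace_eq_self, add_neg_cancel_left]
    · rintro ⟨z, hz, rfl⟩
      rw [neg_add_eq_sub, ← map_sub]
      exact ((ℝ ∙ u)ᗮ.norm_orthogonalProjectionOnto_apply_le _).trans hz
  obtain ⟨ρ, hρ, hρle⟩ : ∃ ρ : ℝ, 0 < ρ ∧ ∀ u : E, ‖u‖ = 1 → ρ ≤ area K u := by
    obtain ⟨u₀, hu₀⟩ := exists_norm_eq E zero_le_one
    refine ⟨volume.real (Metric.closedBall (0 : (ℝ ∙ u₀)ᗮ) r), ?_, fun u hu => ?_⟩
    · exact ENNReal.toReal_pos (Metric.measure_closedBall_pos volume 0 hr).ne'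
        (isCompact_closedBall _ _).measure_lt_top.ne
    · refine le_trans (le_of_eq ?_) (hpos u hu)
      have hF : ∀ w : E, ‖w‖ = 1 → finrank ℝ (ℝ ∙ w)ᗮ = finrank ℝ E - 1 := fun w hw => by
        have h := (ℝ ∙ w).finrank_add_finrank_orthogonal
        rw [finrank_span_singleton (norm_ne_zero_iff.1 (by simp [hw]))] at h
        omega
      have e := (stdOrthonormalBasis ℝ (ℝ ∙ u₀)ᗮ).repr.trans
        ((LinearIsometryEquiv.piLpCongrLeft 2 ℝ ℝ (finCongr ((hF u₀ hu₀).trans (hF u hu).symm))).trans
          (stdOrthonormalBasis ℝ (ℝ ∙ u)ᗮ).repr.symm)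
      rw [measureReal_def, measureReal_def,
        ← e.measurePreserving.measure_preimage measurableSet_closedBall.nullMeasurableSet]
      congr 1
      congr 1
      ext y
      simp
  refine mem_interior.2 ⟨Metric.ball 0 ρ, fun y hy u hu => ?_, Metric.isOpen_ball,
    Metric.mem_ball_self hρ⟩
  rw [mem_ball_zero_iff] at hy
  calc ⟪y, u⟫ ≤ ‖y‖ * ‖u‖ := real_inner_le_norm y u
    _ ≤ ρ := by rw [hu, mul_one]; exact hy.le
    _ ≤ _ := hρle u hu

end Vale.Agent.P237.Petty
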