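import Vale.Agent.P237.Petty.LinearDefs

/-!
# P237: the best test function in the Dirichlet term of a profile

For a concave profile the ratio `-f' / (f - t f')` is monotone and bounded by one; smoothed, it
makes the Dirichlet term as small as `1 - jInt / ∫ f^(p+1)`.
-/

namespace Vale.Agent.P237.Petty

open MeasureTheory Set Filter Topology intervalIntegral

variable {f : ℝ → ℝ}

theorem hasDerivWithinAt_slopeR (hf : ConcaveOn ℝ (Icc (-1) 1) f) {t : ℝ} (ht : t ∈ Ioo (-1 : ℝ) 1) :
    HasDerivWithinAt f (slopeR f t) (Ioi t) t := by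
  have h := (hf.neg.differentiableWithinAt_Ioi_of_mem_interior (x := t)
    (by rwa [interior_Icc])).neg
  simp only [neg_neg] at h
  exact h.hasDerivWithinAt

theorem antitoneOn_slopeR (hf : ConcaveOn ℝ (Icc (-1) 1) f) :
    AntitoneOn (slopeR f) (Ioo (-1) 1) := by
  intro a ha b hb hab
  have h := hf.neg.monotoneOn_rightDeriv (by rwa [interior_Icc] : a ∈ interior (Icc (-1 : ℝ) 1))
    (by rwa [interior_Icc] : b ∈ interior (Icc (-1 : ℝ) 1)) hab
  have e : ∀ x ∈ Ioo (-1 : ℝ) 1, derivWithin (-f) (Ioi x) x = -slopeR f x := fun x hx =>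
    ((hasDerivWithinAt_slopeR hf hx).neg).derivWithin (uniqueDiffWithinAt_Ioi x)
  simp only [e a ha, e b hb] at h
  linarith

/-- A concave function lies below its tangent lines. -/
theorem le_tangent (hf : ConcaveOn ℝ (Icc (-1) 1) f) {t y : ℝ} (ht : t ∈ Ioo (-1 : ℝ) 1)
    (hy : y ∈ Icc (-1 : ℝ) 1) : f y ≤ f t + slopeR f t * (y - t) := by
  have hd := hasDerivWithinAt_slopeR hf ht
  rcases lt_trichotomy y t with h | rfl | h
  · have hlim := (hasDerivWithinAt_iff_tendsto_slope' self_notMem_Ioi).mp hd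
    have hev : ∀ᶠ z in 𝓝[>] t, slope f t z ≤ slope f y t := by
      filter_upwards [Ioo_mem_nhdsGT ht.2] with z hz
      have := hf.slope_anti_adjacent hy ⟨by linarith [hz.1, ht.1], hz.2.le⟩ h hz.1
      simpa [slope_def_field] using this
    have h2 := le_of_tendsto hlim hev
    rw [slope_def_field, le_div_iff₀ (by linarith)] at h2
    linarith
  · simp
  · have h2 := hf.neg.le_slope_of_hasDerivWithinAt_Ioi (Ioo_subset_Icc_self ht) hy h hd.neg
    rw [slope_def_field, le_div_iff₀ (by linarith)] at h2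
    simp only [Pi.neg_apply] at h2
    linarith

/-- A profile for the linear inequality. -/
structure Regular (f : ℝ → ℝ) : Prop where
  concave : ConcaveOn ℝ (Icc (-1) 1) f
  cont : ContinuousOn f (Icc (-1) 1)
  even : ∀ t, f (-t) = f t
  nonneg : ∀ t ∈ Icc (-1 : ℝ) 1, 0 ≤ f t
  pos : 0 < f 0

namespace Regular

variable (hf : Regular f)
include hf

theorem le_icept {t : ℝ} (ht : t ∈ Ioo (-1 : ℝ) 1) : f 0 ≤ icept f t := by
  have := le_tangent hf.concave ht (show (0 : ℝ) ∈ Icc (-1 : ℝ) 1 by norm_num)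
  unfold icept
  linarith

theorem icept_pos {t : ℝ} (ht : t ∈ Ioo (-1 : ℝ) 1) : 0 < icept f t :=
  hf.pos.trans_le (hf.le_icept ht)

theorem abs_slope_le {t : ℝ} (ht : t ∈ Ioo (-1 : ℝ) 1) : |slopeR f t| ≤ icept f t := by
  have h1 := le_tangent hf.concave ht (right_mem_Icc.2 (by norm_num : (-1 : ℝ) ≤ 1))
  have h2 := le_tangent hf.concave ht (left_mem_Icc.2 (by norm_num : (-1 : ℝ) ≤ 1))
  have h3 := hf.nonneg 1 (by norm_num)
  have h4 := hf.nonneg (-1) (by norm_num)
  rw [abs_le]
  unfold icept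
  constructor <;> linarith

end Regular

/-- The test function `-f' / (f - t f')`, extended by `±1`. -/
noncomputable def bestTest (f : ℝ → ℝ) (t : ℝ) : ℝ :=
  if 1 ≤ t then 1 else if t ≤ -1 then -1 else -slopeR f t / icept f t

theorem bestTest_eq {t : ℝ} (ht : t ∈ Ioo (-1 : ℝ) 1) :
    bestTest f t = -slopeR f t / icept f t := by
  rw [bestTest, if_neg (not_le.2 ht.2), if_neg (not_le.2 ht.1)]

theorem abs_bestTest_le (hf : Regular f) (t : ℝ) : |bestTest f t| ≤ 1 := by
  unfold bestTest
  split_ifs with h1 h2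
  · simp
  · simp
  · have ht : t ∈ Ioo (-1 : ℝ) 1 := ⟨not_le.1 h2, not_le.1 h1⟩
    rw [abs_div, abs_neg, abs_of_pos (hf.icept_pos ht), div_le_one (hf.icept_pos ht)]
    exact hf.abs_slope_le ht

theorem monotone_bestTest (hf : Regular f) : Monotone (bestTest f) := by
  intro a b hab
  have hA := abs_le.1 (abs_bestTest_le hf a)
  have hB := abs_le.1 (abs_bestTest_le hf b)
  by_cases ha : a ≤ -1
  · simp [bestTest, ha, not_le.2 (lt_of_le_of_lt ha (by norm_num : (-1 : ℝ) < 1))] at hA ⊢
    exact hB.1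
  by_cases hb : 1 ≤ b
  · rw [show bestTest f b = 1 from if_pos hb]
    exact hA.2
  have hb1 : b ∈ Ioo (-1 : ℝ) 1 := ⟨(not_le.1 ha).trans_le hab, not_le.1 hb⟩
  have ha1 : a ∈ Ioo (-1 : ℝ) 1 := ⟨not_le.1 ha, hab.trans_lt hb1.2⟩
  have hDa := hf.icept_pos ha1
  have hDb := hf.icept_pos hb1
  rw [bestTest_eq ha1, bestTest_eq hb1, div_le_div_iff₀ hDa hDb]
  have hp := antitoneOn_slopeR hf.concave ha1 hb1 hab
  have t1 := le_tangent hf.concave ha1 (Ioo_subset_Icc_self hb1)
  have t2 := le_tangent hf.concave hb1 (Ioo_subset_Icc_self ha1)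
  have fa := hf.nonneg a (Ioo_subset_Icc_self ha1)
  have fb := hf.nonneg b (Ioo_subset_Icc_self hb1)
  set p₁ := slopeR f a
  set p₂ := slopeR f b
  unfold icept at *
  by_cases h : p₁ ≤ 0
  · nlinarith [mul_nonneg (neg_nonneg.2 h) (sub_nonneg.2 t1),
      mul_nonneg (sub_nonneg.2 hp) (show 0 ≤ f a - a * p₁ + p₁ * b by linarith)]
  · by_cases h' : 0 ≤ p₂
    · nlinarith [mul_nonneg h' (sub_nonneg.2 t2),
        mul_nonneg (sub_nonneg.2 hp) (show 0 ≤ f b - b * p₂ + p₂ * a by linarith)]
    · nlinarith [mul_pos (not_le.1 h) hDb, mul_pos (neg_pos.2 (not_le.1 h')) hDa]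

/-- The right derivative of a profile is integrable. -/
theorem Regular.integrable_slopeR (hf : Regular f) :
    IntervalIntegrable (slopeR f) volume (-1) 1 := by
  have hd := fun t ht => hasDerivWithinAt_slopeR hf.concave (t := t) ht
  have h0 : (0 : ℝ) ∈ Ioo (-1 : ℝ) 1 := by norm_num
  set c := slopeR f 0
  have hlin : ∀ t : ℝ, HasDerivWithinAt (fun t => c * t) c (Ioi t) t := fun t => by
    simpa using ((hasDerivAt_id t).const_mul c).hasDerivWithinAt
  have hR : IntervalIntegrable (fun t => c - slopeR f t) volume 0 1 := by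
    rw [intervalIntegrable_iff_integrableOn_Ioc_of_le zero_le_one]
    refine integrableOn_deriv_right_of_nonneg (g := fun t => c * t - f t) ?_ (fun x hx => ?_)
      fun x hx => ?_
    · exact ContinuousOn.sub (by fun_prop) (hf.cont.mono (Icc_subset_Icc (by norm_num) le_rfl))
    · exact (hlin x).sub (hd x ⟨by linarith [hx.1], hx.2⟩)
    · exact sub_nonneg.2 (antitoneOn_slopeR hf.concave h0 ⟨by linarith [hx.1], hx.2⟩ hx.1.le)
  have hL : IntervalIntegrable (fun t => slopeR f t - c) volume (-1) 0 := by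
    rw [intervalIntegrable_iff_integrableOn_Ioc_of_le (by norm_num)]
    refine integrableOn_deriv_right_of_nonneg (g := fun t => f t - c * t) ?_ (fun x hx => ?_)
      fun x hx => ?_
    · exact ContinuousOn.sub (hf.cont.mono (Icc_subset_Icc le_rfl (by norm_num))) (by fun_prop)
    · exact (hd x ⟨hx.1, by linarith [hx.2]⟩).sub (hlin x)
    · exact sub_nonneg.2 (antitoneOn_slopeR hf.concave ⟨hx.1, by linarith [hx.2]⟩ h0 hx.2.le)
  have hR' := (intervalIntegrable_const (c := c)).sub hR
  have hL' := hL.add (intervalIntegrable_const (c := c))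
  simp only [sub_sub_cancel] at hR'
  simp only [sub_add_cancel] at hL'
  exact hL'.trans hR'

/-- Window average. -/
noncomputable def window (ε : ℝ) (h : ℝ → ℝ) (x : ℝ) : ℝ :=
  (∫ u in (x - ε)..(x + ε), h u) / (2 * ε)

theorem window_bounds {ε : ℝ} (hε : 0 < ε) {h : ℝ → ℝ} (hh : Monotone h) (x : ℝ) :
    h (x - ε) ≤ window ε h x ∧ window ε h x ≤ h (x + ε) := by
  have hle : x - ε ≤ x + ε := by linarith
  have hi : IntervalIntegrable h volume (x - ε) (x + ε) := hh.intervalIntegrable
  constructor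
  · rw [window, le_div_iff₀ (by positivity)]
    calc h (x - ε) * (2 * ε) = ∫ _u in (x - ε)..(x + ε), h (x - ε) := by
          rw [intervalIntegral.integral_const, smul_eq_mul]; ring
      _ ≤ _ := intervalIntegral.integral_mono_on hle intervalIntegrable_const hi
        fun u hu => hh hu.1
  · rw [window, div_le_iff₀ (by positivity)]
    calc _ ≤ ∫ _u in (x - ε)..(x + ε), h (x + ε) :=
          intervalIntegral.integral_mono_on hle hi intervalIntegrable_const fun u hu => hh hu.2
      _ = h (x + ε) * (2 * ε) := by rw [intervalIntegral.integral_const, smul_eq_mul]; ring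

theorem monotone_window {ε : ℝ} (hε : 0 < ε) {h : ℝ → ℝ} (hh : Monotone h) :
    Monotone (window ε h) := by
  intro a b hab
  refine div_le_div_of_nonneg_right ?_ (by positivity)
  have e : ∀ x, ∫ u in (x - ε)..(x + ε), h u = ∫ u in (-ε)..ε, h (u + x) := fun x => by
    rw [intervalIntegral.integral_comp_add_right]; congr 1 <;> ring
  rw [e a, e b]
  have hi : ∀ x, Monotone fun u => h (u + x) := fun x u v huv => hh (by linarith)
  exact intervalIntegral.integral_mono_on (by linarith) (hi a).intervalIntegrable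
    (hi b).intervalIntegrable fun u _ => hh (by linarith)

theorem continuous_window (ε : ℝ) {h : ℝ → ℝ} (hh : Monotone h) : Continuous (window ε h) := by
  have hi : ∀ a b, IntervalIntegrable h volume a b := fun a b => hh.intervalIntegrable
  have hG := intervalIntegral.continuous_primitive hi 0
  have e : window ε h = fun x =>
      ((∫ u in (0)..(x + ε), h u) - ∫ u in (0)..(x - ε), h u) / (2 * ε) := by
    funext x
    rw [window, intervalIntegral.integral_interval_sub_left (hi _ _) (hi _ _)]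
  rw [e]
  exact ((hG.comp (continuous_id.add continuous_const)).sub
    (hG.comp (continuous_id.sub continuous_const))).div_const _

/-- The smoothed test function. -/
noncomputable def smoothTest (ε : ℝ) (f : ℝ → ℝ) (t : ℝ) : ℝ :=
  window ε (window ε (bestTest f)) ((1 + 3 * ε) * t)

theorem smoothTest_bounds (hf : Regular f) {ε : ℝ} (hε : 0 < ε) (t : ℝ) :
    bestTest f ((1 + 3 * ε) * t - 2 * ε) ≤ smoothTest ε f t ∧
      smoothTest ε f t ≤ bestTest f ((1 + 3 * ε) * t + 2 * ε) := by
  have hb := monotone_bestTest hf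
  have h1 := window_bounds hε (monotone_window hε hb) ((1 + 3 * ε) * t)
  have h2 := (window_bounds hε hb ((1 + 3 * ε) * t - ε)).1
  have h3 := (window_bounds hε hb ((1 + 3 * ε) * t + ε)).2
  rw [show (1 + 3 * ε) * t - ε - ε = (1 + 3 * ε) * t - 2 * ε by ring] at h2
  rw [show (1 + 3 * ε) * t + ε + ε = (1 + 3 * ε) * t + 2 * ε by ring] at h3
  exact ⟨h2.trans h1.1, h1.2.trans h3⟩

theorem abs_smoothTest_le (hf : Regular f) {ε : ℝ} (hε : 0 < ε) (t : ℝ) :
    |smoothTest ε f t| ≤ 1 := by
  have h := smoothTest_bounds hf hε t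
  exact abs_le.2 ⟨(abs_le.1 (abs_bestTest_le hf _)).1.trans h.1,
    h.2.trans (abs_le.1 (abs_bestTest_le hf _)).2⟩

theorem smoothTest_one (hf : Regular f) {ε : ℝ} (hε : 0 < ε) :
    smoothTest ε f 1 = 1 ∧ smoothTest ε f (-1) = -1 := by
  constructor
  · refine le_antisymm (abs_le.1 (abs_smoothTest_le hf hε 1)).2 ?_
    have h := (smoothTest_bounds hf hε 1).1
    rwa [bestTest, if_pos (by linarith : 1 ≤ (1 + 3 * ε) * 1 - 2 * ε)] at h
  · refine le_antisymm ?_ (abs_le.1 (abs_smoothTest_le hf hε (-1))).1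
    have h := (smoothTest_bounds hf hε (-1)).2
    rwa [bestTest, if_neg (by linarith), if_pos (by linarith)] at h

theorem hasDerivAt_smoothTest (hf : Regular f) {ε : ℝ} (hε : 0 < ε) (t : ℝ) :
    HasDerivAt (smoothTest ε f)
      ((1 + 3 * ε) * ((window ε (bestTest f) ((1 + 3 * ε) * t + ε) -
        window ε (bestTest f) ((1 + 3 * ε) * t - ε)) / (2 * ε))) t := by
  set w := window ε (bestTest f)
  set c := 1 + 3 * ε
  have hw : Continuous w := continuous_window ε (monotone_bestTest hf)
  have hG : ∀ x, HasDerivAt (fun u => ∫ s in (0)..u, w s) (w x) x := fun x =>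
    (hw.integral_hasStrictDerivAt 0 x).hasDerivAt
  have e : smoothTest ε f = fun t =>
      ((∫ u in (0)..(c * t + ε), w u) - ∫ u in (0)..(c * t - ε), w u) / (2 * ε) := by
    funext t
    rw [smoothTest, window, intervalIntegral.integral_interval_sub_left
      (hw.intervalIntegrable _ _) (hw.intervalIntegrable _ _)]
  rw [e]
  have hl : HasDerivAt (fun t => c * t) c t := by simpa using (hasDerivAt_id t).const_mul c
  have h := (((hG _).comp t (hl.add_const ε)).sub ((hG _).comp t (hl.sub_const ε))).div_const (2 * ε)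
  refine h.congr_deriv ?_
  ring

theorem lipschitz_smoothTest (hf : Regular f) {ε : ℝ} (hε : 0 < ε) :
    ∃ L, LipschitzWith L (smoothTest ε f) := by
  refine ⟨((1 + 3 * ε) / ε).toNNReal, lipschitzWith_of_nnnorm_deriv_le
    (fun t => (hasDerivAt_smoothTest hf hε t).differentiableAt) fun t => ?_⟩
  rw [(hasDerivAt_smoothTest hf hε t).deriv, ← NNReal.coe_le_coe, coe_nnnorm, Real.norm_eq_abs,
    Real.coe_toNNReal _ (by positivity)]
  have hb : ∀ x, |window ε (bestTest f) x| ≤ 1 := fun x => by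
    have h := window_bounds hε (monotone_bestTest hf) x
    exact abs_le.2 ⟨(abs_le.1 (abs_bestTest_le hf _)).1.trans h.1,
      h.2.trans (abs_le.1 (abs_bestTest_le hf _)).2⟩
  rw [abs_mul, abs_div, abs_of_pos (by positivity : 0 < 1 + 3 * ε),
    abs_of_pos (by positivity : 0 < 2 * ε), div_eq_mul_inv (1 + 3 * ε) ε]
  refine mul_le_mul_of_nonneg_left ?_ (by positivity)
  rw [div_le_iff₀ (by positivity), ← mul_assoc, mul_comm ε⁻¹ 2, mul_assoc, inv_mul_cancel₀ hε.ne',
    mul_one]
  exact (abs_sub _ _).trans (by linarith [hb ((1 + 3 * ε) * t + ε), hb ((1 + 3 * ε) * t - ε)])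

/-- The Dirichlet integrand tested on `φ`, after one integration by parts. -/
theorem integral_dir (hf : Regular f) (p : ℕ) {φ φ' : ℝ → ℝ}
    (hφ : ∀ t, HasDerivAt φ (φ' t) t) (hφ' : Continuous φ') (h1 : φ 1 = 1) (hm1 : φ (-1) = -1) :
    ∫ t in (-1 : ℝ)..1, (2 * φ' t - ((p : ℝ) + 2) * φ t ^ 2 - 2 * t * φ t * φ' t) * f t ^ (p + 1) =
      2 * f 1 ^ (p + 1) + ((p : ℝ) + 1) *
        ∫ t in (-1 : ℝ)..1, f t ^ p * (-2 * slopeR f t * φ t - icept f t * φ t ^ 2) := by
  have hφc : Continuous φ := continuous_iff_continuousAt.2 fun t => (hφ t).continuousAt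
  have hu : uIcc (-1 : ℝ) 1 = Icc (-1) 1 := uIcc_of_le (by norm_num)
  have hfc : ContinuousOn f (uIcc (-1 : ℝ) 1) := by rw [hu]; exact hf.cont
  have hp := hf.integrable_slopeR
  set h := fun t => f t ^ (p + 1) * (2 * φ t - t * φ t ^ 2)
  set h' := fun t => ((p : ℝ) + 1) * f t ^ p * (2 * φ t - t * φ t ^ 2) * slopeR f t +
    f t ^ (p + 1) * (2 * φ' t - (φ t ^ 2 + t * (2 * φ t * φ' t)))
  have hd : ∀ t ∈ Ioo (min (-1 : ℝ) 1) (max (-1) 1), HasDerivWithinAt h (h' t) (Ioi t) t := by
    intro t ht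
    rw [min_eq_left (by norm_num), max_eq_right (by norm_num)] at ht
    have a := (hasDerivWithinAt_slopeR hf.concave ht).fun_pow (p + 1)
    have b : HasDerivAt (fun t => 2 * φ t - t * φ t ^ 2)
        (2 * φ' t - (1 * φ t ^ 2 + t * (2 * φ t * φ' t))) t := by
      refine ((hφ t).const_mul 2).sub ((hasDerivAt_id t).mul ?_)
      simpa using (hφ t).fun_pow 2
    refine (a.mul b.hasDerivWithinAt).congr_deriv ?_
    simp only [h', Nat.add_sub_cancel]
    push_cast
    ring
  have i1 : IntervalIntegrable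
      (fun t => ((p : ℝ) + 1) * f t ^ p * (2 * φ t - t * φ t ^ 2) * slopeR f t) volume (-1) 1 :=
    hp.continuousOn_mul (by fun_prop)
  have i2 : IntervalIntegrable (fun t => f t ^ (p + 1) *
      (2 * φ' t - (φ t ^ 2 + t * (2 * φ t * φ' t)))) volume (-1) 1 :=
    ContinuousOn.intervalIntegrable (by fun_prop)
  have key := integral_eq_sub_of_hasDeriv_right (a := (-1 : ℝ)) (b := 1) (f := h) (f' := h')
    (by fun_prop) hd (i1.add i2)
  have i3 : IntervalIntegrable (fun t => ((p : ℝ) + 1) *
      (f t ^ p * (-2 * slopeR f t * φ t - icept f t * φ t ^ 2))) volume (-1) 1 := by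
    have := (hp.continuousOn_mul (g := fun t => ((p : ℝ) + 1) * f t ^ p *
      (-2 * φ t + t * φ t ^ 2)) (by fun_prop)).sub (ContinuousOn.intervalIntegrable
        (u := fun t => ((p : ℝ) + 1) * f t ^ p * (f t * φ t ^ 2)) (a := (-1 : ℝ)) (b := 1)
        (by fun_prop))
    refine this.congr fun t _ => ?_
    simp only [icept]
    ring
  calc ∫ t in (-1 : ℝ)..1, (2 * φ' t - ((p : ℝ) + 2) * φ t ^ 2 - 2 * t * φ t * φ' t) * f t ^ (p + 1)
      = ∫ t in (-1 : ℝ)..1, (h' t + ((p : ℝ) + 1) *
          (f t ^ p * (-2 * slopeR f t * φ t - icept f t * φ t ^ 2))) := by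
        refine intervalIntegral.integral_congr fun t _ => ?_
        simp only [h', icept]
        ring
    _ = _ := by
        rw [intervalIntegral.integral_add (i1.add i2) i3, key, intervalIntegral.integral_const_mul]
        simp only [h, h1, hm1, hf.even]
        ring

/-- Smoothed best tests bring the Dirichlet term down to `1 - jInt / ∫ f^(p+1)`. -/
theorem exists_dir (hf : Regular f) (p : ℕ) (hB : 0 < ∫ t in (-1 : ℝ)..1, f t ^ (p + 1)) {η : ℝ}
    (hη : 0 < η) :
    ∃ φ : ℝ → ℝ, (∃ L, LipschitzWith L φ) ∧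
      dirTerm p f φ ≤ 1 - jInt p f / (∫ t in (-1 : ℝ)..1, f t ^ (p + 1)) + η := by
  set ε : ℕ → ℝ := fun k => 1 / ((k : ℝ) + 1)
  have hε : ∀ k, 0 < ε k := fun k => by positivity
  have hε0 : Tendsto ε atTop (𝓝 0) := tendsto_one_div_add_atTop_nhds_zero_nat
  obtain ⟨C, hC⟩ := isCompact_Icc.exists_bound_of_continuousOn hf.cont
  have hp := hf.integrable_slopeR
  set F : ℕ → ℝ → ℝ := fun k t =>
    f t ^ p * (-2 * slopeR f t * smoothTest (ε k) f t - icept f t * smoothTest (ε k) f t ^ 2)
  set G : ℝ → ℝ := fun t => f t ^ p * slopeR f t ^ 2 / icept f t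
  have hI : uIoc (-1 : ℝ) 1 = Ioc (-1) 1 := uIoc_of_le (by norm_num)
  have hT : Tendsto (fun k => ∫ t in (-1 : ℝ)..1, F k t) atTop (𝓝 (∫ t in (-1 : ℝ)..1, G t)) := by
    refine intervalIntegral.tendsto_integral_filter_of_dominated_convergence
      (fun t => |C| ^ p * (3 * |slopeR f t| + |C|)) (Eventually.of_forall fun k => ?_)
      (Eventually.of_forall fun k => ?_) ((hp.abs.const_mul 3).add intervalIntegrable_const
        |>.const_mul _) ?_
    · have hS : Continuous (smoothTest (ε k) f) := continuous_iff_continuousAt.2 fun t =>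
        (hasDerivAt_smoothTest hf (hε k) t).continuousAt
      have hs : AEStronglyMeasurable (slopeR f) (volume.restrict (uIoc (-1 : ℝ) 1)) :=
        (intervalIntegrable_iff.1 hp).aestronglyMeasurable
      have hfm : AEStronglyMeasurable f (volume.restrict (uIoc (-1 : ℝ) 1)) := by
        rw [hI]
        exact (hf.cont.mono Ioc_subset_Icc_self).aestronglyMeasurable measurableSet_Ioc
      exact (hfm.pow p).mul (((hs.const_mul (-2)).mul hS.aestronglyMeasurable).sub
        ((hfm.sub (continuous_id.aestronglyMeasurable.mul hs)).mul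
          (hS.pow 2).aestronglyMeasurable))
    · refine Eventually.of_forall fun t ht => ?_
      rw [hI] at ht
      have hft : |f t| ≤ |C| := (hC t (Ioc_subset_Icc_self ht)).trans (le_abs_self C)
      have hs1 := abs_smoothTest_le hf (hε k) t
      have hs2 : smoothTest (ε k) f t ^ 2 ≤ 1 := by
        rw [← sq_abs]; exact pow_le_one₀ (abs_nonneg _) hs1
      have hi : |icept f t| ≤ |C| + |slopeR f t| := by
        refine (abs_sub _ _).trans (add_le_add hft ?_)
        rw [abs_mul]
        exact mul_le_of_le_one_left (abs_nonneg _) (abs_le.2 ⟨ht.1.le, ht.2⟩)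
      simp only [F, norm_mul, norm_pow, Real.norm_eq_abs]
      refine mul_le_mul (pow_le_pow_left₀ (abs_nonneg _) hft p) ((abs_sub _ _).trans ?_)
        (abs_nonneg _) (by positivity)
      rw [abs_mul, abs_mul, abs_mul, abs_neg, abs_two, abs_of_nonneg (sq_nonneg (smoothTest (ε k) f t))]
      nlinarith [mul_le_of_le_one_right (abs_nonneg (slopeR f t)) hs1,
        mul_le_of_le_one_right (abs_nonneg (icept f t)) hs2]
    · have h1 : ∀ᵐ t : ℝ, t ∉ {x | ¬ContinuousAt (bestTest f) x} :=
        (monotone_bestTest hf).countable_not_continuousAt.ae_notMem volume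
      have h2 : ∀ᵐ t : ℝ, t ≠ 1 := Measure.ae_ne volume 1
      filter_upwards [h1, h2] with t hc ht1 ht
      rw [hI] at ht
      have hto : t ∈ Ioo (-1 : ℝ) 1 := ⟨ht.1, lt_of_le_of_ne ht.2 ht1⟩
      simp only [mem_ofPred_eq, not_not] at hc
      have hlim : ∀ σ : ℝ, Tendsto (fun k => bestTest f ((1 + 3 * ε k) * t + σ * ε k)) atTop
          (𝓝 (bestTest f t)) := fun σ => by
        refine hc.tendsto.comp ?_
        have := (((hε0.const_mul 3).const_add 1).mul_const t).add (hε0.const_mul σ)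
        simpa using this
      have hS : Tendsto (fun k => smoothTest (ε k) f t) atTop (𝓝 (bestTest f t)) := by
        refine tendsto_of_tendsto_of_tendsto_of_le_of_le ?_ (hlim 2)
          (fun k => (smoothTest_bounds hf (hε k) t).1) fun k => (smoothTest_bounds hf (hε k) t).2
        simpa [sub_eq_add_neg] using hlim (-2)
      have hne := (hf.icept_pos hto).ne'
      have e : G t = f t ^ p *
          (-2 * slopeR f t * bestTest f t - icept f t * bestTest f t ^ 2) := by
        simp only [G, bestTest_eq hto]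
        field_simp
        ring
      rw [e]
      exact ((hS.const_mul _).sub ((hS.pow 2).const_mul _)).const_mul _
  set B := ∫ t in (-1 : ℝ)..1, f t ^ (p + 1)
  have hev := hT.eventually_const_le (u := (∫ t in (-1 : ℝ)..1, G t) - η * B / ((p : ℝ) + 1))
    (sub_lt_self _ (by positivity))
  obtain ⟨k, hk⟩ := hev.exists
  refine ⟨smoothTest (ε k) f, lipschitz_smoothTest hf (hε k), ?_⟩
  have hd := hasDerivAt_smoothTest hf (hε k)
  have hw : Continuous (window (ε k) (bestTest f)) := continuous_window _ (monotone_bestTest hf)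
  have hi := integral_dir hf p hd (by fun_prop) (smoothTest_one hf (hε k)).1
    (smoothTest_one hf (hε k)).2
  have e : pavg (p + 1) f (fun t => 2 * deriv (smoothTest (ε k) f) t -
      ((p : ℝ) + 2) * smoothTest (ε k) f t ^ 2 -
        2 * t * smoothTest (ε k) f t * deriv (smoothTest (ε k) f) t) =
      (2 * f 1 ^ (p + 1) + ((p : ℝ) + 1) * ∫ t in (-1 : ℝ)..1, F k t) / B := by
    rw [pavg, ← hi]
    congr 1
    refine intervalIntegral.integral_congr fun t _ => ?_
    simp only [(hd t).deriv]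
  rw [dirTerm, e]
  have : jInt p f / B ≤ (2 * f 1 ^ (p + 1) + ((p : ℝ) + 1) * ∫ t in (-1 : ℝ)..1, F k t) / B + η := by
    rw [div_add' _ _ _ hB.ne', div_le_div_iff_of_pos_right hB, jInt]
    have h3 := mul_le_mul_of_nonneg_left hk (show (0 : ℝ) ≤ (p : ℝ) + 1 by positivity)
    rw [mul_sub, mul_div_cancel₀ _ (by positivity : (p : ℝ) + 1 ≠ 0)] at h3
    simp only [G] at h3
    linarith
  linarith

end Vale.Agent.P237.Petty
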