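import Vale.Agent.P237.Petty.Profile

/-!
# P237: the Dirichlet bound of the gauge of a body containing the unit ball

For a body `K` containing the unit ball and unit vectors `v` with weights decomposing the identity,
the gauge has gradient of norm at most one; testing its directional derivatives against functions
of one variable gives a bound on the one-dimensional marginals of `K`.
-/

namespace Vale.Agent.P237.Petty

open MeasureTheory Set Module Metric Filter Topology
open AllN (glue)
open scoped RealInnerProductSpace Pointwise NNReal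

set_option linter.unusedSectionVars false

variable {E : Type*} [NormedAddCommGroup E] [InnerProductSpace ℝ E] [FiniteDimensional ℝ E]
  [MeasurableSpace E] [BorelSpace E]

/-- A bounded measurable function is integrable on a compact set. -/
theorem integrableOn_bdd {K : Set E} (hK : IsCompact K) {f : E → ℝ} (hf : Measurable f) {C : ℝ}
    (hC : ∀ x ∈ K, |f x| ≤ C) : IntegrableOn f K :=
  IntegrableOn.of_bound hK.measure_lt_top hf.aestronglyMeasurable C
    ((ae_restrict_iff' hK.measurableSet).2 (Eventually.of_forall fun x hx => by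
      simpa using hC x hx))

/-- A null set of heights gives a null set of points. -/
theorem ae_height {v : E} (hv : ‖v‖ = 1) {p : ℝ → Prop} (hp : ∀ᵐ t : ℝ, p t) :
    ∀ᵐ x : E, p ⟪v, x⟫ := by
  have hm := AllN.measurePreserving_glue hv
  have hinj : Function.Injective (glue v) := fun a b h => by
    have h1 := congrArg (ℝ ∙ v)ᗮ.orthogonalProjectionOnto h
    have h2 := congrArg (fun z => ⟪v, z⟫) h
    rw [AllN.proj_glue, AllN.proj_glue] at h1
    simp only [AllN.inner_glue hv] at h2
    exact Prod.ext h1 h2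
  have he := (AllN.continuous_glue v).measurableEmbedding hinj
  rw [ae_iff, ← hm.map_eq, he.map_apply]
  rw [show glue v ⁻¹' {x | ¬p ⟪v, x⟫} = univ ×ˢ {t | ¬p t} by
    ext a
    simp [AllN.inner_glue hv], Measure.volume_eq_prod, Measure.prod_prod, ae_iff.1 hp, mul_zero]

/-- The slope of a power at one. -/
theorem geom_ratio_limit (n : ℕ) :
    Tendsto (fun r : ℝ => (1 - r ^ n) / (1 - r)) (𝓝[<] 1) (𝓝 (n : ℝ)) := by
  have hc : Continuous fun r : ℝ => ∑ i ∈ Finset.range n, r ^ i := by fun_prop
  refine Tendsto.congr' ?_ ((hc.tendsto' 1 n (by simp)).mono_left nhdsWithin_le_nhds)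
  filter_upwards [self_mem_nhdsWithin] with r (hr : r < 1)
  rw [eq_div_iff (by linarith : (1 : ℝ) - r ≠ 0)]
  linarith [geom_sum_mul r n]

section Body

variable {K : Set E} (hK : Body K) (hball : closedBall (0 : E) 1 ⊆ K)

include hK hball

theorem gauge_nhds : K ∈ 𝓝 (0 : E) :=
  mem_of_superset (closedBall_mem_nhds 0 one_pos) hball

theorem gauge_lipschitz : LipschitzWith 1 (gauge K) := by
  have h := hK.convex.lipschitzWith_gauge (r := 1) one_pos
    (ball_subset_closedBall.trans hball)
  simpa using h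

theorem gauge_le_one_iff' (x : E) : gauge K x ≤ 1 ↔ x ∈ K := by
  rw [gauge_le_one_iff_mem_closure hK.convex (gauge_nhds hK hball),
    hK.compact.isClosed.closure_eq]

theorem gauge_pos' {x : E} (hx : x ≠ 0) : 0 < gauge K x := by
  refine lt_of_le_of_ne (gauge_nonneg x) fun h => hx ?_
  exact (gauge_eq_zero (absorbent_nhds_zero (gauge_nhds hK hball))
    (NormedSpace.isVonNBounded_of_isBounded ℝ hK.compact.isBounded)).1 h.symm

/-- The sublevel sets of the gauge. -/
theorem gauge_level {r : ℝ} (hr : 0 < r) : {x : E | gauge K x ≤ r} = r • K := by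
  ext x
  rw [mem_smul_set_iff_inv_smul_mem₀ hr.ne', ← gauge_le_one_iff' hK hball,
    gauge_smul_of_nonneg (inv_nonneg.2 hr.le), smul_eq_mul, inv_mul_le_iff₀ hr, mul_one]
  rfl

theorem integral_level {r : ℝ} (hr : 0 < r) (f : E → ℝ) :
    ∫ x in r • K, f x = r ^ finrank ℝ E * ∫ x in K, f (r • x) := by
  rw [Measure.setIntegral_comp_smul_of_pos volume f K hr, smul_eq_mul, ← mul_assoc,
    mul_inv_cancel₀ (pow_ne_zero _ hr.ne'), one_mul]

theorem lineDeriv_gauge_smul {r : ℝ} (hr : 0 < r) (v x : E) :
    lineDeriv ℝ (gauge K) (r • x) v = lineDeriv ℝ (gauge K) x v := by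
  unfold lineDeriv
  have e : (fun t : ℝ => gauge K (r • x + t • v)) =
      fun t => r * gauge K (x + (r⁻¹ * t) • v) := by
    funext t
    rw [← smul_eq_mul (a := r), ← gauge_smul_of_nonneg hr.le, smul_add, smul_smul, ← mul_assoc,
      mul_inv_cancel₀ hr.ne', one_mul]
  rw [e, deriv_const_mul_field, deriv_comp_mul_left (r⁻¹) (fun t => gauge K (x + t • v)) 0,
    mul_zero, smul_eq_mul, ← mul_assoc, mul_inv_cancel₀ hr.ne', one_mul]

theorem abs_lineDeriv_gauge_le {v : E} (hv : ‖v‖ = 1) (x : E) :
    |lineDeriv ℝ (gauge K) x v| ≤ 1 := by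
  have h := norm_lineDeriv_le_of_lipschitz ℝ (gauge_lipschitz hK hball) (x₀ := x) (v := v)
  simpa [hv] using h

/-- The projection to the boundary, in the direction `v`. -/
theorem abs_height_div_le {R : ℝ} (hR : ∀ x ∈ K, ‖x‖ ≤ R) {v : E} (hv : ‖v‖ = 1) (x : E) :
    |⟪v, x⟫ / gauge K x| ≤ R := by
  have h0 : (0 : E) ∈ K := mem_of_mem_nhds (gauge_nhds hK hball)
  rcases eq_or_ne x 0 with rfl | hx
  · simpa using (norm_nonneg _).trans (hR 0 h0)
  have hg := gauge_pos' hK hball hx
  have hmem : (gauge K x)⁻¹ • x ∈ K := by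
    rw [← gauge_le_one_iff' hK hball, gauge_smul_of_nonneg (inv_nonneg.2 hg.le), smul_eq_mul,
      inv_mul_cancel₀ hg.ne']
  calc |⟪v, x⟫ / gauge K x| = |⟪v, (gauge K x)⁻¹ • x⟫| := by
        rw [real_inner_smul_right, div_eq_inv_mul]
    _ ≤ ‖v‖ * ‖(gauge K x)⁻¹ • x‖ := abs_real_inner_le_norm _ _
    _ ≤ R := by rw [hv, one_mul]; exact hR _ hmem

/-- Averages on thin shells converge to averages of boundary values. -/
theorem shell_limit {R : ℝ} (hR : ∀ x ∈ K, ‖x‖ ≤ R) {v : E} (hv : ‖v‖ = 1) {f : ℝ → ℝ}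
    (hf : Continuous f) {C L : ℝ} (hL : 0 ≤ L) (hC : ∀ a, |a| ≤ R → |f a| ≤ C)
    (hfL : ∀ a b, |a| ≤ R → |b| ≤ R → |f a - f b| ≤ L * |a - b|)
    {H : E → ℝ} (hH : Measurable H) (hH1 : ∀ x, |H x| ≤ 1)
    (hhom : ∀ r : ℝ, 0 < r → ∀ x, H (r • x) = H x) :
    Tendsto (fun r : ℝ => (∫ x in K \ r • K, H x * f ⟪v, x⟫) / (1 - r)) (𝓝[<] 1)
      (𝓝 (finrank ℝ E * ∫ x in K, H x * f (⟪v, x⟫ / gauge K x))) := by
  set n := finrank ℝ E
  set F := fun x => H x * f (⟪v, x⟫ / gauge K x)
  have hgc := (gauge_lipschitz hK hball).continuous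
  have hFm : Measurable F :=
    hH.mul (hf.measurable.comp (((continuous_const.inner continuous_id).measurable).div
      hgc.measurable))
  have hGm : Measurable fun x => H x * f ⟪v, x⟫ :=
    hH.mul (hf.measurable.comp (continuous_const.inner continuous_id).measurable)
  have hin : ∀ x ∈ K, |⟪v, x⟫| ≤ R := fun x hx =>
    (abs_real_inner_le_norm v x).trans (by rw [hv, one_mul]; exact hR x hx)
  have hC0 : 0 ≤ C := (abs_nonneg _).trans
    (hC 0 (by simpa using (norm_nonneg _).trans (hR 0 (mem_of_mem_nhds (gauge_nhds hK hball)))))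
  have hR0 : 0 ≤ R := (norm_nonneg _).trans (hR 0 (mem_of_mem_nhds (gauge_nhds hK hball)))
  have hFi : IntegrableOn F K := integrableOn_bdd hK.compact hFm (C := C) fun x _ => by
    rw [abs_mul]
    exact (mul_le_of_le_one_left (abs_nonneg _) (hH1 x)).trans
      (hC _ (abs_height_div_le hK hball hR hv x))
  have hGi : IntegrableOn (fun x => H x * f ⟪v, x⟫) K :=
    integrableOn_bdd hK.compact hGm (C := C) fun x hx => by
      rw [abs_mul]
      exact (mul_le_of_le_one_left (abs_nonneg _) (hH1 x)).trans (hC _ (hin x hx))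
  have hpoly := geom_ratio_limit n
  have hpow : Tendsto (fun r : ℝ => 1 - r ^ n) (𝓝[<] 1) (𝓝 0) :=
    ((by fun_prop : Continuous fun r : ℝ => 1 - r ^ n).tendsto' 1 0 (by simp)).mono_left
      nhdsWithin_le_nhds
  have hev : ∀ᶠ r : ℝ in 𝓝[<] 1, 0 < r ∧ r < 1 := by
    filter_upwards [Ioo_mem_nhdsLT zero_lt_one] with r hr using ⟨hr.1, hr.2⟩
  have hmain := hpoly.mul_const (∫ x in K, F x)
  refine hmain.congr_dist (squeeze_zero' (Eventually.of_forall fun _ => dist_nonneg) ?_
    (by simpa using hpow.mul_const (L * R * volume.real K)))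
  filter_upwards [hev] with r ⟨hr, hr1⟩
  have hsub : r • K ⊆ K := fun x hx => (gauge_le_one_iff' hK hball x).1 (by
    rw [← gauge_level hK hball hr] at hx
    exact le_trans hx hr1.le)
  have hms : MeasurableSet (r • K) := (hK.compact.smul r).measurableSet
  have hshell : ∫ x in K \ r • K, F x = (1 - r ^ n) * ∫ x in K, F x := by
    rw [setIntegral_sdiff hms hFi hsub, integral_level hK hball hr]
    have e : ∀ x, F (r • x) = F x := fun x => by
      simp only [F, hhom r hr, real_inner_smul_right, gauge_smul_of_nonneg hr.le, smul_eq_mul]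
      rw [mul_div_mul_left _ _ hr.ne']
    simp only [e]
    ring
  have hvol : volume.real (K \ r • K) = (1 - r ^ n) * volume.real K := by
    rw [measureReal_sdiff hsub hms hK.compact.measure_lt_top.ne, measureReal_def (s := r • K),
      Measure.addHaar_smul_of_nonneg volume hr.le, ENNReal.toReal_mul,
      ENNReal.toReal_ofReal (pow_nonneg hr.le _), ← measureReal_def]
    ring
  have hb : ‖∫ x in K \ r • K, (F x - H x * f ⟪v, x⟫)‖ ≤
      L * R * (1 - r) * volume.real (K \ r • K) := by
    refine norm_setIntegral_le_of_norm_le_const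
      ((measure_mono sdiff_subset).trans_lt hK.compact.measure_lt_top) fun x hx => ?_
    have hg1 : gauge K x ≤ 1 := (gauge_le_one_iff' hK hball x).2 hx.1
    have hgr : r < gauge K x := not_le.1 fun h => hx.2 (by
      rw [← gauge_level hK hball hr]; exact h)
    have hu := abs_height_div_le hK hball hR hv x
    simp only [F, ← mul_sub, Real.norm_eq_abs, abs_mul]
    refine (mul_le_of_le_one_left (abs_nonneg _) (hH1 x)).trans
      ((hfL _ _ hu (hin x hx.1)).trans ?_)
    rw [mul_assoc]
    refine mul_le_mul_of_nonneg_left ?_ hL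
    rw [show ⟪v, x⟫ / gauge K x - ⟪v, x⟫ = ⟪v, x⟫ / gauge K x * (1 - gauge K x) by
      rw [mul_sub, mul_one, div_mul_cancel₀ _ (hr.trans hgr).ne'], abs_mul,
      abs_of_nonneg (sub_nonneg.2 hg1)]
    exact mul_le_mul hu (by linarith) (sub_nonneg.2 hg1) hR0
  rw [integral_sub (hFi.mono_set sdiff_subset) (hGi.mono_set sdiff_subset), hshell, hvol,
    Real.norm_eq_abs] at hb
  rw [Real.dist_eq, div_mul_eq_mul_div, ← sub_div, abs_div, abs_of_pos (sub_pos.2 hr1),
    div_le_iff₀ (sub_pos.2 hr1)]
  linarith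

/-- Integration by parts for the gauge, tested on functions of the height. -/
theorem gauge_parts {v : E} (hv : ‖v‖ = 1) {φ : ℝ → ℝ} {L : ℝ≥0} (hφ : LipschitzWith L φ) :
    (finrank ℝ E : ℝ) * ∫ x in K, lineDeriv ℝ (gauge K) x v * φ (⟪v, x⟫ / gauge K x) =
      ∫ x in K, deriv φ ⟪v, x⟫ := by
  obtain ⟨R, hR'⟩ := hK.compact.isBounded.subset_closedBall 0
  have hR : ∀ x ∈ K, ‖x‖ ≤ R := fun x hx => mem_closedBall_zero_iff.1 (hR' hx)
  have hgl := gauge_lipschitz hK hball
  set g := gauge K with hg
  set D := fun x => lineDeriv ℝ g x v with hD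
  have hDm : Measurable D := measurable_lineDeriv hgl.continuous
  have hlim := shell_limit hK hball hR hv hφ.continuous (C := |φ 0| + L * R) (L := L) L.coe_nonneg
    (fun a ha => by
      have h := hφ.dist_le_mul a 0
      rw [Real.dist_eq, Real.dist_eq, sub_zero] at h
      have h1 := abs_add_le (φ a - φ 0) (φ 0)
      rw [sub_add_cancel] at h1
      linarith [mul_le_mul_of_nonneg_left ha L.coe_nonneg])
    (fun a b _ _ => hφ.dist_le_mul a b) hDm (abs_lineDeriv_gauge_le hK hball hv)
    (fun r hr x => lineDeriv_gauge_smul hK hball hr v x)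
  refine tendsto_nhds_unique hlim ?_
  set η := fun (r : ℝ) (x : E) => max 0 (min 1 ((1 - g x) / (1 - r))) with hη
  have hηm : ∀ r, Measurable (η r) := fun r =>
    measurable_const.max (measurable_const.min ((measurable_const.sub
      hgl.continuous.measurable).div_const _))
  have hη1 : ∀ r x, |η r x| ≤ 1 := fun r x => by
    rw [abs_of_nonneg (le_max_left _ _)]; exact max_le zero_le_one (min_le_left _ _)
  have hin : Continuous fun x : E => ⟪v, x⟫ := continuous_const.inner continuous_id
  have hout : ∀ r : ℝ, r < 1 → ∀ x, x ∉ K → η r x = 0 := fun r hr x hx => by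
    have : 1 < g x := not_le.1 fun h => hx ((gauge_le_one_iff' hK hball x).1 h)
    exact max_eq_left ((min_le_right _ _).trans
      (div_nonpos_of_nonpos_of_nonneg (by linarith) (by linarith)))
  -- the smoothed identity
  have key : ∀ r : ℝ, 0 < r → r < 1 →
      (∫ x in K \ r • K, D x * φ ⟪v, x⟫) / (1 - r) = ∫ x in K, deriv φ ⟪v, x⟫ * η r x := by
    intro r hr hr1
    have hsupp : HasCompactSupport (η r) :=
      HasCompactSupport.intro hK.compact (hout r hr1)
    have hηl : ∃ c, LipschitzWith c (η r) := by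
      have h := (((LipschitzWith.const (1 : ℝ)).sub hgl))
      have h' := (((LipschitzWith.id (α := ℝ)).const_min 1).const_max 0).comp
        ((lipschitzWith_smul ((1 - r)⁻¹ : ℝ)).comp h)
      have e : η r = ((fun t : ℝ => max 0 (min 1 (id t))) ∘ (fun t : ℝ => (1 - r)⁻¹ • t) ∘
          fun x => 1 - g x) := funext fun x => by simp [η, div_eq_inv_mul]
      exact ⟨_, e ▸ h'⟩
    obtain ⟨c, hc⟩ := hηl
    have hF : LipschitzWith (L * 1) fun x : E => φ ⟪v, x⟫ :=
      hφ.comp (LipschitzWith.of_dist_le_mul fun x y => by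
        rw [Real.dist_eq, ← inner_sub_right, dist_eq_norm, NNReal.coe_one, one_mul]
        simpa [hv] using abs_real_inner_le_norm v (x - y))
    have hid := LipschitzWith.integral_lineDeriv_mul_eq (μ := volume) hF hc hsupp v
    have h1 : ∀ x : E, lineDeriv ℝ (fun x : E => φ ⟪v, x⟫) x v = deriv φ ⟪v, x⟫ := fun x => by
      have e : (fun t : ℝ => φ ⟪v, x + t • v⟫) = fun t => φ (⟪v, x⟫ + t) := by
        funext t
        rw [inner_add_right, real_inner_smul_right, real_inner_self_eq_norm_sq, hv, one_pow,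
          mul_one]
      rw [lineDeriv, e, deriv_comp_const_add, add_zero]
    simp only [h1] at hid
    rw [setIntegral_eq_integral_of_forall_compl_eq_zero (s := K)
      (f := fun x => deriv φ ⟪v, x⟫ * η r x) (fun x hx => by
        rw [hout r hr1 x hx, mul_zero]), hid]
    have hlev : ∀ s : ℝ, 0 < s → volume {x : E | g x = s} = 0 := by
      intro s hs
      refine measure_mono_null (fun x (hx : g x = s) => ?_)
        ((hK.convex.smul s).addHaar_frontier volume)
      rw [← gauge_level hK hball hs]
      refine ⟨subset_closure (le_of_eq hx), fun hi => ?_⟩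
      have hc : Tendsto (fun t : ℝ => t • x) (𝓝[>] 1) (𝓝 x) :=
        ((continuous_id.smul continuous_const).tendsto' 1 x (one_smul ℝ x)).mono_left
          nhdsWithin_le_nhds
      obtain ⟨t, ht, ht1⟩ := ((hc.eventually (mem_interior_iff_mem_nhds.1 hi)).and
        self_mem_nhdsWithin).exists
      rw [gauge_smul_of_nonneg (by linarith [show (1 : ℝ) < t from ht1]),
        show gauge K x = s from hx, smul_eq_mul] at ht
      exact absurd ht (not_le.2 (lt_mul_of_one_lt_left hs ht1))
    have h2 : ∀ᵐ x, lineDeriv ℝ (η r) x (-v) * φ ⟪v, x⟫ =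
        (K \ r • K).indicator (fun x => D x * φ ⟪v, x⟫) x / (1 - r) := by
      have a1 : ∀ᵐ x, g x ≠ 1 := by simpa [ae_iff] using hlev 1 one_pos
      have a2 : ∀ᵐ x, g x ≠ r := by simpa [ae_iff] using hlev r hr
      filter_upwards [a1, a2] with x n1 n2
      have hiff : x ∈ K \ r • K ↔ r < g x ∧ g x ≤ 1 := by
        rw [← gauge_level hK hball hr, Set.mem_sdiff, mem_ofPred_eq, not_le,
          ← gauge_le_one_iff' hK hball]
        exact and_comm
      have hcont : ContinuousAt (fun t : ℝ => g (x + t • -v)) 0 :=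
        (hgl.continuous.comp (by fun_prop)).continuousAt
      have hd : lineDeriv ℝ g x (-v) = -D x := lineDeriv_neg
      rcases lt_or_gt_of_ne n2 with h | h
      · rw [indicator_of_notMem (fun hm => (hiff.1 hm).1.not_gt h), zero_div,
          show lineDeriv ℝ (η r) x (-v) = 0 from ?_, zero_mul]
        have e : (fun t : ℝ => η r (x + t • -v)) =ᶠ[𝓝 0] fun _ => 1 := by
          filter_upwards [hcont.preimage_mem_nhds (Iio_mem_nhds (by simpa using h))] with t ht
          have : 1 ≤ (1 - g (x + t • -v)) / (1 - r) := by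
            rw [le_div_iff₀ (by linarith)]; linarith [show g (x + t • -v) < r from ht]
          show max 0 (min 1 _) = (1 : ℝ)
          rw [min_eq_left this, max_eq_right zero_le_one]
        rw [lineDeriv, e.deriv_eq, deriv_const]
      rcases lt_or_gt_of_ne n1 with h' | h'
      · rw [indicator_of_mem (hiff.2 ⟨h, h'.le⟩)]
        have e : (fun t : ℝ => η r (x + t • -v)) =ᶠ[𝓝 0]
            fun t => (1 - g (x + t • -v)) / (1 - r) := by
          filter_upwards [hcont.preimage_mem_nhds (Ioo_mem_nhds (by simpa using h)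
            (by simpa using h'))] with t ⟨ht, ht'⟩
          have a : (1 - g (x + t • -v)) / (1 - r) ≤ 1 := by
            rw [div_le_one (by linarith)]; linarith
          have b : 0 ≤ (1 - g (x + t • -v)) / (1 - r) := div_nonneg (by linarith) (by linarith)
          show max 0 (min 1 _) = (1 - g (x + t • -v)) / (1 - r)
          rw [min_eq_right a, max_eq_right b]
        rw [lineDeriv, e.deriv_eq, deriv_div_const, deriv_const_sub]
        rw [show deriv (fun t : ℝ => g (x + t • -v)) 0 = -D x from hd]
        ring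
      · rw [indicator_of_notMem (fun hm => (hiff.1 hm).2.not_gt h'), zero_div,
          show lineDeriv ℝ (η r) x (-v) = 0 from ?_, zero_mul]
        have e : (fun t : ℝ => η r (x + t • -v)) =ᶠ[𝓝 0] fun _ => 0 := by
          filter_upwards [hcont.preimage_mem_nhds (Ioi_mem_nhds (by simpa using h'))] with t ht
          exact max_eq_left ((min_le_right _ _).trans (div_nonpos_of_nonpos_of_nonneg
            (by linarith [show 1 < g (x + t • -v) from ht]) (by linarith)))
        rw [lineDeriv, e.deriv_eq, deriv_const]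
    rw [integral_congr_ae h2, integral_div,
      integral_indicator (MeasurableSet.diff hK.compact.measurableSet (hK.compact.smul r).measurableSet)]
  have hlimit : Tendsto (fun r : ℝ => ∫ x in K, deriv φ ⟪v, x⟫ * η r x) (𝓝[<] 1)
      (𝓝 (∫ x in K, deriv φ ⟪v, x⟫)) := by
    refine tendsto_integral_filter_of_dominated_convergence (fun _ => (L : ℝ))
      (Eventually.of_forall fun r =>
        (((measurable_deriv φ).comp hin.measurable).mul (hηm r)).aestronglyMeasurable)
      (Eventually.of_forall fun r => Eventually.of_forall fun x => ?_)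
      (integrableOn_const hK.compact.measure_lt_top.ne) ?_
    · rw [Real.norm_eq_abs, abs_mul]
      exact (mul_le_of_le_one_right (abs_nonneg _) (hη1 r x)).trans
        (norm_deriv_le_of_lipschitz hφ)
    · rw [ae_restrict_iff' hK.compact.measurableSet]
      have a1 : ∀ᵐ x, x ∉ frontier K := measure_eq_zero_iff_ae_notMem.1
        (hK.convex.addHaar_frontier volume)
      filter_upwards [a1] with x hx hxK
      have hint : x ∈ interior K := by
        by_contra hni
        exact hx ⟨subset_closure hxK, hni⟩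
      have hg1 : g x < 1 := (gauge_lt_one_iff_mem_interior hK.convex
        (gauge_nhds hK hball)).2 hint
      refine tendsto_const_nhds.congr' ?_
      filter_upwards [Ioo_mem_nhdsLT hg1] with r hr
      have : 1 ≤ (1 - g x) / (1 - r) := by
        rw [le_div_iff₀ (by linarith [hr.2])]; linarith [hr.1]
      simp [η, min_eq_left this]
  refine hlimit.congr' ?_
  filter_upwards [Ioo_mem_nhdsLT zero_lt_one] with r hr
  exact (key r hr.1 hr.2).symm

/-- Boundary averages of functions of the height. -/
theorem gauge_boundary {v : E} (hv : ‖v‖ = 1) {φ : ℝ → ℝ} {L : ℝ≥0} (hφ : LipschitzWith L φ) :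
    (finrank ℝ E : ℝ) * ∫ x in K, φ (⟪v, x⟫ / gauge K x) ^ 2 =
      ∫ x in K, ((finrank ℝ E : ℝ) * φ ⟪v, x⟫ ^ 2 +
        2 * ⟪v, x⟫ * φ ⟪v, x⟫ * deriv φ ⟪v, x⟫) := by
  obtain ⟨R, hR'⟩ := hK.compact.isBounded.subset_closedBall 0
  have hR : ∀ x ∈ K, ‖x‖ ≤ R := fun x hx => mem_closedBall_zero_iff.1 (hR' hx)
  have hR0 : 0 ≤ R := (norm_nonneg _).trans (hR 0 (mem_of_mem_nhds (gauge_nhds hK hball)))
  set n := finrank ℝ E
  set M := |φ 0| + L * R
  have hM0 : 0 ≤ M := by positivity
  have hC : ∀ a, |a| ≤ R → |φ a| ≤ M := fun a ha => by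
    have h := hφ.dist_le_mul a 0
    rw [Real.dist_eq, Real.dist_eq, sub_zero] at h
    have h1 := abs_add_le (φ a - φ 0) (φ 0)
    rw [sub_add_cancel] at h1
    have := mul_le_mul_of_nonneg_left ha L.coe_nonneg
    linarith
  have hsq : ∀ a b, |a| ≤ R → |b| ≤ R → |φ a ^ 2 - φ b ^ 2| ≤ 2 * M * L * |a - b| := by
    intro a b ha hb
    rw [sq_sub_sq, abs_mul]
    calc |φ a + φ b| * |φ a - φ b| ≤ (2 * M) * (L * |a - b|) :=
          mul_le_mul ((abs_add_le _ _).trans (by linarith [hC a ha, hC b hb]))
            (hφ.dist_le_mul a b) (abs_nonneg _) (by positivity)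
      _ = _ := by ring
  have hlim := shell_limit hK hball hR hv (f := fun a => φ a ^ 2) (hφ.continuous.pow 2)
    (C := M ^ 2) (L := 2 * M * L) (by positivity)
    (fun a ha => by rw [abs_pow]; exact pow_le_pow_left₀ (abs_nonneg _) (hC a ha) 2) hsq
    measurable_const (H := fun _ => (1 : ℝ)) (fun _ => by simp) (fun _ _ _ => rfl)
  simp only [one_mul] at hlim
  refine tendsto_nhds_unique hlim ?_
  set a := fun x : E => ⟪v, x⟫
  have hac : Continuous a := continuous_const.inner continuous_id
  have ha : ∀ x ∈ K, |a x| ≤ R := fun x hx =>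
    (abs_real_inner_le_norm v x).trans (by rw [hv, one_mul]; exact hR x hx)
  have hPm : Continuous fun x => φ (a x) ^ 2 := by
    exact (hφ.continuous.comp hac).pow 2
  set q := fun (r : ℝ) (x : E) => (φ (a x) ^ 2 - φ (r * a x) ^ 2) / (1 - r)
  have hqm : ∀ r, Continuous (q r) := fun r =>
    (hPm.sub ((hφ.continuous.comp (continuous_const.mul hac)).pow 2)).div_const _
  have hq : Tendsto (fun r => ∫ x in K, q r x) (𝓝[<] 1)
      (𝓝 (∫ x in K, 2 * a x * φ (a x) * deriv φ (a x))) := by
    refine tendsto_integral_filter_of_dominated_convergence (fun _ => 2 * M * L * R)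
      (Eventually.of_forall fun r => (hqm r).aestronglyMeasurable) ?_
      (integrableOn_const hK.compact.measure_lt_top.ne) ?_
    · filter_upwards [Ioo_mem_nhdsLT zero_lt_one] with r hr
      rw [ae_restrict_iff' hK.compact.measurableSet]
      refine Eventually.of_forall fun x hx => ?_
      have h1 : |r * a x| ≤ R := by
        rw [abs_mul, abs_of_pos hr.1]
        exact (mul_le_of_le_one_left (abs_nonneg _) hr.2.le).trans (ha x hx)
      rw [Real.norm_eq_abs, abs_div, abs_of_pos (sub_pos.2 hr.2), div_le_iff₀ (sub_pos.2 hr.2)]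
      refine (hsq _ _ (ha x hx) h1).trans ?_
      rw [show a x - r * a x = (1 - r) * a x by ring, abs_mul, abs_of_pos (sub_pos.2 hr.2)]
      calc 2 * M * L * ((1 - r) * |a x|) ≤ 2 * M * L * ((1 - r) * R) :=
            mul_le_mul_of_nonneg_left (mul_le_mul_of_nonneg_left (ha x hx) (sub_pos.2 hr.2).le)
              (by positivity)
        _ = _ := by ring
    · refine ae_restrict_of_ae ?_
      filter_upwards [ae_height hv hφ.ae_differentiableAt] with x hx
      have hd : HasDerivAt (fun r : ℝ => φ (r * a x) ^ 2)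
          (2 * a x * φ (a x) * deriv φ (a x)) 1 := by
        have h0 : HasDerivAt (fun r : ℝ => φ (r * a x)) (deriv φ (a x) * a x) 1 :=
          (show HasDerivAt φ (deriv φ (a x)) (1 * a x) by
            rw [one_mul]; exact hx.hasDerivAt).comp (1 : ℝ) (hasDerivAt_mul_const (a x))
        exact (h0.pow 2).congr_deriv (by norm_num; ring)
      refine ((hasDerivAt_iff_tendsto_slope.1 hd).mono_left
        (nhdsWithin_mono _ fun r hr => ne_of_lt hr)).congr' ?_
      filter_upwards [self_mem_nhdsWithin] with r (hr : r < 1)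
      simp only [slope_def_field, q, one_mul]
      rw [← neg_div_neg_eq, neg_sub, neg_sub]
  have hpoly := geom_ratio_limit n
  have hrn : Tendsto (fun r : ℝ => r ^ n) (𝓝[<] 1) (𝓝 1) :=
    ((continuous_pow n).tendsto' 1 1 (by simp)).mono_left nhdsWithin_le_nhds
  have hsum := (hpoly.mul_const (∫ x in K, φ (a x) ^ 2)).add (hrn.mul hq)
  have hi1 : IntegrableOn (fun x => φ (a x) ^ 2) K :=
    hPm.continuousOn.integrableOn_compact hK.compact
  have hi2 : IntegrableOn (fun x => 2 * a x * φ (a x) * deriv φ (a x)) K := by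
    refine integrableOn_bdd hK.compact ((((continuous_const.mul hac).mul
      (hφ.continuous.comp hac)).measurable).mul ((measurable_deriv φ).comp hac.measurable))
      (C := 2 * R * M * L) fun x hx => ?_
    rw [abs_mul, abs_mul, abs_mul, abs_two]
    refine mul_le_mul (mul_le_mul (mul_le_mul_of_nonneg_left (ha x hx) zero_le_two)
      (hC _ (ha x hx)) (abs_nonneg _) (by positivity)) (norm_deriv_le_of_lipschitz hφ)
      (abs_nonneg _) (by positivity)
  rw [integral_add (hi1.const_mul _) hi2, integral_const_mul]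
  rw [one_mul] at hsum
  refine hsum.congr' ?_
  filter_upwards [Ioo_mem_nhdsLT zero_lt_one] with r hr
  have hsub : r • K ⊆ K := fun x hx => (gauge_le_one_iff' hK hball x).1 (by
    rw [← gauge_level hK hball hr.1] at hx
    exact le_trans hx hr.2.le)
  have hi3 : IntegrableOn (fun x => φ (r * a x) ^ 2) K :=
    ((hφ.continuous.comp (continuous_const.mul hac)).pow 2).continuousOn.integrableOn_compact
      hK.compact
  rw [setIntegral_sdiff (hK.compact.smul r).measurableSet hi1 hsub,
    integral_level hK hball hr.1]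
  simp only [q, a, real_inner_smul_right, integral_div]
  rw [integral_sub hi1 hi3]
  have : 1 - r ≠ 0 := (sub_pos.2 hr.2).ne'
  field_simp
  ring

/-- The Dirichlet bound: with unit directions whose weighted rank one forms give the identity, the
one-dimensional marginals satisfy a variational inequality, sharp at the ball for `φ = id`. -/
theorem dirichlet_sum (s : Finset E) (c : E → ℝ) (hs : ∀ v ∈ s, 0 ≤ c v ∧ ‖v‖ = 1)
    (hid : ∀ x : E, ∑ v ∈ s, c v * ⟪v, x⟫ ^ 2 = ‖x‖ ^ 2) (φ : E → ℝ → ℝ)
    (hφ : ∀ v ∈ s, ∃ L, LipschitzWith L (φ v)) :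
    ∑ v ∈ s, c v * ∫ x in K, (2 * deriv (φ v) ⟪v, x⟫ - finrank ℝ E * φ v ⟪v, x⟫ ^ 2 -
        2 * ⟪v, x⟫ * φ v ⟪v, x⟫ * deriv (φ v) ⟪v, x⟫) ≤ finrank ℝ E * volume.real K := by
  obtain ⟨R, hR'⟩ := hK.compact.isBounded.subset_closedBall 0
  have hR : ∀ x ∈ K, ‖x‖ ≤ R := fun x hx => mem_closedBall_zero_iff.1 (hR' hx)
  have hR0 : 0 ≤ R := (norm_nonneg _).trans (hR 0 (mem_of_mem_nhds (gauge_nhds hK hball)))
  set n := finrank ℝ E
  have hgl := gauge_lipschitz hK hball
  set g := gauge K
  set D := fun v x => lineDeriv ℝ g x v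
  have hDm : ∀ v, Measurable (D v) := fun v => measurable_lineDeriv hgl.continuous
  have hDi : ∀ v ∈ s, IntegrableOn (fun x => D v x ^ 2) K := fun v hv =>
    integrableOn_bdd hK.compact ((hDm v).pow_const 2) (C := 1) fun x _ => by
      rw [abs_pow]
      exact pow_le_one₀ (abs_nonneg _) (abs_lineDeriv_gauge_le hK hball (hs v hv).2 x)
  have hone : ∀ᵐ x, ∑ v ∈ s, c v * D v x ^ 2 ≤ 1 := by
    filter_upwards [hgl.ae_differentiableAt] with x hx
    set w := (InnerProductSpace.toDual ℝ E).symm (fderiv ℝ g x)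
    have e : ∀ v, D v x = ⟪v, w⟫ := fun v => by
      rw [real_inner_comm]
      exact hx.lineDeriv_eq_fderiv.trans InnerProductSpace.toDual_symm_apply.symm
    simp only [e, hid, w, LinearIsometryEquiv.norm_map]
    exact pow_le_one₀ (norm_nonneg _) (norm_fderiv_le_of_lipschitz ℝ hgl)
  have hper : ∀ v ∈ s, ∫ x in K, (2 * deriv (φ v) ⟪v, x⟫ - n * φ v ⟪v, x⟫ ^ 2 -
      2 * ⟪v, x⟫ * φ v ⟪v, x⟫ * deriv (φ v) ⟪v, x⟫) ≤ n * ∫ x in K, D v x ^ 2 := by
    intro v hv
    obtain ⟨L, hL⟩ := hφ v hv
    have hvn := (hs v hv).2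
    set a := fun x : E => ⟪v, x⟫
    have hac : Continuous a := continuous_const.inner continuous_id
    set u := fun x => a x / g x
    have hum : Measurable fun x => φ v (u x) :=
      hL.continuous.measurable.comp (hac.measurable.div hgl.continuous.measurable)
    set M := |φ v 0| + L * R
    have hC : ∀ b, |b| ≤ R → |φ v b| ≤ M := fun b hb => by
      have h := hL.dist_le_mul b 0
      rw [Real.dist_eq, Real.dist_eq, sub_zero] at h
      have h1 := abs_add_le (φ v b - φ v 0) (φ v 0)
      rw [sub_add_cancel] at h1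
      have := mul_le_mul_of_nonneg_left hb L.coe_nonneg
      linarith
    have hM0 : 0 ≤ M := by positivity
    have ha : ∀ x ∈ K, |a x| ≤ R := fun x hx =>
      (abs_real_inner_le_norm v x).trans (by rw [hvn, one_mul]; exact hR x hx)
    have i1 : IntegrableOn (fun x => D v x * φ v (u x)) K :=
      integrableOn_bdd hK.compact ((hDm v).mul hum) (C := M) fun x _ => by
        rw [abs_mul]
        exact (mul_le_of_le_one_left (abs_nonneg _) (abs_lineDeriv_gauge_le hK hball hvn x)).trans
          (hC _ (abs_height_div_le hK hball hR hvn x))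
    have i2 : IntegrableOn (fun x => φ v (u x) ^ 2) K :=
      integrableOn_bdd hK.compact (hum.pow_const 2) (C := M ^ 2) fun x _ => by
        rw [abs_pow]
        exact pow_le_pow_left₀ (abs_nonneg _) (hC _ (abs_height_div_le hK hball hR hvn x)) 2
    have hdm : Measurable fun x => deriv (φ v) (a x) :=
      (measurable_deriv _).comp hac.measurable
    have j1 : IntegrableOn (fun x => deriv (φ v) (a x)) K :=
      integrableOn_bdd hK.compact hdm (C := L) fun x _ => norm_deriv_le_of_lipschitz hL
    have j2 : IntegrableOn (fun x => (n : ℝ) * φ v (a x) ^ 2) K :=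
      (continuous_const.mul ((hL.continuous.comp hac).pow 2)).continuousOn.integrableOn_compact
        hK.compact
    have j3 : IntegrableOn (fun x => 2 * a x * φ v (a x) * deriv (φ v) (a x)) K := by
      refine integrableOn_bdd hK.compact ((((continuous_const.mul hac).mul
        (hL.continuous.comp hac)).measurable).mul hdm) (C := 2 * R * M * L) fun x hx => ?_
      rw [abs_mul, abs_mul, abs_mul, abs_two]
      exact mul_le_mul (mul_le_mul (mul_le_mul_of_nonneg_left (ha x hx) zero_le_two)
        (hC _ (ha x hx)) (abs_nonneg _) (by positivity)) (norm_deriv_le_of_lipschitz hL)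
        (abs_nonneg _) (by positivity)
    have h1 := gauge_parts hK hball hvn hL
    have h2 := gauge_boundary hK hball hvn hL
    rw [integral_add j2 j3] at h2
    have e1 : ∫ x in K, (2 * deriv (φ v) (a x) - n * φ v (a x) ^ 2 -
        2 * a x * φ v (a x) * deriv (φ v) (a x)) = 2 * (∫ x in K, deriv (φ v) (a x)) -
        (∫ x in K, n * φ v (a x) ^ 2) - ∫ x in K, 2 * a x * φ v (a x) * deriv (φ v) (a x) := by
      have j12 : IntegrableOn (fun x => 2 * deriv (φ v) (a x) - n * φ v (a x) ^ 2) K :=
        (j1.const_mul 2).sub j2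
      rw [integral_sub j12 j3, integral_sub (j1.const_mul 2) j2, integral_const_mul]
    refine e1.trans_le ?_
    have hle : ∫ x in K, (2 * (D v x * φ v (u x)) - φ v (u x) ^ 2) ≤ ∫ x in K, D v x ^ 2 :=
      setIntegral_mono ((i1.const_mul 2).sub i2) (hDi v hv) fun x => by
        nlinarith [sq_nonneg (D v x - φ v (u x))]
    rw [integral_sub (i1.const_mul 2) i2, integral_const_mul] at hle
    have := mul_le_mul_of_nonneg_left hle (Nat.cast_nonneg n : (0 : ℝ) ≤ n)
    linarith
  calc _ ≤ ∑ v ∈ s, c v * (n * ∫ x in K, D v x ^ 2) :=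
        Finset.sum_le_sum fun v hv => mul_le_mul_of_nonneg_left (hper v hv) (hs v hv).1
    _ = n * ∫ x in K, ∑ v ∈ s, c v * D v x ^ 2 := by
        rw [integral_finsetSum s fun v hv => (hDi v hv).const_mul _, Finset.mul_sum]
        exact Finset.sum_congr rfl fun v _ => by rw [integral_const_mul]; ring
    _ ≤ n * ∫ _ in K, (1 : ℝ) := by
        refine mul_le_mul_of_nonneg_left (integral_mono_ae
          (integrable_finsetSum s fun v hv => (hDi v hv).const_mul _)
          (integrableOn_const hK.compact.measure_lt_top.ne) (ae_restrict_of_ae hone))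
          (Nat.cast_nonneg _)
    _ = _ := by rw [setIntegral_const, smul_eq_mul, mul_one]

end Body

end Vale.Agent.P237.Petty
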