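import Vale.Agent.P237.Petty.Ball
import Vale.Agent.P237.Petty.Dirichlet
import Vale.Agent.P237.Asym.BL

/-!
# P237: entropy of the gauge Gaussian lift, dual form

The lift of the uniform law of a body `K` is the law with density proportional to
`exp (-gauge K x ^ 2 / 2)`. Its marginals are mixtures of scaled marginals of `K`, and the
geometric Brascamp–Lieb inequality bounds its entropy by those of the marginals.
-/

namespace Vale.Agent.P237.Petty

open MeasureTheory Set Module Metric Filter Topology
open scoped RealInnerProductSpace Pointwise ENNReal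

set_option linter.unusedSectionVars false

/-- The moments of the radial Gaussian weight. -/
noncomputable def radial (k : ℕ) : ℝ := ∫ w in Ioi (0 : ℝ), w ^ k * Real.exp (-(w ^ 2) / 2)

theorem radial_eq (k : ℕ) :
    radial k = (1 / 2 : ℝ) ^ (-((k : ℝ) + 1) / 2) * (1 / 2) * Real.Gamma (((k : ℝ) + 1) / 2) := by
  rw [← integral_rpow_mul_exp_neg_mul_rpow (p := 2) (q := (k : ℝ)) (b := 1 / 2) two_pos
    (by linarith [k.cast_nonneg (α := ℝ)]) (by norm_num), radial]
  refine setIntegral_congr_fun measurableSet_Ioi fun w _ => ?_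
  simp only [Real.rpow_natCast, Real.rpow_two]
  congr 2
  ring

theorem radial_pos (k : ℕ) : 0 < radial k := by
  rw [radial_eq]
  have : 0 < Real.Gamma (((k : ℝ) + 1) / 2) := Real.Gamma_pos_of_pos (by positivity)
  positivity

theorem radial_step (k : ℕ) : radial (k + 2) = ((k : ℝ) + 1) * radial k := by
  have h0 : ((k : ℝ) + 1) / 2 ≠ 0 := by positivity
  rw [radial_eq, radial_eq]
  push_cast
  rw [show ((k : ℝ) + 2 + 1) / 2 = ((k : ℝ) + 1) / 2 + 1 by ring, Real.Gamma_add_one h0,
    show -((k : ℝ) + 2 + 1) / 2 = -((k : ℝ) + 1) / 2 - 1 by ring,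
    Real.rpow_sub (by norm_num : (0 : ℝ) < 1 / 2), Real.rpow_one]
  ring

theorem integrableOn_radial (k : ℕ) :
    IntegrableOn (fun w : ℝ => w ^ k * Real.exp (-(w ^ 2) / 2)) (Ioi 0) := by
  refine (integrableOn_rpow_mul_exp_neg_mul_sq (b := 1 / 2) (by norm_num) (s := (k : ℝ))
    (by linarith [k.cast_nonneg (α := ℝ)])).congr_fun (fun w _ => ?_) measurableSet_Ioi
  simp only [Real.rpow_natCast]
  congr 2
  ring

theorem tendsto_exp_neg_sq_half :
    Tendsto (fun w : ℝ => Real.exp (-(w ^ 2) / 2)) atTop (𝓝 0) :=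
  Real.tendsto_exp_atBot.comp
    ((tendsto_neg_atTop_atBot.comp (tendsto_pow_atTop (two_ne_zero))).atBot_div_const two_pos)

theorem tail_one {t : ℝ} (ht : 0 ≤ t) :
    ∫ w in Ioi t, w * Real.exp (-(w ^ 2) / 2) = Real.exp (-(t ^ 2) / 2) := by
  have h := integral_Ioi_of_hasDerivAt_of_nonneg' (g := fun w : ℝ => -Real.exp (-(w ^ 2) / 2))
    (g' := fun w => w * Real.exp (-(w ^ 2) / 2)) (a := t) (fun w _ => by
      refine (((hasDerivAt_pow 2 w).neg.div_const 2).exp.neg).congr_deriv ?_
      norm_num
      ring) (fun w hw => mul_nonneg (ht.trans (le_of_lt hw)) (Real.exp_pos _).le)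
    (by simpa using tendsto_exp_neg_sq_half.neg)
  rw [h]
  ring

theorem tail_three {t : ℝ} (ht : 0 ≤ t) :
    ∫ w in Ioi t, w ^ 3 * Real.exp (-(w ^ 2) / 2) = (t ^ 2 + 2) * Real.exp (-(t ^ 2) / 2) := by
  have hlim : Tendsto (fun w : ℝ => -((w ^ 2 + 2) * Real.exp (-(w ^ 2) / 2))) atTop (𝓝 0) := by
    have h1 : Tendsto (fun u : ℝ => (2 * u + 2) * Real.exp (-u)) atTop (𝓝 0) := by
      simpa [add_mul, mul_assoc] using
        ((Real.tendsto_pow_mul_exp_neg_atTop_nhds_zero 1).const_mul 2).add
          (Real.tendsto_exp_neg_atTop_nhds_zero.const_mul 2)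
    have h2 := (h1.comp ((tendsto_pow_atTop (two_ne_zero)).atTop_div_const (two_pos : (0:ℝ) < 2))).neg
    simp only [neg_zero] at h2
    refine h2.congr fun w => ?_
    simp only [Function.comp_apply]
    rw [neg_div]
    ring_nf
  have h := integral_Ioi_of_hasDerivAt_of_nonneg'
    (g := fun w : ℝ => -((w ^ 2 + 2) * Real.exp (-(w ^ 2) / 2)))
    (g' := fun w => w ^ 3 * Real.exp (-(w ^ 2) / 2)) (a := t) (fun w _ => by
      refine ((((hasDerivAt_pow 2 w).add_const 2).mul
        ((hasDerivAt_pow 2 w).neg.div_const 2).exp).neg).congr_deriv ?_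
      norm_num
      ring) (fun w hw => mul_nonneg (pow_nonneg (ht.trans (le_of_lt hw)) 3) (Real.exp_pos _).le) hlim
  rw [h]
  ring

variable {E : Type*} [NormedAddCommGroup E] [InnerProductSpace ℝ E] [FiniteDimensional ℝ E]
  [MeasurableSpace E] [BorelSpace E]

/-- Gaussian functions of the norm are integrable. -/
theorem integrable_exp_norm {b : ℝ} (hb : 0 < b) :
    Integrable fun x : E => Real.exp (-b * ‖x‖ ^ 2) := by
  refine Integrable.of_integral_ne_zero ?_
  rw [GaussianFourier.integral_rexp_neg_mul_sq_norm hb]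
  positivity

/-- The mass of the lift. -/
noncomputable def liftMass (K : Set E) : ℝ :=
  volume.real K / kappa (finrank ℝ E) * (2 * Real.pi) ^ ((finrank ℝ E : ℝ) / 2)

section Body

variable {K : Set E} (hK : Body K) (hball : closedBall (0 : E) 1 ⊆ K)

include hK hball

theorem liftMass_pos : 0 < liftMass K :=
  mul_pos (div_pos hK.volume_pos (kappa_pos _))
    (Real.rpow_pos_of_pos (by positivity) _)

/-- Integrals of decreasing functions of the gauge, by dilates of the body. -/
theorem gauge_layers {ρ Φ : ℝ → ℝ} (hρ : Continuous ρ) (hρi : IntegrableOn ρ (Ioi 0))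
    (hρ0 : ∀ w, 0 < w → 0 ≤ ρ w) (hΦ : ∀ t, 0 ≤ t → ∫ w in Ioi t, ρ w = Φ t) {F : E → ℝ}
    (hF : Measurable F) (hint : Integrable fun x => Φ (gauge K x) * F x) :
    ∫ x, Φ (gauge K x) * F x =
      ∫ w in Ioi (0 : ℝ), ρ w * w ^ finrank ℝ E * ∫ x in K, F (w • x) := by
  set g := gauge K
  have hgm : Measurable g := (gauge_lipschitz hK hball).continuous.measurable
  set G := fun (x : E) (w : ℝ) => (Ici (g x)).indicator ρ w * F x
  have hset : MeasurableSet {p : E × ℝ | g p.1 ≤ p.2} :=
    measurableSet_le (hgm.comp measurable_fst) measurable_snd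
  have hGm : Measurable (Function.uncurry G) := by
    have e : Function.uncurry G =
        fun p => {p : E × ℝ | g p.1 ≤ p.2}.indicator (fun p => ρ p.2) p * F p.1 := by
      funext p
      by_cases hp : g p.1 ≤ p.2 <;> simp [G, Function.uncurry, hp]
    rw [e]
    exact ((hρ.measurable.comp measurable_snd).indicator hset).mul (hF.comp measurable_fst)
  have hin : ∀ x, ∫ w in Ioi (0 : ℝ), (Ici (g x)).indicator ρ w = Φ (g x) := fun x => by
    rw [setIntegral_indicator measurableSet_Ici, ← hΦ _ (gauge_nonneg x)]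
    refine setIntegral_congr_set ?_
    refine ((ae_eq_refl (Ioi (0 : ℝ))).inter Ioi_ae_eq_Ici.symm).trans ?_
    rw [inter_eq_right.2 (Ioi_subset_Ioi (gauge_nonneg x))]
    exact ae_eq_refl _
  have hG : Integrable (Function.uncurry G) (volume.prod (volume.restrict (Ioi (0 : ℝ)))) := by
    have hsl : ∀ x, Integrable (fun w => G x w) (volume.restrict (Ioi (0 : ℝ))) := fun x => by
      have h := (Integrable.indicator hρi (s := Ici (g x)) measurableSet_Ici).mul_const (F x)
      exact h
    refine (integrable_prod_iff hGm.aestronglyMeasurable).2 ⟨Eventually.of_forall hsl, ?_⟩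
    refine hint.norm.congr (Eventually.of_forall fun x => ?_)
    have hpos : ∀ w ∈ Ioi (0 : ℝ), 0 ≤ (Ici (g x)).indicator ρ w := fun w hw =>
      indicator_apply_nonneg fun _ => hρ0 w hw
    have hnn : 0 ≤ Φ (g x) := hin x ▸ setIntegral_nonneg measurableSet_Ioi hpos
    simp only [Function.uncurry_apply_pair, G, norm_mul, Real.norm_eq_abs, abs_of_nonneg hnn]
    rw [integral_mul_const, ← hin x]
    congr 1
    exact setIntegral_congr_fun measurableSet_Ioi fun w hw => (abs_of_nonneg (hpos w hw)).symm
  calc ∫ x, Φ (g x) * F x = ∫ x, ∫ w in Ioi (0 : ℝ), G x w :=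
        integral_congr_ae (Eventually.of_forall fun x => by
          simp only [G]
          rw [integral_mul_const, hin])
    _ = ∫ w in Ioi (0 : ℝ), ∫ x, G x w := integral_integral_swap hG
    _ = _ := setIntegral_congr_fun measurableSet_Ioi fun w (hw : 0 < w) => by
        have e : (fun x => G x w) = (w • K).indicator fun x => ρ w * F x := by
          funext x
          rw [← gauge_level hK hball hw]
          by_cases hx : g x ≤ w
          · rw [indicator_of_mem (show x ∈ {x : E | gauge K x ≤ w} from hx)]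
            simp only [G]
            rw [indicator_of_mem (mem_Ici.2 hx)]
          · rw [indicator_of_notMem (show x ∉ {x : E | gauge K x ≤ w} from hx)]
            simp only [G]
            rw [indicator_of_notMem (fun h => hx (mem_Ici.1 h)), zero_mul]
        show ∫ x, G x w = _
        rw [e, integral_indicator (hK.compact.smul w).measurableSet, integral_const_mul,
          integral_level hK hball hw, mul_assoc]

/-- Polynomially bounded functions are integrable against the lift. -/
theorem lift_integrable {F : E → ℝ} (hF : Measurable F) {A : ℝ} {k : ℕ}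
    (hA : ∀ x, |F x| ≤ A * (1 + ‖x‖) ^ k) :
    Integrable fun x => Real.exp (-(gauge K x ^ 2) / 2) * F x := by
  obtain ⟨R, hR'⟩ := hK.compact.isBounded.subset_closedBall 0
  set R' := max R 1
  have hR : ∀ x : E, ‖x‖ / R' ≤ gauge K x := fun x => by
    have h := gauge_mono (absorbent_nhds_zero (gauge_nhds hK hball))
      (hR'.trans (closedBall_subset_closedBall (le_max_left R 1))) x
    rwa [gauge_closedBall (zero_le_one.trans (le_max_right R 1))] at h
  have hR0 : 0 < R' := one_pos.trans_le (le_max_right R 1)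
  set a := 1 / (2 * R' ^ 2) with ha
  have ha0 : 0 < a := by positivity
  have hA0 : 0 ≤ A := by simpa using (abs_nonneg _).trans (hA 0)
  refine ((integrable_exp_norm (E := E) (half_pos ha0)).const_mul
    (A * (k.factorial * Real.exp (1 + 1 / (2 * a))))).mono'
    ((((gauge_lipschitz hK hball).continuous.measurable.pow_const 2).neg.div_const 2).exp.mul
      hF).aestronglyMeasurable (Eventually.of_forall fun x => ?_)
  rw [Real.norm_eq_abs, abs_mul, abs_of_pos (Real.exp_pos _)]
  have h1 : Real.exp (-(gauge K x ^ 2) / 2) ≤ Real.exp (-a * ‖x‖ ^ 2) := by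
    refine Real.exp_le_exp.2 ?_
    have h := pow_le_pow_left₀ (by positivity) (hR x) 2
    rw [div_pow] at h
    have e : a * ‖x‖ ^ 2 = ‖x‖ ^ 2 / R' ^ 2 / 2 := by rw [ha]; ring
    linarith
  have h2 : (1 + ‖x‖) ^ k ≤
      k.factorial * Real.exp (1 + 1 / (2 * a)) * Real.exp (a / 2 * ‖x‖ ^ 2) := by
    have h := Real.pow_div_factorial_le_exp (1 + ‖x‖) (by positivity) k
    rw [div_le_iff₀ (by positivity)] at h
    rw [mul_assoc, ← Real.exp_add]
    refine h.trans ?_
    rw [mul_comm]
    refine mul_le_mul_of_nonneg_left (Real.exp_le_exp.2 ?_) (by positivity)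
    have e : 1 / (2 * a) + a / 2 * ‖x‖ ^ 2 - ‖x‖ = (a * ‖x‖ - 1) ^ 2 / (2 * a) := by
      field_simp
      ring
    have : 0 ≤ (a * ‖x‖ - 1) ^ 2 / (2 * a) := by positivity
    linarith
  calc Real.exp (-(gauge K x ^ 2) / 2) * |F x|
      ≤ Real.exp (-a * ‖x‖ ^ 2) * (A * (k.factorial * Real.exp (1 + 1 / (2 * a)) *
          Real.exp (a / 2 * ‖x‖ ^ 2))) :=
        mul_le_mul h1 ((hA x).trans (mul_le_mul_of_nonneg_left h2 hA0)) (abs_nonneg _)
          (Real.exp_pos _).le
    _ = A * (k.factorial * Real.exp (1 + 1 / (2 * a))) *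
          (Real.exp (-a * ‖x‖ ^ 2) * Real.exp (a / 2 * ‖x‖ ^ 2)) := by ring
    _ = _ := by rw [← Real.exp_add]; congr 2; ring

/-- The lift by dilates: expectations are mixtures of averages over dilates of the body. -/
theorem lift_eq {F : E → ℝ} (hF : Measurable F)
    (hint : Integrable fun x => Real.exp (-(gauge K x ^ 2) / 2) * F x) :
    ∫ x, Real.exp (-(gauge K x ^ 2) / 2) * F x =
      ∫ w in Ioi (0 : ℝ), w ^ (finrank ℝ E + 1) * Real.exp (-(w ^ 2) / 2) *
        ∫ x in K, F (w • x) := by
  rw [gauge_layers hK hball (ρ := fun w => w * Real.exp (-(w ^ 2) / 2))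
    (Φ := fun t => Real.exp (-(t ^ 2) / 2)) (by fun_prop)
    (by simpa using integrableOn_radial 1) (fun w hw => mul_nonneg hw.le (Real.exp_pos _).le)
    (fun t ht => tail_one ht) hF hint]
  refine setIntegral_congr_fun measurableSet_Ioi fun w _ => ?_
  simp only [pow_succ]
  ring

/-- The marginals of the lift are mixtures of scaled marginals of the body. -/
theorem lift_marginal {v : E} (hv : ‖v‖ = 1) {h : ℝ → ℝ} (hh : Measurable h) {A : ℝ} {k : ℕ}
    (hA : ∀ t, |h t| ≤ A * (1 + |t|) ^ k) :
    Integrable (fun x : E => Real.exp (-(gauge K x ^ 2) / 2) * h ⟪v, x⟫) ∧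
      ∫ x, Real.exp (-(gauge K x ^ 2) / 2) * h ⟪v, x⟫ =
        ∫ w in Ioi (0 : ℝ), w ^ (finrank ℝ E + 1) * Real.exp (-(w ^ 2) / 2) *
          ∫ x in K, h (w * ⟪v, x⟫) := by
  have hm : Measurable fun x : E => h ⟪v, x⟫ :=
    hh.comp (continuous_const.inner continuous_id).measurable
  have hA0 : 0 ≤ A := by simpa using (abs_nonneg _).trans (hA 0)
  have hi := lift_integrable hK hball hm (A := A) (k := k) fun x => (hA _).trans
    (mul_le_mul_of_nonneg_left (pow_le_pow_left₀ (by positivity) (add_le_add le_rfl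
      ((abs_real_inner_le_norm v x).trans (by rw [hv, one_mul]))) _) hA0)
  refine ⟨hi, (lift_eq hK hball hm hi).trans ?_⟩
  simp only [real_inner_smul_right]

/-- The total mass of the lift and its second gauge moment. -/
theorem lift_moments :
    (Integrable fun x => Real.exp (-(gauge K x ^ 2) / 2)) ∧
      ∫ x, Real.exp (-(gauge K x ^ 2) / 2) = liftMass K ∧
      (Integrable fun x => Real.exp (-(gauge K x ^ 2) / 2) * gauge K x ^ 2) ∧
      ∫ x, Real.exp (-(gauge K x ^ 2) / 2) * gauge K x ^ 2 =
        (finrank ℝ E : ℝ) * liftMass K ∧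
      radial (finrank ℝ E + 1) * volume.real K = liftMass K := by
  set n := finrank ℝ E
  have key : ∀ {L : Set E}, Body L → closedBall (0 : E) 1 ⊆ L →
      (Integrable fun x => Real.exp (-(gauge L x ^ 2) / 2)) ∧
      ∫ x, Real.exp (-(gauge L x ^ 2) / 2) = radial (n + 1) * volume.real L := by
    intro L hL hLb
    have hi := lift_integrable hL hLb (F := fun _ => (1 : ℝ)) measurable_const (A := 1) (k := 0)
      (fun _ => by simp)
    have h := lift_eq hL hLb measurable_const hi
    simp only [mul_one, setIntegral_const, smul_eq_mul] at hi h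
    exact ⟨hi, by rw [h, integral_mul_const, radial]⟩
  have hB : Body (closedBall (0 : E) 1) := ⟨isCompact_closedBall _ _, convex_closedBall _ _,
    ⟨0, mem_interior_iff_mem_nhds.2 (closedBall_mem_nhds 0 one_pos)⟩⟩
  have hgb : ∀ x : E, gauge (closedBall (0 : E) 1) x = ‖x‖ := fun x => by
    rw [gauge_closedBall zero_le_one, div_one]
  have hball1 := (key hB subset_rfl).2
  have e : (fun x : E => Real.exp (-(gauge (closedBall (0 : E) 1) x ^ 2) / 2)) =
      fun x => Real.exp (-(1 / 2 : ℝ) * ‖x‖ ^ 2) := funext fun x => by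
    rw [hgb]; congr 1; ring
  rw [e, GaussianFourier.integral_rexp_neg_mul_sq_norm (by norm_num), real_closedBall rfl,
    show Real.pi / (1 / 2 : ℝ) = 2 * Real.pi by ring] at hball1
  have hrad : radial (n + 1) * volume.real K = liftMass K := by
    rw [liftMass, hball1, eq_comm, div_mul_eq_mul_div, div_eq_iff (kappa_pos _).ne']
    ring
  obtain ⟨h1, h2⟩ := key hK hball
  rw [hrad] at h2
  have hgm : Measurable (gauge K) := (gauge_lipschitz hK hball).continuous.measurable
  have h3 : Integrable fun x => Real.exp (-(gauge K x ^ 2) / 2) * gauge K x ^ 2 := by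
    refine lift_integrable hK hball (hgm.pow_const 2) (A := 1) (k := 2) fun x => ?_
    rw [one_mul, abs_pow, abs_of_nonneg (gauge_nonneg x)]
    refine pow_le_pow_left₀ (gauge_nonneg x) (le_trans ?_ (le_add_of_nonneg_left zero_le_one)) 2
    have h := gauge_mono (absorbent_nhds_zero (closedBall_mem_nhds (0 : E) one_pos)) hball x
    rwa [gauge_closedBall zero_le_one, div_one] at h
  refine ⟨h1, h2, h3, ?_, hrad⟩
  have h4 := gauge_layers hK hball (ρ := fun w => w ^ 3 * Real.exp (-(w ^ 2) / 2))
    (Φ := fun t => (t ^ 2 + 2) * Real.exp (-(t ^ 2) / 2)) (by fun_prop) (integrableOn_radial 3)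
    (fun w hw => mul_nonneg (pow_nonneg hw.le 3) (Real.exp_pos _).le)
    (fun t ht => tail_three ht) (F := fun _ => (1 : ℝ)) measurable_const
    ((h3.add (h1.const_mul 2)).congr (Eventually.of_forall fun x => by simp; ring))
  simp only [mul_one, setIntegral_const, smul_eq_mul] at h4
  have e1 : ∫ x, (gauge K x ^ 2 + 2) * Real.exp (-(gauge K x ^ 2) / 2) =
      (∫ x, Real.exp (-(gauge K x ^ 2) / 2) * gauge K x ^ 2) + 2 * liftMass K := by
    rw [← h2, ← integral_const_mul, ← integral_add h3 (h1.const_mul 2)]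
    exact integral_congr_ae (Eventually.of_forall fun x => by ring)
  have e2 : ∫ w in Ioi (0 : ℝ), w ^ 3 * Real.exp (-(w ^ 2) / 2) * w ^ n * volume.real K =
      ((n : ℝ) + 2) * liftMass K := by
    rw [← hrad, integral_mul_const, ← mul_assoc]
    congr 1
    have h := radial_step (n + 1)
    push_cast at h
    rw [show ((n : ℝ) + 2) = n + 1 + 1 by ring, ← h, radial]
    exact setIntegral_congr_fun measurableSet_Ioi fun w _ => by ring
  rw [e1, e2] at h4
  linarith

/-- The entropy of the lift is at most the weighted cross entropies of its marginals against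
positive test densities of mass at most one. -/
theorem entropy_sum (s : Finset E) (c : E → ℝ) (hs : ∀ v ∈ s, 0 ≤ c v ∧ ‖v‖ = 1)
    (hid : ∀ x : E, ∑ v ∈ s, c v * ⟪v, x⟫ ^ 2 = ‖x‖ ^ 2) (f : E → ℝ → ℝ)
    (hf : ∀ v ∈ s, Continuous (f v) ∧ (∀ t, 0 < f v t) ∧ Integrable (f v) ∧ ∫ t, f v t ≤ 1)
    (hlog : ∀ v ∈ s, Integrable fun x : E =>
      Real.exp (-(gauge K x ^ 2) / 2) * Real.log (f v ⟪v, x⟫)) :
    (finrank ℝ E : ℝ) / 2 * Real.log (2 * Real.pi * Real.exp 1) +
        Real.log (volume.real K / kappa (finrank ℝ E)) ≤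
      ∑ v ∈ s, c v *
        (-(∫ x, Real.exp (-(gauge K x ^ 2) / 2) * Real.log (f v ⟪v, x⟫)) / liftMass K) := by
  set n := finrank ℝ E
  set Z := liftMass K with hZ
  have hZ0 : 0 < Z := liftMass_pos hK hball
  obtain ⟨h1, h2, h3, h4, -⟩ := lift_moments hK hball
  set P := fun x : E => ∏ v ∈ s, f v ⟪v, x⟫ ^ c v
  have hP0 : ∀ x, 0 < P x := fun x =>
    Finset.prod_pos fun v hv => Real.rpow_pos_of_pos ((hf v hv).2.1 _) _
  have hPc : Continuous P := continuous_finsetProd s fun v hv =>
    ((hf v hv).1.comp (continuous_const.inner continuous_id)).rpow_const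
      fun x => Or.inl ((hf v hv).2.1 _).ne'
  have hP1 : ∫⁻ x, ENNReal.ofReal (P x) ≤ 1 := by
    rw [← setLIntegral_univ, ← iUnion_ball_nat_succ (0 : E), setLIntegral_iUnion_of_directed]
    · refine iSup_le fun k => ?_
      refine (Asym.geometric_bl (ι := E) (w := id) (p := fun _ => -((k : ℝ) + 1))
        (q := fun _ => (k : ℝ) + 1) (f := f) (fun v hv => (hs v hv).1) (fun v hv => (hs v hv).2) hid
        (fun v hv => (hf v hv).1.continuousOn) (fun v hv t _ => (hf v hv).2.1 t)
        (fun v hv => (hf v hv).2.2.1.integrableOn) measurableSet_ball fun x hx v hv => ?_).trans ?_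
      · have := abs_real_inner_le_norm v x
        rw [(hs v hv).2, one_mul] at this
        exact abs_lt.1 (this.trans_lt (mem_ball_zero_iff.1 hx))
      · rw [ENNReal.ofReal_le_one]
        refine Finset.prod_le_one (fun v hv => Real.rpow_nonneg
          (setIntegral_nonneg measurableSet_Ioo fun t _ => ((hf v hv).2.1 t).le) _) fun v hv => ?_
        exact Real.rpow_le_one (setIntegral_nonneg measurableSet_Ioo fun t _ => ((hf v hv).2.1 t).le)
          ((setIntegral_le_integral (hf v hv).2.2.1
            (Eventually.of_forall fun t => ((hf v hv).2.1 t).le)).trans (hf v hv).2.2.2) (hs v hv).1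
    · exact Monotone.directed_le fun i j hij => ball_subset_ball (by
        simpa using (Nat.cast_le (α := ℝ)).2 hij)
  have hPi : Integrable P :=
    ⟨hPc.aestronglyMeasurable, (hasFiniteIntegral_iff_ofReal
      (Eventually.of_forall fun x => (hP0 x).le)).2 (hP1.trans_lt ENNReal.one_lt_top)⟩
  have hP2 : ∫ x, P x ≤ 1 := by
    rw [integral_eq_lintegral_of_nonneg_ae (Eventually.of_forall fun x => (hP0 x).le)
      hPc.aestronglyMeasurable, ← ENNReal.toReal_one]
    exact ENNReal.toReal_mono ENNReal.one_ne_top hP1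
  set p := fun x => Real.exp (-(gauge K x ^ 2) / 2) / Z
  have hpt : ∀ x, (∑ v ∈ s, c v * (p x * Real.log (f v ⟪v, x⟫))) +
      (p x * gauge K x ^ 2 / 2 + p x * Real.log Z) ≤ P x - p x := by
    intro x
    have hp : 0 < p x := div_pos (Real.exp_pos _) hZ0
    have h := mul_le_mul_of_nonneg_left
      (Real.log_le_sub_one_of_pos (div_pos (hP0 x) hp)) hp.le
    rw [mul_sub, mul_one, mul_div_cancel₀ _ hp.ne'] at h
    refine le_trans (le_of_eq ?_) h
    rw [Real.log_div (hP0 x).ne' hp.ne', Real.log_div (Real.exp_pos _).ne' hZ0.ne', Real.log_exp,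
      Real.log_prod fun v hv => (Real.rpow_pos_of_pos ((hf v hv).2.1 _) _).ne', mul_sub,
      Finset.mul_sum]
    rw [Finset.sum_congr rfl fun v hv => show p x * Real.log (f v ⟪v, x⟫ ^ c v) =
      c v * (p x * Real.log (f v ⟪v, x⟫)) by rw [Real.log_rpow ((hf v hv).2.1 _)]; ring]
    ring
  have hl : ∀ v ∈ s, Integrable fun x => c v * (p x * Real.log (f v ⟪v, x⟫)) := fun v hv => by
    refine (((hlog v hv).div_const Z).const_mul (c v)).congr (Eventually.of_forall fun x => ?_)
    simp only [p]
    ring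
  have ip : Integrable p := h1.div_const Z
  have ig : Integrable fun x => p x * gauge K x ^ 2 / 2 :=
    ((h3.div_const Z).div_const 2).congr (Eventually.of_forall fun x => by simp only [p]; ring)
  have hsum := integrable_finsetSum s hl
  have iL : Integrable fun x => (∑ v ∈ s, c v * (p x * Real.log (f v ⟪v, x⟫))) +
      (p x * gauge K x ^ 2 / 2 + p x * Real.log Z) := hsum.add (ig.add (ip.mul_const _))
  have iR : Integrable fun x => P x - p x := hPi.sub ip
  have h := integral_mono iL iR hpt
  rw [integral_sub hPi ip] at h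
  rw [integral_add hsum (show Integrable fun x => p x * gauge K x ^ 2 / 2 + p x * Real.log Z from
      ig.add (ip.mul_const _)), integral_add ig (ip.mul_const _),
    integral_finsetSum s hl, integral_mul_const] at h
  have e1 : ∫ x, p x = 1 := by rw [integral_div, h2, div_self hZ0.ne']
  have e2 : ∫ x, p x * gauge K x ^ 2 / 2 = (n : ℝ) / 2 := by
    rw [show (fun x => p x * gauge K x ^ 2 / 2) =
      fun x => Real.exp (-(gauge K x ^ 2) / 2) * gauge K x ^ 2 / Z / 2 from
      funext fun x => by simp only [p]; ring, integral_div, integral_div, h4]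
    rw [← hZ]
    field_simp
    rfl
  have e3 : ∑ v ∈ s, ∫ x, c v * (p x * Real.log (f v ⟪v, x⟫)) = -∑ v ∈ s, c v *
      (-(∫ x, Real.exp (-(gauge K x ^ 2) / 2) * Real.log (f v ⟪v, x⟫)) / Z) := by
    rw [← Finset.sum_neg_distrib]
    refine Finset.sum_congr rfl fun v _ => ?_
    rw [integral_const_mul, neg_div, mul_neg, neg_neg, ← integral_div]
    congr 1
    exact integral_congr_ae (Eventually.of_forall fun x => by simp only [p]; ring)
  have e4 : Real.log Z = Real.log (volume.real K / kappa n) + (n : ℝ) / 2 * Real.log (2 * Real.pi) := by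
    have h2π : (0 : ℝ) < 2 * Real.pi := by positivity
    rw [hZ, liftMass, Real.log_mul (div_pos hK.volume_pos (kappa_pos _)).ne'
      (Real.rpow_pos_of_pos h2π _).ne', Real.log_rpow h2π]
  rw [e1, e2, e3, one_mul, e4] at h
  rw [Real.log_mul (by positivity : (2 : ℝ) * Real.pi ≠ 0) (Real.exp_pos 1).ne', Real.log_exp]
  linarith

end Body

end Vale.Agent.P237.Petty
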