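import Vale.Agent.P237.Petty.Threshold
import Vale.Agent.P237.Asym.Main

/-!
# P237: what follows from the steps in all large dimensions

If the step holds in every dimension above `N`, then a bound `c * cPetty` in dimension `N`
propagates upward with the same `c`, the value of the ball is attained only at ellipsoids once it
is a bound, and the bound of the planar induction makes `c` an absolute positive constant.
-/

namespace Vale.Agent.P237.Petty

open MeasureTheory Set Module
open scoped RealInnerProductSpace Pointwise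

/-- The bound `c * cPetty n` for every body of dimension `n`. -/
def RatioBound (n : ℕ) (c : ℝ) : Prop :=
  ∀ (E : Type) [NormedAddCommGroup E] [InnerProductSpace ℝ E] [FiniteDimensional ℝ E]
    [MeasurableSpace E] [BorelSpace E], finrank ℝ E = n → ∀ K : Set E, Body K →
      c * cPetty n ≤ ratio K

theorem stepValue_mul (k : ℕ) (c R : ℝ) : stepValue k (c * R) = c * stepValue k R := by
  rw [stepValue, stepValue, mul_assoc, mul_div_assoc]

/-- The hypothesis of a step from a bound one dimension below. -/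
theorem hyperplanes_of_ratioBound {m : ℕ} {c : ℝ} (h : RatioBound (m + 2) c) {E : Type}
    [NormedAddCommGroup E] [InnerProductSpace ℝ E] [FiniteDimensional ℝ E] [MeasurableSpace E]
    [BorelSpace E] (hfin : finrank ℝ E = m + 3) (v : E) (hv : ‖v‖ = 1) (L : Set (ℝ ∙ v)ᗮ)
    (hL : IsCompact L) (hLc : Convex ℝ L) :
    c * cPetty (m + 2) * volume.real L ^ (m + 1) ≤ volume.real (projBody L) := by
  have : Fact (finrank ℝ E = (m + 2) + 1) := ⟨hfin⟩
  have hF : finrank ℝ (ℝ ∙ v)ᗮ = m + 2 :=
    Submodule.finrank_orthogonal_span_singleton (norm_ne_zero_iff.1 (by simp [hv]))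
  exact hyperplane_hyp (fun L hL => h (ℝ ∙ v)ᗮ hF L hL) hF L hL hLc

/-- A step carries a bound up by one dimension. -/
theorem RatioBound.step {m : ℕ} {c : ℝ} (hc : 0 < c) (h : RatioBound (m + 2) c)
    (hstep : StepHolds.{0} (m + 1)) : RatioBound (m + 3) c := by
  intro E _ _ _ _ _ hfin K hK
  obtain ⟨K₀, hK₀, hs₀, hmin⟩ := exists_min (E := E) (by omega)
  have h0 := (hstep hfin _ (mul_pos hc (cPetty_pos _)) (hyperplanes_of_ratioBound h hfin) K₀ hK₀
    hs₀ (hmin _ (body_projBody hK₀) (neg_projBody K₀))).1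
  rw [stepValue_mul, stepValue_cPetty] at h0
  exact h0.trans ((hmin _ (body_projBody hK) (neg_projBody K)).trans
    (ratio_projBody_le (by omega) hK))

/-- The steps above `N` carry a bound of dimension `N` to every larger dimension. -/
theorem RatioBound.of_steps {N : ℕ} (hN : 2 ≤ N) {c : ℝ} (hc : 0 < c) (h : RatioBound N c)
    (hstep : ∀ p, N ≤ p + 1 → StepHolds.{0} p) : ∀ n, N ≤ n → RatioBound n c := by
  intro n hn
  induction n, hn using Nat.le_induction with
  | base => exact h
  | succ n hn ih =>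
    obtain ⟨m, rfl⟩ : ∃ m, n = m + 2 := ⟨n - 2, by omega⟩
    exact ih.step hc (hstep (m + 1) hn)

/-- Every dimension has some positive constant. -/
theorem exists_ratioBound {n : ℕ} (hn : 2 ≤ n) : ∃ c : ℝ, 0 < c ∧ RatioBound n c := by
  refine ⟨Asym.prodBound n / cPetty n, div_pos ?_ (cPetty_pos n), fun E _ _ _ _ _ hfin K hK => ?_⟩
  · exact mul_pos (by norm_num)
      (Finset.prod_pos fun k _ => Real.rpow_pos_of_pos (kappa_pos k) _)
  · rw [div_mul_cancel₀ _ (cPetty_pos n).ne', ratio, le_div_iff₀ (pow_pos hK.volume_pos _), hfin]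
    exact Asym.bound_prod n hn E hfin K hK.compact hK.convex

/-- Petty's inequality holds up to one absolute constant. -/
theorem exists_constant {N : ℕ} (hN : 2 ≤ N) (hstep : ∀ p, N ≤ p + 1 → StepHolds.{0} p) :
    ∃ c : ℝ, 0 < c ∧ ∀ n, 2 ≤ n → RatioBound n c := by
  choose! d hd hdb using fun k (hk : 2 ≤ k) => exists_ratioBound hk
  have hne : (Finset.Icc 2 N).Nonempty := ⟨2, Finset.mem_Icc.2 ⟨le_rfl, hN⟩⟩
  refine ⟨(Finset.Icc 2 N).inf' hne d, (Finset.lt_inf'_iff hne).2 fun k hk =>
    hd k (Finset.mem_Icc.1 hk).1, fun n hn => ?_⟩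
  have hle : ∀ k, 2 ≤ k → k ≤ N → RatioBound k ((Finset.Icc 2 N).inf' hne d) :=
    fun k h1 h2 E _ _ _ _ _ hfin K hK => le_trans (mul_le_mul_of_nonneg_right
      (Finset.inf'_le d (Finset.mem_Icc.2 ⟨h1, h2⟩)) (cPetty_pos k).le) (hdb k h1 E hfin K hK)
  rcases le_total n N with h | h
  · exact hle n hn h
  · exact (hle N hN le_rfl).of_steps hN ((Finset.lt_inf'_iff hne).2 fun k hk =>
      hd k (Finset.mem_Icc.1 hk).1) hstep n h

/-- Above `N` the inequality in dimension `N` gives the inequality with its equality cases. -/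
theorem petty_above {N : ℕ} (hN : 2 ≤ N) (hstep : ∀ p, N ≤ p + 1 → StepHolds.{0} p)
    (hbase : RatioBound N 1) {n : ℕ} (hn : N < n) {E : Type} [NormedAddCommGroup E]
    [InnerProductSpace ℝ E] [FiniteDimensional ℝ E] [MeasurableSpace E] [BorelSpace E]
    (hfin : finrank ℝ E = n) {K : Set E} (hK : Body K) :
    cPetty n * volume.real K ^ (n - 1) ≤ volume.real (projBody K) ∧
      (volume.real (projBody K) = cPetty n * volume.real K ^ (n - 1) ↔
        ∃ (T : E ≃L[ℝ] E) (a : E), K = (fun x => a + x) '' (T '' Metric.closedBall 0 1)) := by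
  obtain ⟨m, rfl⟩ : ∃ m, n = m + 3 := ⟨n - 3, by omega⟩
  have hall := hbase.of_steps hN one_pos hstep
  have hle : ∀ L : Set E, Body L → cPetty (m + 3) ≤ ratio L := fun L hL => by
    have := hall (m + 3) (by omega) E hfin L hL
    rwa [one_mul] at this
  have hr : ratio K = volume.real (projBody K) / volume.real K ^ (m + 3 - 1) := by rw [ratio, hfin]
  have hV : 0 < volume.real K ^ (m + 3 - 1) := pow_pos hK.volume_pos _
  refine ⟨(le_div_iff₀ hV).1 (hr ▸ hle K hK), fun he => ?_, ?_⟩
  · have : Nontrivial E := Module.nontrivial_of_finrank_eq_succ hfin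
    have heq : ratio K ≤ cPetty (m + 3) := by
      rw [hr, he, mul_div_assoc, div_self hV.ne', mul_one]
    obtain ⟨a, ha⟩ := fixed_translate (by omega) hK (heq.trans (hle _ (body_projBody hK)))
    set K₁ := (fun x => a + x) '' K with hK₁
    have hK₁b : Body K₁ := hK.translate a
    have hr₁ : ratio K₁ = ratio K := ratio_translate a K
    have H := hyperplanes_of_ratioBound (hall (m + 2) (by omega)) hfin
    obtain ⟨-, h2⟩ := hstep (m + 1) (by omega) hfin _ (mul_pos one_pos (cPetty_pos _)) H K₁ hK₁b ha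
      ((hr₁.le.trans heq).trans (hle _ (body_projBody hK₁b)))
    obtain ⟨T, hT, hball, hvol⟩ := h2 (by rw [one_mul, stepValue_cPetty, hr₁]; exact heq)
    have hball' : T '' K₁ = Metric.closedBall 0 1 := by
      refine eq_ball hT hball (le_of_eq ?_)
      rw [hvol, circ_eq, hfin, mul_div_cancel₀ _ (kappa_pos _).ne']
    refine ⟨T.symm, -a, ?_⟩
    rw [← hball', image_image, hK₁, image_image, image_image]
    simp
  · rintro ⟨T, a, rfl⟩
    have h1 := ratio_ellipsoid (by omega) T a
    rw [hr, hfin, div_eq_iff hV.ne'] at h1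
    exact h1

end Vale.Agent.P237.Petty
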