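import Vale.Agent.P237.Petty.Eventual

/-!
# P237: the consequences of the steps in coordinates
-/

namespace Vale.Agent.P237.Petty

open MeasureTheory Set Module

open scoped RealInnerProductSpace

/-- Isometries commute with shadows. -/
theorem area_isometry {E F : Type} [NormedAddCommGroup E] [InnerProductSpace ℝ E]
    [FiniteDimensional ℝ E] [MeasurableSpace E] [BorelSpace E] [NormedAddCommGroup F]
    [InnerProductSpace ℝ F] [FiniteDimensional ℝ F] [MeasurableSpace F] [BorelSpace F]
    (e : E ≃ₗᵢ[ℝ] F) (K : Set E) (u : E) : area (e '' K) (e u) = area K u := by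
  have hperp : ∀ y : E, y ∈ (ℝ ∙ u)ᗮ ↔ e y ∈ (ℝ ∙ e u)ᗮ := fun y => by
    simp only [Submodule.mem_orthogonal_singleton_iff_inner_right, e.inner_map_map]
  let G : (ℝ ∙ u)ᗮ ≃ₗᵢ[ℝ] (ℝ ∙ e u)ᗮ :=
    { toFun := fun y => ⟨e y, (hperp y).1 y.2⟩
      invFun := fun y => ⟨e.symm y, (hperp _).2 (by simp)⟩
      left_inv := fun y => by simp
      right_inv := fun y => by simp
      map_add' := fun y w => by ext; simp
      map_smul' := fun c y => by ext; simp
      norm_map' := fun y => by simp }
  have hG : ∀ x, (ℝ ∙ e u)ᗮ.orthogonalProjectionOnto (e x) =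
      G ((ℝ ∙ u)ᗮ.orthogonalProjectionOnto x) := fun x => by
    ext
    change (ℝ ∙ e u)ᗮ.starProjection (e x) = e ((ℝ ∙ u)ᗮ.starProjection x)
    refine Submodule.eq_starProjection_of_mem_of_inner_eq_zero
      ((hperp _).1 (Submodule.starProjection_apply_mem _ x)) fun w hw => ?_
    obtain ⟨w, rfl⟩ := e.surjective w
    rw [← map_sub, e.inner_map_map]
    exact Submodule.starProjection_inner_eq_zero x w ((hperp w).2 hw)
  rw [area, area, image_image, funext hG, ← image_image (g := G)
    (f := fun x => (ℝ ∙ u)ᗮ.orthogonalProjectionOnto x), G.image_eq_preimage_symm,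
    measureReal_def, measureReal_def]
  congr 1
  exact G.symm.measurePreserving.measure_preimage_emb G.symm.toMeasurableEquiv.measurableEmbedding _

/-- The ratio does not change under isometries. -/
theorem ratio_isometry {E F : Type} [NormedAddCommGroup E] [InnerProductSpace ℝ E]
    [FiniteDimensional ℝ E] [MeasurableSpace E] [BorelSpace E] [NormedAddCommGroup F]
    [InnerProductSpace ℝ F] [FiniteDimensional ℝ F] [MeasurableSpace F] [BorelSpace F]
    (e : E ≃ₗᵢ[ℝ] F) (K : Set E) : ratio (e '' K) = ratio K := by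
  have hvol : ∀ A : Set E, volume.real (e '' A) = volume.real A := fun A => by
    rw [e.image_eq_preimage_symm, measureReal_def, measureReal_def]
    congr 1
    exact e.symm.measurePreserving.measure_preimage_emb
      e.symm.toMeasurableEquiv.measurableEmbedding _
  have hproj : projBody (e '' K) = e '' projBody K := by
    ext y
    obtain ⟨y, rfl⟩ := e.surjective y
    rw [e.injective.mem_set_image]
    constructor
    · intro h u hu
      have := h (e u) (by simpa using hu)
      rwa [e.inner_map_map, area_isometry] at this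
    · intro h v hv
      obtain ⟨v, rfl⟩ := e.surjective v
      rw [e.inner_map_map, area_isometry]
      exact h v (by simpa using hv)
  rw [ratio, ratio, hproj, hvol, hvol, e.toLinearEquiv.finrank_eq]

/-- The constant and the propagation, for bodies in `ℝⁿ`. -/
theorem eventual_of_steps {N : ℕ} (hN : 2 ≤ N) (hstep : ∀ p, N ≤ p + 1 → StepHolds.{0} p) :
    (∃ c : ℝ, 0 < c ∧ ∀ n : ℕ, 3 ≤ n → ∀ K : Set (EuclideanSpace ℝ (Fin n)),
      IsCompact K → Convex ℝ K → (interior K).Nonempty →
      c * (volume.real (Metric.closedBall (0 : EuclideanSpace ℝ (Fin (n - 1))) 1) ^ n /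
          volume.real (Metric.closedBall (0 : EuclideanSpace ℝ (Fin n)) 1) ^ (n - 2)) *
        volume.real K ^ (n - 1) ≤ volume.real (projBody K)) ∧
    (∃ N₀ : ℕ, 2 ≤ N₀ ∧
      ((∀ K : Set (EuclideanSpace ℝ (Fin N₀)), IsCompact K → Convex ℝ K → (interior K).Nonempty →
        volume.real (Metric.closedBall (0 : EuclideanSpace ℝ (Fin (N₀ - 1))) 1) ^ N₀ /
            volume.real (Metric.closedBall (0 : EuclideanSpace ℝ (Fin N₀)) 1) ^ (N₀ - 2) *
          volume.real K ^ (N₀ - 1) ≤ volume.real (projBody K)) →
      ∀ n : ℕ, N₀ < n → ∀ K : Set (EuclideanSpace ℝ (Fin n)),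
        IsCompact K → Convex ℝ K → (interior K).Nonempty →
        volume.real (Metric.closedBall (0 : EuclideanSpace ℝ (Fin (n - 1))) 1) ^ n /
            volume.real (Metric.closedBall (0 : EuclideanSpace ℝ (Fin n)) 1) ^ (n - 2) *
          volume.real K ^ (n - 1) ≤ volume.real (projBody K) ∧
        (volume.real (projBody K) =
            volume.real (Metric.closedBall (0 : EuclideanSpace ℝ (Fin (n - 1))) 1) ^ n /
              volume.real (Metric.closedBall (0 : EuclideanSpace ℝ (Fin n)) 1) ^ (n - 2) *
            volume.real K ^ (n - 1) ↔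
          ∃ (T : EuclideanSpace ℝ (Fin n) ≃L[ℝ] EuclideanSpace ℝ (Fin n))
            (a : EuclideanSpace ℝ (Fin n)),
            K = (fun x => a + x) '' (T '' Metric.closedBall 0 1)))) := by
  refine ⟨?_, ⟨N, hN, fun hbase n hn K hK hKc hne => ?_⟩⟩
  · obtain ⟨c, hc, h⟩ := exists_constant hN hstep
    refine ⟨c, hc, fun n hn K hK hKc hne => ?_⟩
    have hB : Body K := ⟨hK, hKc, hne⟩
    have h1 := mul_le_of_le_ratio hB (h n (by omega) (EuclideanSpace ℝ (Fin n)) (by simp) K hB)
    simpa [cPetty, kappa] using h1
  · refine petty_above hN hstep (fun E _ _ _ _ _ hfin L hL => ?_) hn (by simp) ⟨hK, hKc, hne⟩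
    set e := ((stdOrthonormalBasis ℝ E).reindex (finCongr hfin)).repr with he
    have hL' : Body (e '' L) := ⟨hL.compact.image e.continuous,
      hL.convex.linear_image e.toLinearEquiv.toLinearMap, by
        rw [← e.coe_toHomeomorph, ← e.toHomeomorph.image_interior]
        exact hL.interior_nonempty.image _⟩
    rw [one_mul]
    have h1 := hbase (e '' L) hL'.compact hL'.convex hL'.interior_nonempty
    have h2 : cPetty N ≤ ratio (e '' L) := by
      rw [ratio, le_div_iff₀ (pow_pos hL'.volume_pos _)]
      simpa [cPetty, kappa] using h1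
    refine h2.trans (le_of_eq ?_)
    exact ratio_isometry e L

end Vale.Agent.P237.Petty
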