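import Vale.Agent.P237.Petty.EventualForm
import Vale.Agent.P237.Petty.Tail.Assembly

/-!
# P237: the final form of the consequences in large dimension

In coordinates, with every quantity spelled out: an absolute constant in Petty's inequality, and
for all large `n` every constant valid for the symmetric bodies of dimension `n` is valid for all bodies of each
larger dimension, with
the ellipsoids as the only cases of equality for the sharp constant. The one hypothesis is either
the linear inequality in all large dimensions or the sign of the integrand outside the centre.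
-/

namespace Vale.Agent.P237.Petty

open MeasureTheory Set Module
open scoped RealInnerProductSpace

/-- The two consequences of the steps above `N`, in coordinates. -/
theorem eventual_main_of_steps {N : ℕ} (hN : 2 ≤ N)
    (hstep : ∀ p, N ≤ p + 1 → StepHolds.{0} p) :
    (∃ c : ℝ, 0 < c ∧ ∀ n : ℕ, 3 ≤ n → ∀ K : Set (EuclideanSpace ℝ (Fin n)),
      IsCompact K → Convex ℝ K → (interior K).Nonempty →
      c * (volume.real (Metric.closedBall (0 : EuclideanSpace ℝ (Fin (n - 1))) 1) ^ n /
          volume.real (Metric.closedBall (0 : EuclideanSpace ℝ (Fin n)) 1) ^ (n - 2)) *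
        volume.real K ^ (n - 1) ≤ volume.real (projBody K)) ∧
    (∃ N₀ : ℕ, ∀ n : ℕ, N₀ ≤ n → ∀ c : ℝ, 0 < c →
      (∀ K : Set (EuclideanSpace ℝ (Fin n)), IsCompact K → Convex ℝ K → (interior K).Nonempty →
        -K = K →
        c * (volume.real (Metric.closedBall (0 : EuclideanSpace ℝ (Fin (n - 1))) 1) ^ n /
            volume.real (Metric.closedBall (0 : EuclideanSpace ℝ (Fin n)) 1) ^ (n - 2)) *
          volume.real K ^ (n - 1) ≤ volume.real (projBody K)) →
      ∀ l : ℕ, n < l → ∀ K : Set (EuclideanSpace ℝ (Fin l)),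
        IsCompact K → Convex ℝ K → (interior K).Nonempty →
        c * (volume.real (Metric.closedBall (0 : EuclideanSpace ℝ (Fin (l - 1))) 1) ^ l /
            volume.real (Metric.closedBall (0 : EuclideanSpace ℝ (Fin l)) 1) ^ (l - 2)) *
          volume.real K ^ (l - 1) ≤ volume.real (projBody K) ∧
        (c = 1 →
          (volume.real (projBody K) =
              volume.real (Metric.closedBall (0 : EuclideanSpace ℝ (Fin (l - 1))) 1) ^ l /
                volume.real (Metric.closedBall (0 : EuclideanSpace ℝ (Fin l)) 1) ^ (l - 2) *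
              volume.real K ^ (l - 1) ↔
            ∃ (T : EuclideanSpace ℝ (Fin l) ≃L[ℝ] EuclideanSpace ℝ (Fin l))
              (a : EuclideanSpace ℝ (Fin l)),
              K = (fun x => a + x) '' (T '' Metric.closedBall 0 1)))) := by
  refine ⟨(eventual_of_steps hN hstep).1, N, fun n hn c hc hbase l hl K hK hKc hne => ?_⟩
  have hB : Body K := ⟨hK, hKc, hne⟩
  have hrb : RatioBound n c := by
    intro E _ _ _ _ _ hfin L hL
    set e := ((stdOrthonormalBasis ℝ E).reindex (finCongr hfin)).repr with he
    have hL' : Body (e '' L) := ⟨hL.compact.image e.continuous,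
      hL.convex.linear_image e.toLinearEquiv.toLinearMap, by
        rw [← e.coe_toHomeomorph, ← e.toHomeomorph.image_interior]
        exact hL.interior_nonempty.image _⟩
    have hP : Body (projBody (e '' L)) := body_projBody hL'
    have h1 := hbase _ hP.compact hP.convex hP.interior_nonempty (neg_projBody _)
    have h2 : c * cPetty n ≤ ratio (projBody (e '' L)) := by
      rw [ratio, le_div_iff₀ (pow_pos hP.volume_pos _)]
      simpa [cPetty, kappa] using h1
    have h3 : ratio (projBody (e '' L)) ≤ ratio (e '' L) :=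
      ratio_projBody_le (by simp; omega) hL'
    exact h2.trans (h3.trans (le_of_eq (ratio_isometry e L)))
  have hsteps : ∀ p, n ≤ p + 1 → StepHolds.{0} p := fun p hp => hstep p (hn.trans hp)
  refine ⟨?_, fun h1 => ?_⟩
  · have h := mul_le_of_le_ratio hB
      ((hrb.of_steps (hN.trans hn) hc hsteps) l hl.le (EuclideanSpace ℝ (Fin l)) (by simp) K hB)
    simpa [cPetty, kappa] using h
  · subst h1
    exact (petty_above (hN.trans hn) hsteps hrb hl
      (E := EuclideanSpace ℝ (Fin l)) (by simp) hB).2

/-- The same from the linear inequality in all large dimensions. -/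
theorem eventual_main_of_linear
    (hL : ∃ N : ℕ, ∀ p, N ≤ p → ∃ mu nu s₀ : ℝ, 0 ≤ mu ∧ 0 ≤ nu ∧ 0 ≤ s₀ ∧
      LinearLemma p mu nu s₀ ∧
      (circ p ^ (p + 1) / circ (p + 1) ^ p) ^ (p + 2) * s₀ ^ (p + 1) ≤ kappa (p + 2)) :
    ∃ N : ℕ, 2 ≤ N ∧ ∀ p, N ≤ p + 1 → StepHolds.{0} p := by
  obtain ⟨N, h⟩ := hL
  refine ⟨N + 2, by omega, fun p hp => ?_⟩
  obtain ⟨mu, nu, s₀, h1, h2, h3, h4, h5⟩ := h p (by omega)
  exact stepHolds_of_linear h1 h2 h3 h4 h5

end Vale.Agent.P237.Petty
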