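import Vale.Agent.P237.Petty.EventualMain

/-!
# P237: the consequences in large dimension, stated over named definitions
-/

namespace Vale.Agent.P237.Petty

open MeasureTheory Set

/-- A translate of the image of the unit ball under an invertible linear map. -/
def IsEllipsoidSet {n : ℕ} (K : Set (EuclideanSpace ℝ (Fin n))) : Prop :=
  ∃ (T : EuclideanSpace ℝ (Fin n) ≃L[ℝ] EuclideanSpace ℝ (Fin n)) (a : EuclideanSpace ℝ (Fin n)),
    K = (fun x => a + x) '' (T '' Metric.closedBall 0 1)

/-- The two consequences of the steps above `N`, over `cPetty`. -/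
theorem eventual_short_of_steps {N : ℕ} (hN : 2 ≤ N)
    (hstep : ∀ p, N ≤ p + 1 → StepHolds.{0} p) :
    (∃ c : ℝ, 0 < c ∧ ∀ n ≥ 3, ∀ K : Set (EuclideanSpace ℝ (Fin n)), Body K →
      c * cPetty n * volume.real K ^ (n - 1) ≤ volume.real (projBody K)) ∧
    (∃ N₀ : ℕ, ∀ n ≥ N₀, ∀ c > (0 : ℝ),
      (∀ K : Set (EuclideanSpace ℝ (Fin n)), Body K → -K = K →
        c * cPetty n * volume.real K ^ (n - 1) ≤ volume.real (projBody K)) →
      ∀ l > n, ∀ K : Set (EuclideanSpace ℝ (Fin l)), Body K →
        c * cPetty l * volume.real K ^ (l - 1) ≤ volume.real (projBody K) ∧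
        (c = 1 → (volume.real (projBody K) = cPetty l * volume.real K ^ (l - 1) ↔
          IsEllipsoidSet K))) := by
  obtain ⟨⟨c, hc, h1⟩, N₀, h2⟩ := eventual_main_of_steps hN hstep
  exact ⟨⟨c, hc, fun n hn K hK => h1 n hn K hK.compact hK.convex hK.interior_nonempty⟩, N₀,
    fun n hn c hc hb l hl K hK => h2 n hn c hc (fun L a b d e => hb L ⟨a, b, d⟩ e) l hl K
      hK.compact hK.convex hK.interior_nonempty⟩

end Vale.Agent.P237.Petty
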