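import Vale.Agent.P237.Petty.Defs
import Vale.Agent.P237.Petty.Descent
import Vale.Agent.P237.Petty.BMEquality

/-!
# Equality in `R(ΠK) ≤ R(K)`: fixed points of the squared projection body map
-/

namespace Vale.Agent.P237.Petty

open MeasureTheory Set Module
open scoped RealInnerProductSpace Pointwise
open Vale.Agent.P237.AllN

variable {E : Type*} [NormedAddCommGroup E] [InnerProductSpace ℝ E] [FiniteDimensional ℝ E]
  [MeasurableSpace E] [BorelSpace E]

theorem body_projBody {K : Set E} (hK : Body K) : Body (projBody K) :=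
  ⟨isCompact_projBody K, convex_projBody K, ⟨0, projBody_interior hK.compact hK.interior_nonempty⟩⟩

theorem neg_projBody (K : Set E) : -projBody K = projBody K := by
  have h : ∀ y ∈ projBody K, -y ∈ projBody K := fun y hy u hu => by
    rw [inner_neg_left, ← inner_neg_right, ← area_neg]
    exact hy (-u) (by rwa [norm_neg])
  refine subset_antisymm (fun y hy => ?_) fun y hy => ?_
  · have := h _ (Set.mem_neg.1 hy)
    rwa [neg_neg] at this
  · exact Set.mem_neg.2 (h y hy)

/-- The shadows are the support values of the projection body. -/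
theorem support_area [Nontrivial E] {K : Set E} (hK : Body K) {v : E} (hv : ‖v‖ = 1) :
    supp (projBody K) v = area K v := by
  obtain ⟨y, hy, hyv⟩ := exists_inner_eq_area hK.compact hK.convex hK.interior_nonempty hv
  refine le_antisymm (supp_le ⟨y, hy⟩ fun x hx => ?_) ?_
  · rw [real_inner_comm]; exact hx v hv
  · rw [← hyv, real_inner_comm]; exact le_supp (isCompact_projBody K) v hy

/-- `R(ΠK) ≤ R(K)`. -/
theorem ratio_projBody_le (hn : 2 ≤ finrank ℝ E) {K : Set E} (hK : Body K) :
    ratio (projBody K) ≤ ratio K := by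
  have : Nontrivial E := nontrivial_of_finrank_pos (R := ℝ) (by omega)
  have h := descent hK.compact hK.convex hK.interior_nonempty
  rw [ratio, ratio, div_le_div_iff₀ (pow_pos (body_projBody hK).volume_pos _)
    (pow_pos hK.volume_pos _), ← pow_succ', Nat.sub_add_cancel (by omega)]
  exact h

/-- If `R(ΠK) = R(K)` then a translate of `K` is a multiple of `Π(ΠK)`. -/
theorem fixed_eq (hn : 2 ≤ finrank ℝ E) {K : Set E} (hK : Body K)
    (h : ratio K ≤ ratio (projBody K)) :
    ∃ g : E, (volume.real K / volume.real (projBody K)) • projBody (projBody K) =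
      (fun x => g + x) '' K := by
  have : Nontrivial E := nontrivial_of_finrank_pos (R := ℝ) (by omega)
  set M := projBody (projBody K) with hM
  set W := volume.real (projBody K) with hW
  set V := volume.real K with hV
  set N := finrank ℝ E - 1 with hN
  have hNs : finrank ℝ E = N + 1 := by omega
  have hW0 : 0 < W := (body_projBody hK).volume_pos
  have hV0 : 0 < V := hK.volume_pos
  have hMb : Body M := body_projBody (body_projBody hK)
  have hrK : vroot K ^ (N + 1) = V := by rw [← hNs, vroot_pow]
  have hrM : vroot M ^ (N + 1) = volume.real M := by rw [← hNs, vroot_pow]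
  rw [ratio, ratio, ← hN, ← hM, ← hW, ← hV, div_le_div_iff₀ (pow_pos hV0 _) (pow_pos hW0 _)] at h
  have hge : W ≤ vroot K ^ N * vroot M := by
    refine le_of_pow_le_pow_left₀ (n := N + 1) (Nat.succ_ne_zero N)
      (mul_nonneg (pow_nonneg (vroot_nonneg _) _) (vroot_nonneg _)) ?_
    rw [mul_pow, ← pow_mul, mul_comm N, pow_mul, hrK, hrM, mul_comm (V ^ N)]
    rw [pow_succ']
    exact h
  set t := V / W with ht
  have ht0 : 0 < t := div_pos hV0 hW0
  have hle : vroot K ^ N * vroot M ≤ W :=
    descent_root hK.compact hK.convex hK.interior_nonempty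
  have htM : vroot (t • M) = vroot K := by
    rw [vroot_smul ht0.le, ht, div_mul_eq_mul_div, div_eq_iff hW0.ne',
      show W = vroot K ^ N * vroot M from le_antisymm hge hle, ← hrK, pow_succ']
    ring
  have hsum : vroot (K + t • M) ≤ 2 * vroot K := by
    have hg := descent_global hK.compact hK.convex hK.interior_nonempty ht0.le
    rw [← hN, ← hM, ← hW] at hg
    have e : t * W = vroot K ^ N * vroot K := by
      rw [ht, div_mul_cancel₀ _ hW0.ne', ← hrK, pow_succ]
    rw [e] at hg
    have hK0 : 0 < vroot K ^ N := by
      refine lt_of_le_of_ne (pow_nonneg (vroot_nonneg _) _) fun h0 => hV0.ne' ?_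
      rw [← hrK, pow_succ, ← h0, zero_mul]
    linarith [le_of_mul_le_mul_left hg hK0]
  have hBV : volume.real (t • M) = V := by rw [← vroot_pow (t • M), htM, hV, ← vroot_pow K]
  have hC : volume.real ((1 / 2 : ℝ) • K + (1 / 2 : ℝ) • (t • M)) ≤ V := by
    rw [← smul_add, hV, ← vroot_pow K, ← vroot_pow ((1 / 2 : ℝ) • (K + t • M))]
    refine pow_le_pow_left₀ (vroot_nonneg _) ?_ _
    rw [vroot_smul (by norm_num)]
    linarith
  exact bm_equality hn hK.compact (hMb.compact.smul t) hK.convex (hMb.convex.smul t) hV0 hBV hC

/-- A minimiser which is symmetric is a fixed point. -/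
theorem fixed_symm (hn : 2 ≤ finrank ℝ E) {K : Set E} (hK : Body K) (hs : -K = K)
    (h : ratio K ≤ ratio (projBody K)) {v : E} (hv : ‖v‖ = 1) :
    area (projBody K) v = volume.real (projBody K) / volume.real K * supp K v := by
  have : Nontrivial E := nontrivial_of_finrank_pos (R := ℝ) (by omega)
  obtain ⟨g, hg⟩ := fixed_eq hn hK h
  set t := volume.real K / volume.real (projBody K) with ht
  have ht0 : 0 < t := div_pos hK.volume_pos (body_projBody hK).volume_pos
  set M := projBody (projBody K) with hM
  have hg0 : g = 0 := by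
    obtain ⟨x, hx, hxs⟩ := exists_supp_eq hK.compact hK.nonempty g
    -- reflecting twice moves `K` by `2 g`
    have h1 : g + x ∈ t • M := hg ▸ mem_image_of_mem _ hx
    obtain ⟨m, hm, hme⟩ := h1
    have h2 : t • (-m) ∈ (fun z => g + z) '' K :=
      hg ▸ smul_mem_smul_set (by rw [hM, ← neg_projBody]; simpa using hm)
    obtain ⟨z, hz, hze⟩ := h2
    have hz' : -z ∈ K := by rw [← hs]; simpa using hz
    have e : -z = x + (2 : ℝ) • g := by
      simp only [smul_neg] at hze
      rw [show t • m = g + x from hme] at hze
      rw [two_smul]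
      linear_combination (norm := module) -(1 : ℤ) • hze
    have := le_supp hK.compact g hz'
    rw [e, inner_add_right, real_inner_smul_right, hxs] at this
    exact inner_self_eq_zero.1 (le_antisymm (by linarith) real_inner_self_nonneg)
  rw [hg0] at hg
  simp only [zero_add, image_id'] at hg
  rw [← support_area (body_projBody hK) hv, ← hM]
  have hMn : M.Nonempty := ⟨0, zero_mem_projBody _⟩
  have hMc : IsCompact M := isCompact_projBody _
  obtain ⟨y, hy, hys⟩ := exists_supp_eq hMc hMn v
  obtain ⟨x, hx, hxs⟩ := exists_supp_eq hK.compact hK.nonempty v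
  have h1 : t * supp M v ≤ supp K v := by
    rw [← hys, ← real_inner_smul_right]
    exact le_supp hK.compact v (hg ▸ smul_mem_smul_set hy)
  have h2 : supp K v ≤ t * supp M v := by
    rw [← hg] at hx
    obtain ⟨m, hm, rfl⟩ := hx
    rw [← hxs, real_inner_smul_right]
    exact mul_le_mul_of_nonneg_left (le_supp hMc v hm) ht0.le
  rw [show supp K v = t * supp M v from le_antisymm h2 h1, ← mul_assoc, ht, div_mul_div_comm,
    mul_comm (volume.real (projBody K)), div_self
      (mul_ne_zero hK.volume_pos.ne' (body_projBody hK).volume_pos.ne'), one_mul]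

/-- A minimiser has a centre of symmetry. -/
theorem fixed_translate (hn : 2 ≤ finrank ℝ E) {K : Set E} (hK : Body K)
    (h : ratio K ≤ ratio (projBody K)) :
    ∃ a : E, -((fun x => a + x) '' K) = (fun x => a + x) '' K := by
  obtain ⟨g, hg⟩ := fixed_eq hn hK h
  refine ⟨g, ?_⟩
  rw [← hg, ← smul_set_neg, neg_projBody]

end Vale.Agent.P237.Petty
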