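import Vale.Agent.P237.Petty.Sharp

/-!
# The inequality with its equality case, in volumes
-/

namespace Vale.Agent.P237.Petty

open MeasureTheory Set Module
open scoped RealInnerProductSpace Pointwise

/-- Petty's inequality with equality in every dimension covered by the profile lemmas. -/
theorem petty_upto (N : ℕ) (hlem : ∀ p, 1 ≤ p → p + 2 ≤ N → ProfileLemma p) {n : ℕ} (hn : 3 ≤ n)
    (hN : n ≤ N) {E : Type} [NormedAddCommGroup E] [InnerProductSpace ℝ E]
    [FiniteDimensional ℝ E] [MeasurableSpace E] [BorelSpace E] (hfin : finrank ℝ E = n) {K : Set E}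
    (hK : Body K) :
    cPetty n * volume.real K ^ (n - 1) ≤ volume.real (projBody K) ∧
      (volume.real (projBody K) = cPetty n * volume.real K ^ (n - 1) ↔
        ∃ (T : E ≃L[ℝ] E) (a : E), K = (fun x => a + x) '' (T '' Metric.closedBall 0 1)) := by
  have h := petty_le N hlem n (by omega) hN hfin K hK
  have hr : ratio K = volume.real (projBody K) / volume.real K ^ (n - 1) := by rw [ratio, hfin]
  have hV : 0 < volume.real K ^ (n - 1) := pow_pos hK.volume_pos _
  refine ⟨?_, fun he => petty_eq N hlem hn hN hfin hK ?_, ?_⟩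
  · rwa [hr, le_div_iff₀ hV] at h
  · rw [hr, he, mul_div_assoc, div_self hV.ne', mul_one]
  · rintro ⟨T, a, rfl⟩
    have h1 := ratio_ellipsoid (by omega) T a
    rw [hr, hfin, div_eq_iff hV.ne'] at h1
    exact h1

end Vale.Agent.P237.Petty
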