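import Vale.Agent.P237.Petty.Affine
import Vale.Agent.P237.Petty.Defs

/-!
# A symmetric body of least projection volume ratio

Affine invariance puts every symmetric body between two fixed balls, and the ratio changes little
between bodies nested up to a factor close to one.
-/

namespace Vale.Agent.P237.Petty

open MeasureTheory Set Module Filter Topology TopologicalSpace Metric Vale.Agent.P237.AllN
open scoped RealInnerProductSpace ENNReal Pointwise

variable {E : Type*} [NormedAddCommGroup E] [InnerProductSpace ℝ E] [FiniteDimensional ℝ E]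

/-- An origin symmetric convex body. -/
structure SymBody (K : Set E) : Prop where
  compact : IsCompact K
  convex : Convex ℝ K
  symm : ∀ x ∈ K, -x ∈ K
  inner : (interior K).Nonempty

omit [FiniteDimensional ℝ E] in
theorem SymBody.zero_mem {K : Set E} (h : SymBody K) : (0 : E) ∈ K := by
  obtain ⟨x, hx⟩ := h.inner.mono interior_subset
  have := h.convex hx (h.symm x hx) (by norm_num : (0 : ℝ) ≤ 1 / 2)
    (by norm_num : (0 : ℝ) ≤ 1 / 2) (by norm_num)
  simpa [← smul_add] using this

theorem SymBody.map {K : Set E} (h : SymBody K) (T : E ≃ₗ[ℝ] E) : SymBody (T '' K) := by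
  have hc : Continuous T := (T : E →ₗ[ℝ] E).continuous_of_finiteDimensional
  refine ⟨h.compact.image hc, h.convex.linear_image (T : E →ₗ[ℝ] E), ?_, ?_⟩
  · rintro _ ⟨x, hx, rfl⟩
    exact ⟨-x, h.symm x hx, map_neg T x⟩
  · refine (h.inner.image T).mono (interior_maximal (image_mono interior_subset) ?_)
    exact T.toContinuousLinearEquiv.toHomeomorph.isOpenMap _ isOpen_interior

theorem symBody_closedBall {r : ℝ} (hr : 0 < r) : SymBody (closedBall (0 : E) r) :=
  ⟨isCompact_closedBall 0 r, convex_closedBall 0 r,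
    fun x hx => by simpa [mem_closedBall_zero_iff] using hx,
    ⟨0, interior_mono ball_subset_closedBall (by rw [isOpen_ball.interior_eq]; simpa)⟩⟩

/-- Some linear image of a symmetric body lies between two fixed balls. -/
theorem exists_position [Nontrivial E] {K : Set E} (h : SymBody K) : ∃ T : E ≃ₗ[ℝ] E,
    closedBall (0 : E) (finrank ℝ E : ℝ)⁻¹ ⊆ T '' K ∧
      T '' K ⊆ closedBall (0 : E) (finrank ℝ E : ℝ) := by
  classical
  set n := finrank ℝ E
  set o := stdOrthonormalBasis ℝ E
  have hn : (0 : ℝ) < n := Nat.cast_pos.2 finrank_pos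
  set S : Set (Fin n → E) := univ.pi fun _ => K
  have hS : IsCompact S := isCompact_univ_pi fun _ => h.compact
  have hf : Continuous fun v : Fin n → E => |o.toBasis.det v| := by
    simp only [Basis.det_apply]
    refine continuous_abs.comp (Continuous.matrix_det ?_)
    refine continuous_matrix fun i j => ?_
    simp only [Basis.toMatrix_apply, OrthonormalBasis.coe_toBasis_repr_apply,
      OrthonormalBasis.repr_apply_apply]
    fun_prop
  obtain ⟨v, hv, hmax⟩ := hS.exists_isMaxOn ⟨fun _ => 0, fun _ _ => h.zero_mem⟩ hf.continuousOn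
  -- a positive determinant is attained
  obtain ⟨x₀, hx₀⟩ := h.inner
  have hpos : 0 < |o.toBasis.det v| := by
    have h0 : (0 : E) ∈ interior K := by
      have hneg : -x₀ ∈ K := h.symm _ (interior_subset hx₀)
      simpa [← smul_add] using h.convex.combo_interior_self_mem_interior hx₀ hneg
        (by norm_num : (0 : ℝ) < 1 / 2) (by norm_num : (0 : ℝ) ≤ 1 / 2) (by norm_num)
    obtain ⟨δ, hδ, hball⟩ := Metric.mem_nhds_iff.1 (isOpen_interior.mem_nhds h0)
    have hw : (fun i => (δ / 2) • o i) ∈ S := fun i _ => interior_subset (hball (by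
      rw [mem_ball_zero_iff, norm_smul, o.norm_eq_one, mul_one, Real.norm_eq_abs,
        abs_of_pos (by linarith : (0 : ℝ) < δ / 2)]
      linarith))
    refine lt_of_lt_of_le ?_ (hmax hw)
    show 0 < |o.toBasis.det fun i => (δ / 2) • o i|
    have e : (fun i => (δ / 2) • o i) = fun i => (δ / 2) • o.toBasis i := by simp
    rw [e, AlternatingMap.map_smul_univ, Basis.det_self]
    simp [hδ.ne']
  obtain ⟨hli, hsp⟩ : LinearIndependent ℝ v ∧ Submodule.span ℝ (range v) = ⊤ :=
    o.toBasis.is_basis_iff_det.2 (isUnit_iff_ne_zero.2 (abs_pos.1 hpos))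
  set B := Basis.mk hli hsp.ge with hB
  have hBv : ∀ i, B i = v i := fun i => Basis.mk_apply hli hsp.ge i
  have hcoord : ∀ x ∈ K, ∀ i, |B.repr x i| ≤ 1 := by
    intro x hx i
    have hw : Function.update v i x ∈ S := fun j _ => by
      by_cases hj : j = i
      · subst hj; simpa using hx
      · simpa [hj] using hv j (mem_univ j)
    have h1 : |o.toBasis.det (Function.update v i x)| ≤ |o.toBasis.det v| := hmax hw
    have e : o.toBasis.det (Function.update v i x) = B.repr x i * o.toBasis.det v := by
      conv_lhs => rw [← B.sum_repr x]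
      rw [AlternatingMap.map_update_sum, Finset.sum_eq_single i]
      · rw [AlternatingMap.map_update_smul, hBv, Function.update_eq_self, smul_eq_mul]
      · intro j _ hj
        rw [AlternatingMap.map_update_smul, hBv, AlternatingMap.map_update_self _ _ hj.symm,
          smul_zero]
      · simp
    rw [e, abs_mul] at h1
    exact (mul_le_iff_le_one_left hpos).1 h1
  set T : E ≃ₗ[ℝ] E := B.equiv o.toBasis (Equiv.refl _)
  have hT : ∀ i, T (v i) = o i := fun i => by simp [T, ← hBv]
  refine ⟨T, fun y hy => ?_, ?_⟩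
  · rw [mem_closedBall_zero_iff] at hy
    have hTc := (h.map T).convex
    set c : Fin n → ℝ := fun i => ⟪o i, y⟫
    have hsum : ∑ i, |c i| ≤ 1 := by
      calc ∑ i, |c i| ≤ ∑ _i : Fin n, (n : ℝ)⁻¹ := Finset.sum_le_sum fun i _ =>
            ((abs_real_inner_le_norm _ _).trans (by rw [o.norm_eq_one, one_mul])).trans hy
        _ = 1 := by simp [hn.ne']
    have hmem : ∀ i, |c i| • (if 0 ≤ c i then o i else -(o i)) = c i • o i := fun i => by
      split_ifs with hc
      · rw [abs_of_nonneg hc]
      · rw [abs_of_neg (not_le.1 hc), smul_neg, neg_smul, neg_neg]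
    have hy' : y = ∑ i, |c i| • (if 0 ≤ c i then o i else -(o i)) := by
      simp only [hmem]; exact (o.sum_repr' y).symm
    have hoi : ∀ i, (if 0 ≤ c i then o i else -(o i)) ∈ T '' K := fun i => by
      have hvi : v i ∈ K := hv i (mem_univ i)
      split_ifs
      · exact ⟨v i, hvi, hT i⟩
      · exact ⟨-v i, h.symm _ hvi, by rw [map_neg, hT]⟩
    have := hTc.sum_mem (t := (Finset.univ : Finset (Option (Fin n))))
      (w := fun a => a.elim (1 - ∑ i, |c i|) fun i => |c i|)
      (z := fun a => a.elim 0 fun i => if 0 ≤ c i then o i else -(o i))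
      (fun a _ => by cases a <;> simp [hsum]) (by simp [Fintype.sum_option])
      (fun a _ => by cases a with
        | none => exact (h.map T).zero_mem
        | some i => exact hoi i)
    rw [Fintype.sum_option] at this
    simp only [Option.elim, smul_zero, zero_add] at this
    rwa [← hy'] at this
  · rintro _ ⟨x, hx, rfl⟩
    rw [mem_closedBall_zero_iff, ← B.sum_repr x, map_sum]
    refine (norm_sum_le _ _).trans ?_
    calc ∑ i, ‖T (B.repr x i • B i)‖ ≤ ∑ _i : Fin n, (1 : ℝ) := Finset.sum_le_sum fun i _ => by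
          rw [map_smul, hBv, hT, norm_smul, o.norm_eq_one, mul_one, Real.norm_eq_abs]
          exact hcoord x hx i
      _ = n := by simp

variable [MeasurableSpace E] [BorelSpace E]

theorem ratio_nonneg (K : Set E) : 0 ≤ ratio K :=
  div_nonneg measureReal_nonneg (pow_nonneg measureReal_nonneg _)

theorem ratio_map [Nontrivial E] {K : Set E} (hK : IsCompact K) (T : E ≃ₗ[ℝ] E) :
    ratio (T '' K) = ratio K := by
  have hv : volume.real (T '' K) = |LinearMap.det (T : E →ₗ[ℝ] E)| * volume.real K := by
    rw [measureReal_def, show (T : E → E) '' K = (T : E →ₗ[ℝ] E) '' K from rfl,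
      Measure.addHaar_image_linearMap, ENNReal.toReal_mul, ENNReal.toReal_ofReal (abs_nonneg _),
      measureReal_def]
  rw [ratio, ratio, volume_projBody_map hK, hv, mul_pow,
    mul_div_mul_left _ _ (pow_ne_zero _ (abs_ne_zero.2 T.isUnit_det'.ne_zero))]

theorem volume_real_smul {c : ℝ} (hc : 0 ≤ c) (K : Set E) :
    volume.real (c • K) = c ^ finrank ℝ E * volume.real K := by
  rw [measureReal_def, Measure.addHaar_smul, ENNReal.toReal_mul,
    ENNReal.toReal_ofReal (abs_nonneg _), abs_of_nonneg (pow_nonneg hc _), ← measureReal_def]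

/-- Bodies nested up to a factor have nearly the same ratio. -/
theorem ratio_le_of_nested [Nontrivial E] {K L : Set E} (hK : IsCompact K) (hL : IsCompact L)
    (hV : 0 < volume.real K) {c : ℝ} (hc : 0 < c) (h1 : K ⊆ c • L) (h2 : L ⊆ c • K) :
    ratio K ≤ (c ^ (finrank ℝ E * (finrank ℝ E - 1))) ^ 2 * ratio L := by
  set n := finrank ℝ E with hn
  set m := n - 1
  have hP : volume.real (projBody K) ≤ c ^ (n * m) * volume.real (projBody L) := by
    refine le_trans (measureReal_mono (projBody_mono (hL.smul c) h1)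
      (isCompact_projBody _).measure_lt_top.ne) (le_of_eq ?_)
    rw [projBody_smul hL hc, volume_real_smul (pow_nonneg hc.le _), ← pow_mul, ← hn, mul_comm m n]
  have hW : volume.real L ≤ c ^ n * volume.real K := by
    rw [hn, ← volume_real_smul hc.le]
    exact measureReal_mono h2 (hK.smul c).measure_lt_top.ne
  have hVL : 0 < volume.real L := by
    have := measureReal_mono h1 (hL.smul c).measure_lt_top.ne (μ := (volume : Measure E))
    rw [volume_real_smul hc.le] at this
    exact pos_of_mul_pos_right (lt_of_lt_of_le hV this) (pow_nonneg hc.le _)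
  have hWm := pow_le_pow_left₀ measureReal_nonneg hW m
  rw [mul_pow, ← pow_mul] at hWm
  rw [ratio, ratio, ← hn, div_le_iff₀ (pow_pos hV _)]
  calc volume.real (projBody K) ≤ c ^ (n * m) * volume.real (projBody L) := hP
    _ = c ^ (n * m) * (volume.real (projBody L) / volume.real L ^ m) * volume.real L ^ m := by
        field_simp
    _ ≤ c ^ (n * m) * (volume.real (projBody L) / volume.real L ^ m) *
        (c ^ (n * m) * volume.real K ^ m) := mul_le_mul_of_nonneg_left hWm
          (mul_nonneg (pow_nonneg hc.le _) (div_nonneg measureReal_nonneg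
            (pow_nonneg measureReal_nonneg _)))
    _ = _ := by ring

/-- A symmetric body minimising the ratio among symmetric bodies. -/
theorem exists_minimiser [Nontrivial E] :
    ∃ K : Set E, SymBody K ∧ ∀ L : Set E, SymBody L → ratio K ≤ ratio L := by
  set n := finrank ℝ E
  set r : ℝ := (n : ℝ)⁻¹
  have hr : 0 < r := inv_pos.2 (Nat.cast_pos.2 finrank_pos)
  set A : Set ℝ := ratio '' {L : Set E | SymBody L}
  have hA : A.Nonempty := ⟨_, mem_image_of_mem _ (symBody_closedBall one_pos)⟩
  have hAb : BddBelow A := ⟨0, forall_mem_image.2 fun L _ => ratio_nonneg L⟩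
  obtain ⟨a, -, ha, hamem⟩ := exists_seq_tendsto_sInf hA hAb
  choose L₀ hL₀ hLa using hamem
  choose T hT₁ hT₂ using fun k => exists_position (hL₀ k)
  set L : ℕ → Compacts E := fun k => ⟨T k '' L₀ k, ((hL₀ k).map (T k)).compact⟩
  have hL : ∀ k, SymBody (L k : Set E) := fun k => (hL₀ k).map (T k)
  obtain ⟨M, hM, φ, hφ, hlim⟩ :=
    (Compacts.isCompact_subsets_of_isCompact (isCompact_closedBall (0 : E) n)).isSeqCompact
      (x := L) hT₂
  rw [EMetric.tendsto_atTop] at hlim
  have hnear : ∀ ε : ℝ, 0 < ε → ∀ᶠ k in atTop,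
      (∀ x ∈ (L (φ k) : Set E), ∃ y ∈ (M : Set E), dist x y < ε) ∧
      ∀ y ∈ (M : Set E), ∃ x ∈ (L (φ k) : Set E), dist y x < ε := by
    intro ε hε
    obtain ⟨N, hN⟩ := hlim (ENNReal.ofReal ε) (ENNReal.ofReal_pos.2 hε)
    refine eventually_atTop.2 ⟨N, fun k hk => ?_⟩
    have hd : hausdorffEDist (L (φ k) : Set E) M < ENNReal.ofReal ε := hN k hk
    have hconv : ∀ x y : E, edist x y < ENNReal.ofReal ε → dist x y < ε := fun x y h =>
      edist_lt_ofReal.1 h
    refine ⟨fun x hx => let ⟨y, hy, hxy⟩ := exists_edist_lt_of_hausdorffEDist_lt hx hd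
        ⟨y, hy, hconv _ _ hxy⟩,
      fun y hy => ?_⟩
    obtain ⟨x, hx, hxy⟩ := exists_edist_lt_of_hausdorffEDist_lt hy
      (show hausdorffEDist (M : Set E) (L (φ k) : Set E) < ENNReal.ofReal ε by
        rw [hausdorffEDist_comm]; exact hd)
    exact ⟨x, hx, hconv _ _ hxy⟩
  have hclose : ∀ x : E, (∀ ε > 0, ∃ y ∈ (M : Set E), dist x y < ε) → x ∈ (M : Set E) :=
    fun x h => M.isCompact.isClosed.closure_eq ▸ Metric.mem_closure_iff.2 h
  have hball : closedBall (0 : E) r ⊆ M := fun x hx => hclose x fun ε hε => by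
    obtain ⟨k, h1, -⟩ := (hnear ε hε).exists
    exact h1 x (hT₁ (φ k) hx)
  have hMc : Convex ℝ (M : Set E) := by
    intro x hx y hy p q hp hq hpq
    refine hclose _ fun ε hε => ?_
    obtain ⟨k, h1, h2⟩ := (hnear (ε / 2) (by linarith)).exists
    obtain ⟨x', hx', dx⟩ := h2 x hx
    obtain ⟨y', hy', dy⟩ := h2 y hy
    obtain ⟨z, hz, dz⟩ := h1 _ ((hL (φ k)).convex hx' hy' hp hq hpq)
    refine ⟨z, hz, lt_of_le_of_lt (dist_triangle _ (p • x' + q • y') _) ?_⟩
    have : dist (p • x + q • y) (p • x' + q • y') ≤ ε / 2 := by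
      refine (dist_add_add_le _ _ _ _).trans ?_
      rw [dist_smul₀, dist_smul₀, Real.norm_eq_abs, Real.norm_eq_abs, abs_of_nonneg hp,
        abs_of_nonneg hq]
      calc p * dist x x' + q * dist y y' ≤ p * (ε / 2) + q * (ε / 2) := by gcongr
        _ = ε / 2 := by rw [← add_mul, hpq, one_mul]
    linarith
  have hMs : SymBody (M : Set E) := by
    refine ⟨M.isCompact, hMc, fun x hx => hclose _ fun ε hε => ?_, ?_⟩
    · obtain ⟨k, h1, h2⟩ := (hnear (ε / 2) (by linarith)).exists
      obtain ⟨x', hx', dx⟩ := h2 x hx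
      obtain ⟨z, hz, dz⟩ := h1 _ ((hL (φ k)).symm x' hx')
      refine ⟨z, hz, lt_of_le_of_lt (dist_triangle _ (-x') _) ?_⟩
      rw [dist_neg_neg]
      linarith
    · exact (symBody_closedBall hr).inner.mono (interior_mono hball)
  refine ⟨M, hMs, fun L' hL' => ?_⟩
  have hVM : 0 < volume.real (M : Set E) := ENNReal.toReal_pos
    (Measure.measure_pos_of_nonempty_interior volume hMs.inner).ne' M.isCompact.measure_lt_top.ne
  -- nested up to a factor close to one
  have hnest : ∀ ε : ℝ, 0 < ε → ∀ᶠ k in atTop, ratio (M : Set E) ≤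
      ((1 + ε) ^ (n * (n - 1))) ^ 2 * ratio (L (φ k) : Set E) := by
    intro ε hε
    filter_upwards [hnear (ε * r) (mul_pos hε hr)] with k hk
    have key : ∀ A B : Set E, Convex ℝ B → closedBall (0 : E) r ⊆ B →
        (∀ x ∈ A, ∃ y ∈ B, dist x y < ε * r) → A ⊆ (1 + ε) • B := by
      intro A B hB hrB hAB x hx
      obtain ⟨y, hy, hxy⟩ := hAB x hx
      rw [hB.add_smul zero_le_one hε.le, one_smul]
      refine ⟨y, hy, x - y, ⟨ε⁻¹ • (x - y), hrB ?_, smul_inv_smul₀ hε.ne' _⟩, by simp⟩
      rw [mem_closedBall_zero_iff, norm_smul, ← dist_eq_norm, Real.norm_eq_abs,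
        abs_of_pos (inv_pos.2 hε), inv_mul_le_iff₀ hε]
      exact hxy.le
    exact ratio_le_of_nested M.isCompact (L (φ k)).isCompact hVM (by linarith)
      (key _ _ (hL (φ k)).convex (hT₁ (φ k)) hk.2) (key _ _ hMc hball hk.1)
  have hlimR : Tendsto (fun k => ratio (L (φ k) : Set E)) atTop (𝓝 (sInf A)) := by
    refine (ha.comp hφ.tendsto_atTop).congr fun k => ?_
    simp only [Function.comp_apply, L, Compacts.coe_mk, ratio_map (hL₀ (φ k)).compact, hLa]
  have hle : ∀ ε : ℝ, 0 < ε → ratio (M : Set E) ≤ ((1 + ε) ^ (n * (n - 1))) ^ 2 * sInf A :=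
    fun ε hε => ge_of_tendsto (hlimR.const_mul _) (hnest ε hε)
  have hle' : ratio (M : Set E) ≤ sInf A := by
    have hc : Tendsto (fun ε : ℝ => ((1 + ε) ^ (n * (n - 1))) ^ 2 * sInf A) (𝓝[>] 0)
        (𝓝 (sInf A)) := by
      refine tendsto_nhdsWithin_of_tendsto_nhds ?_
      have h : Continuous fun ε : ℝ => ((1 + ε) ^ (n * (n - 1))) ^ 2 * sInf A := by fun_prop
      simpa using h.tendsto 0
    exact ge_of_tendsto hc (eventually_nhdsWithin_of_forall hle)
  exact hle'.trans (csInf_le hAb (mem_image_of_mem _ hL'))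

/-- The projection body of a symmetric body is a symmetric body. -/
theorem symBody_projBody {K : Set E} (h : SymBody K) : SymBody (projBody K) := by
  refine ⟨isCompact_projBody K, convex_projBody K, fun x hx u hu => ?_, ?_⟩
  · rw [inner_neg_left]
    exact (neg_le_abs _).trans (abs_inner_le_area hx hu)
  · obtain ⟨R, hR0, hR⟩ : ∃ R, 0 < R ∧ K ⊆ closedBall (0 : E) R := by
      obtain ⟨R, hR⟩ := h.compact.isBounded.subset_closedBall 0
      exact ⟨max R 1, by positivity, hR.trans (closedBall_subset_closedBall (le_max_left _ _))⟩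
    have hV : 0 < volume.real K := ENNReal.toReal_pos
      (Measure.measure_pos_of_nonempty_interior volume h.inner).ne' h.compact.measure_lt_top.ne
    refine (symBody_closedBall (div_pos hV (by linarith : (0 : ℝ) < 2 * R))).inner.mono
      (interior_mono fun x hx u hu => ?_)
    refine ((real_inner_le_norm _ _).trans_eq (by rw [hu, mul_one])).trans
      ((mem_closedBall_zero_iff.1 hx).trans ?_)
    rw [div_le_iff₀ (by linarith)]
    have hb := volume_slab_le hu h.compact (α := -R) (β := R) fun y hy => by
      have h2 : |⟪u, y⟫| ≤ R := (abs_real_inner_le_norm u y).trans (by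
        rw [hu, one_mul]; exact mem_closedBall_zero_iff.1 (hR hy))
      exact abs_le.1 h2
    have h3 := ENNReal.toReal_mono (ENNReal.mul_ne_top ENNReal.ofReal_ne_top
      (h.compact.image (ContinuousLinearMap.continuous _)).measure_lt_top.ne) hb
    rw [ENNReal.toReal_mul, ENNReal.toReal_ofReal (by linarith)] at h3
    unfold area
    rw [measureReal_def, measureReal_def]
    linarith

theorem Body.image {K : Set E} (h : Body K) (T : E ≃L[ℝ] E) : Body (T '' K) := by
  refine ⟨h.compact.image T.continuous, h.convex.linear_image (T.toLinearEquiv : E →ₗ[ℝ] E), ?_⟩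
  exact (h.interior_nonempty.image T).mono
    (interior_maximal (image_mono interior_subset) (T.toHomeomorph.isOpenMap _ isOpen_interior))

theorem Body.translate {K : Set E} (h : Body K) (a : E) : Body ((fun x => a + x) '' K) :=
  ⟨h.compact.image (continuous_const.add continuous_id), h.convex.translate a,
    (h.interior_nonempty.image _).mono (interior_maximal (image_mono interior_subset)
      (isOpenMap_add_left a _ isOpen_interior))⟩

/-- The ratio is invariant under invertible linear maps. -/
theorem ratio_image [Nontrivial E] (T : E ≃L[ℝ] E) {K : Set E} (hK : Body K) :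
    ratio (T '' K) = ratio K :=
  ratio_map hK.compact T.toLinearEquiv

theorem ratio_translate (a : E) (K : Set E) : ratio ((fun x => a + x) '' K) = ratio K := by
  have h1 : projBody ((fun x => a + x) '' K) = projBody K := by
    have ha : ∀ u : E, area ((fun x => a + x) '' K) u = area K u := fun u => by
      unfold area
      rw [image_image]
      simp only [map_add]
      rw [← image_image (g := fun y => (ℝ ∙ u)ᗮ.orthogonalProjectionOnto a + y)
        (f := (ℝ ∙ u)ᗮ.orthogonalProjectionOnto), measureReal_def, image_add_left,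
        measure_preimage_add, ← measureReal_def]
    simp only [projBody, ha]
  rw [ratio, ratio, h1, measureReal_def, measureReal_def (s := (fun x => a + x) '' K),
    image_add_left, measure_preimage_add]
  rfl

/-- A minimiser among origin symmetric bodies, stated with `Body`. -/
theorem exists_min (hn : 2 ≤ finrank ℝ E) : ∃ K : Set E, Body K ∧ -K = K ∧
    ∀ L : Set E, Body L → -L = L → ratio K ≤ ratio L := by
  have : Nontrivial E := nontrivial_of_finrank_pos (R := ℝ) (by omega)
  obtain ⟨K, hK, hmin⟩ := exists_minimiser (E := E)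
  refine ⟨K, ⟨hK.compact, hK.convex, hK.inner⟩, ?_, fun L hL hs => hmin L
    ⟨hL.compact, hL.convex, fun x hx => by rw [← hs]; simpa using hx, hL.interior_nonempty⟩⟩
  ext x
  exact ⟨fun hx => by simpa using hK.symm _ hx, fun hx => hK.symm x hx⟩

end Vale.Agent.P237.Petty
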