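import Vale.Agent.P237.Petty.Position
import Vale.Agent.P237.AllN.Layer

/-!
# P237: section profile of an isotropic body at a contact direction
-/

namespace Vale.Agent.P237.Petty

open MeasureTheory Set Module Metric
open AllN (hslice glue vroot)
open scoped RealInnerProductSpace Pointwise

set_option linter.unusedSectionVars false

variable {E : Type*} [NormedAddCommGroup E] [InnerProductSpace ℝ E] [FiniteDimensional ℝ E]
  [MeasurableSpace E] [BorelSpace E]

/-- The root of the volume of the unit disc orthogonal to `v`. -/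
noncomputable def disc (v : E) : ℝ := vroot (closedBall (0 : (ℝ ∙ v)ᗮ) 1)

/-- The radius of the disc with the volume of the section. -/
noncomputable def profile (v : E) (X : Set E) (t : ℝ) : ℝ := vroot (hslice v X t) / disc v

theorem disc_pos (v : E) [Nontrivial (ℝ ∙ v)ᗮ] : 0 < disc v :=
  Real.rpow_pos_of_pos (ENNReal.toReal_pos (measure_closedBall_pos volume _ one_pos).ne'
    measure_closedBall_lt_top.ne) _

theorem vroot_closedBall (v : E) [Nontrivial (ℝ ∙ v)ᗮ] {s : ℝ} (hs : 0 ≤ s) :
    vroot (closedBall (0 : (ℝ ∙ v)ᗮ) s) = s * disc v := by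
  rw [disc, ← AllN.vroot_smul hs, smul_unitClosedBall, Real.norm_eq_abs, abs_of_nonneg hs]

theorem profile_pow (v : E) [Nontrivial (ℝ ∙ v)ᗮ] (X : Set E) (t : ℝ) :
    volume.real (hslice v X t) =
      disc v ^ finrank ℝ (ℝ ∙ v)ᗮ * profile v X t ^ finrank ℝ (ℝ ∙ v)ᗮ := by
  rw [← mul_pow, profile, mul_div_cancel₀ _ (disc_pos v).ne', AllN.vroot_pow]

theorem norm_glue_sq {v : E} (hv : ‖v‖ = 1) (y : (ℝ ∙ v)ᗮ) (t : ℝ) :
    ‖glue v (y, t)‖ ^ 2 = ‖y‖ ^ 2 + t ^ 2 := by
  have h : ⟪(y : E), t • v⟫ = 0 := by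
    rw [real_inner_smul_right, real_inner_comm, AllN.perp_inner, mul_zero]
  rw [glue, norm_add_sq_real, h, norm_smul, hv, mul_one, Real.norm_eq_abs, sq_abs,
    Submodule.coe_norm]
  ring

theorem hslice_ball {v : E} (hv : ‖v‖ = 1) {t : ℝ} (ht : t ∈ Icc (-1 : ℝ) 1) :
    hslice v (closedBall (0 : E) 1) t = closedBall 0 √(1 - t ^ 2) := by
  have h0 : 0 ≤ 1 - t ^ 2 := by nlinarith [ht.1, ht.2]
  ext y
  show glue v (y, t) ∈ closedBall (0 : E) 1 ↔ _
  rw [mem_closedBall_zero_iff, mem_closedBall_zero_iff, Real.le_sqrt (norm_nonneg _) h0,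
    ← sq_le_sq₀ (norm_nonneg _) zero_le_one, norm_glue_sq hv, one_pow]
  constructor <;> intro h <;> linarith

theorem profile_ball {v : E} [Nontrivial (ℝ ∙ v)ᗮ] (hv : ‖v‖ = 1) {t : ℝ}
    (ht : t ∈ Icc (-1 : ℝ) 1) : profile v (closedBall (0 : E) 1) t = √(1 - t ^ 2) := by
  rw [profile, hslice_ball hv ht, vroot_closedBall v (Real.sqrt_nonneg _),
    mul_div_cancel_right₀ _ (disc_pos v).ne']

/-- Integrals over a body in a slab, by slices. -/
theorem integral_slices {v : E} (hv : ‖v‖ = 1) {X : Set E} (hX : IsCompact X)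
    (hb : ∀ x ∈ X, |⟪v, x⟫| ≤ 1) {g : E → ℝ} (hg : Continuous g) :
    IntervalIntegrable (fun t => ∫ y in hslice v X t, g (glue v (y, t))) volume (-1) 1 ∧
      ∫ x in X, g x = ∫ t in (-1)..1, ∫ y in hslice v X t, g (glue v (y, t)) := by
  have hm := AllN.measurePreserving_glue hv
  have hinj : Function.Injective (glue v) := fun p q h => by
    have h1 := congrArg (ℝ ∙ v)ᗮ.orthogonalProjectionOnto h
    have h2 := congrArg (fun z => ⟪v, z⟫) h
    rw [AllN.proj_glue, AllN.proj_glue] at h1
    simp only [AllN.inner_glue hv] at h2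
    exact Prod.ext h1 h2
  have he := (AllN.continuous_glue v).measurableEmbedding hinj
  set F := (glue v ⁻¹' X).indicator (fun p => g (glue v p))
  have hmeas : MeasurableSet (glue v ⁻¹' X) := (AllN.continuous_glue v).measurable hX.measurableSet
  have hF : Integrable F := by
    rw [integrable_indicator_iff hmeas]
    exact (hm.integrableOn_comp_preimage he).2 (hg.continuousOn.integrableOn_compact hX)
  have hsl : ∀ t, ∫ y, F (y, t) = ∫ y in hslice v X t, g (glue v (y, t)) := fun t => by
    rw [← integral_indicator (AllN.isCompact_hslice v hX t).measurableSet]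
    rfl
  rw [Measure.volume_eq_prod] at hF
  have hI := hF.integral_prod_right
  simp only [hsl] at hI
  refine ⟨hI.intervalIntegrable, ?_⟩
  rw [← hm.setIntegral_preimage_emb he, ← integral_indicator hmeas, Measure.volume_eq_prod,
    integral_prod_symm _ hF]
  refine (integral_congr_ae (Filter.Eventually.of_forall hsl)).trans ?_
  rw [intervalIntegral.integral_of_le (by norm_num), ← integral_Icc_eq_integral_Ioc,
    setIntegral_eq_integral_of_forall_compl_eq_zero]
  intro t ht
  have : hslice v X t = ∅ := eq_empty_of_forall_notMem fun y hy => ht (by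
    have := hb _ hy
    rw [show (y : E) + t • v = glue v (y, t) from rfl, AllN.inner_glue hv] at this
    exact abs_le.1 this)
  simp [this]

/-- The volume by the profile. -/
theorem volume_profile {v : E} [Nontrivial (ℝ ∙ v)ᗮ] (hv : ‖v‖ = 1) {X : Set E}
    (hX : IsCompact X) (hb : ∀ x ∈ X, |⟪v, x⟫| ≤ 1) :
    volume.real X = disc v ^ finrank ℝ (ℝ ∙ v)ᗮ *
      ∫ t in (-1)..1, profile v X t ^ finrank ℝ (ℝ ∙ v)ᗮ := by
  have h := (integral_slices hv hX hb (g := fun _ => (1 : ℝ)) continuous_const).2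
  simp only [setIntegral_const, smul_eq_mul, mul_one, profile_pow v X] at h
  rw [h, intervalIntegral.integral_const_mul]

/-- The second moment of a centred ball. -/
theorem moment_closedBall {F : Type*} [NormedAddCommGroup F] [InnerProductSpace ℝ F]
    [FiniteDimensional ℝ F] [MeasurableSpace F] [BorelSpace F] [Nontrivial F] {ρ : ℝ}
    (hρ : 0 ≤ ρ) :
    ∫ y in closedBall (0 : F) ρ, ‖y‖ ^ 2 =
      volume.real (closedBall (0 : F) 1) * (finrank ℝ F / (finrank ℝ F + 2)) *
        ρ ^ (finrank ℝ F + 2) := by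
  rw [← integral_indicator measurableSet_closedBall]
  have e : (closedBall (0 : F) ρ).indicator (fun y => ‖y‖ ^ 2) =
      fun y => (Iic ρ).indicator (fun r => r ^ 2) ‖y‖ := by
    funext y
    by_cases hy : ‖y‖ ≤ ρ <;> simp [indicator, hy]
  rw [e, integral_fun_norm_addHaar volume, measureReal_def, measureReal_def,
    Measure.addHaar_unitClosedBall_eq_addHaar_unitBall]
  obtain ⟨m, hm⟩ : ∃ m, finrank ℝ F = m + 1 := ⟨finrank ℝ F - 1, by
    have := finrank_pos (R := ℝ) (M := F); omega⟩
  rw [hm, Nat.add_sub_cancel]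
  have : (fun y : ℝ => y ^ m • (Iic ρ).indicator (fun r => r ^ 2) y) =
      (Iic ρ).indicator fun y => y ^ (m + 2) := by
    funext y
    by_cases hy : y ≤ ρ
    · simp [indicator, hy]; ring
    · simp [indicator, hy]
  rw [this, setIntegral_indicator measurableSet_Iic, Ioi_inter_Iic,
    ← intervalIntegral.integral_of_le hρ, integral_pow, zero_pow (by omega), sub_zero,
    smul_eq_mul, nsmul_eq_mul]
  push_cast
  ring

/-- Among sets of given volume the centred ball has least second moment. -/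
theorem moment_ge {v : E} [Nontrivial (ℝ ∙ v)ᗮ] {S : Set (ℝ ∙ v)ᗮ} (hS : IsCompact S) :
    disc v ^ finrank ℝ (ℝ ∙ v)ᗮ * (finrank ℝ (ℝ ∙ v)ᗮ / (finrank ℝ (ℝ ∙ v)ᗮ + 2)) *
        (vroot S / disc v) ^ (finrank ℝ (ℝ ∙ v)ᗮ + 2) ≤ ∫ y in S, ‖y‖ ^ 2 := by
  set ρ := vroot S / disc v
  have hρ : 0 ≤ ρ := div_nonneg (AllN.vroot_nonneg S) (disc_pos v).le
  set B := closedBall (0 : (ℝ ∙ v)ᗮ) ρ
  have hB : IsCompact B := isCompact_closedBall _ _
  have hvol : volume.real B = volume.real S := by
    rw [← AllN.vroot_pow B, ← AllN.vroot_pow S, vroot_closedBall v hρ,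
      div_mul_cancel₀ _ (disc_pos v).ne']
  set q := fun y : (ℝ ∙ v)ᗮ => ‖y‖ ^ 2 - ρ ^ 2
  have hint : ∀ A : Set (ℝ ∙ v)ᗮ, IsCompact A → IntegrableOn q A := fun A hA =>
    (Continuous.continuousOn (by fun_prop)).integrableOn_compact hA
  have key : ∫ y in B, q y ≤ ∫ y in S, q y := by
    rw [← integral_indicator hB.measurableSet, ← integral_indicator hS.measurableSet]
    refine integral_mono ((hint B hB).integrable_indicator hB.measurableSet)
      ((hint S hS).integrable_indicator hS.measurableSet) fun y => ?_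
    by_cases h1 : y ∈ B
    · have : q y ≤ 0 := sub_nonpos.2 (pow_le_pow_left₀ (norm_nonneg _)
        (mem_closedBall_zero_iff.1 h1) 2)
      by_cases h2 : y ∈ S <;> simp [h1, h2, this]
    · have : 0 ≤ q y := sub_nonneg.2 (pow_le_pow_left₀ hρ
        (not_le.1 fun h => h1 (mem_closedBall_zero_iff.2 h)).le 2)
      by_cases h2 : y ∈ S <;> simp [h1, h2, this]
  have hsq : ∀ A : Set (ℝ ∙ v)ᗮ, IsCompact A →
      ∫ y in A, q y = (∫ y in A, ‖y‖ ^ 2) - volume.real A * ρ ^ 2 := fun A hA => by
    rw [integral_sub ((Continuous.continuousOn (by fun_prop)).integrableOn_compact hA)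
      (integrableOn_const (C := ρ ^ 2) hA.measure_lt_top.ne), setIntegral_const, smul_eq_mul]
  rw [hsq B hB, hsq S hS, hvol, moment_closedBall hρ] at key
  rw [disc, AllN.vroot_pow]
  linarith

/-- The profile inequality of an isotropic body at a contact direction. -/
theorem profile_isotropy {v : E} [Nontrivial (ℝ ∙ v)ᗮ] (hv : ‖v‖ = 1) {X : Set E}
    (hX : IsCompact X) (hiso : Isotropic X) (hb : ∀ x ∈ X, |⟪v, x⟫| ≤ 1) {m : ℕ}
    (hm : finrank ℝ (ℝ ∙ v)ᗮ = m)
    (hi : IntervalIntegrable (fun t => profile v X t ^ (m + 2)) volume (-1) 1) :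
    ∫ t in (-1)..1, profile v X t ^ (m + 2) ≤
      ((m : ℝ) + 2) * ∫ t in (-1)..1, t ^ 2 * profile v X t ^ m := by
  have hn : finrank ℝ E = m + 1 := by
    have := (ℝ ∙ v).finrank_add_finrank_orthogonal
    rw [finrank_span_singleton (norm_ne_zero_iff.1 (by simp [hv])), hm] at this
    omega
  obtain ⟨hia, hA⟩ := integral_slices hv hX hb (g := fun x => ‖x‖ ^ 2) (by fun_prop)
  obtain ⟨hib, hB⟩ := integral_slices hv hX hb (g := fun x => ⟪v, x⟫ ^ 2) (by fun_prop)
  have hval : ∀ t, ∫ y in hslice v X t, ⟪v, glue v (y, t)⟫ ^ 2 =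
      disc v ^ m * (t ^ 2 * profile v X t ^ m) := fun t => by
    simp only [AllN.inner_glue hv, setIntegral_const, smul_eq_mul, profile_pow v X, hm]
    ring
  simp only [hval] at hib hB
  have hlow : ∀ t, disc v ^ m * ((m : ℝ) / (m + 2)) * profile v X t ^ (m + 2) +
      disc v ^ m * (t ^ 2 * profile v X t ^ m) ≤ ∫ y in hslice v X t, ‖glue v (y, t)‖ ^ 2 := by
    intro t
    have h1 := moment_ge (AllN.isCompact_hslice v hX t) (v := v)
    rw [hm] at h1
    simp only [norm_glue_sq hv]
    rw [integral_add ((Continuous.continuousOn (by fun_prop)).integrableOn_compact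
        (AllN.isCompact_hslice v hX t))
      (integrableOn_const (C := t ^ 2) (AllN.isCompact_hslice v hX t).measure_lt_top.ne), setIntegral_const,
      smul_eq_mul, profile_pow v X, hm]
    rw [profile] at *
    linarith
  have h := intervalIntegral.integral_mono_on (by norm_num) ((hi.const_mul _).add hib) hia
    fun t _ => hlow t
  rw [intervalIntegral.integral_add (hi.const_mul _) hib, ← hA, ← hB, ← hiso v hv, hn, hB,
    intervalIntegral.integral_const_mul, intervalIntegral.integral_const_mul] at h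
  push_cast at h
  have hm0 : (0 : ℝ) < m := by
    rw [← hm]; exact_mod_cast finrank_pos
  have hd := pow_pos (disc_pos v) m
  have h2 : (0 : ℝ) < m + 2 := by positivity
  set I := ∫ t in (-1)..1, profile v X t ^ (m + 2)
  set J := ∫ t in (-1)..1, t ^ 2 * profile v X t ^ m
  refine le_of_mul_le_mul_left (a := disc v ^ m * ((m : ℝ) / (m + 2))) ?_ (by positivity)
  rw [show disc v ^ m * ((m : ℝ) / (m + 2)) * ((m + 2) * J) = disc v ^ m * (m * J) by field_simp]
  linarith

/-- Volumes of unit balls do not depend on the model. -/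
theorem real_closedBall {F : Type*} [NormedAddCommGroup F] [InnerProductSpace ℝ F]
    [FiniteDimensional ℝ F] [MeasurableSpace F] [BorelSpace F] {m : ℕ} (hm : finrank ℝ F = m) :
    volume.real (closedBall (0 : F) 1) = kappa m := by
  subst hm
  set e := (stdOrthonormalBasis ℝ F).repr
  have : e ⁻¹' closedBall 0 1 = closedBall (0 : F) 1 := by ext x; simp
  rw [kappa, measureReal_def, measureReal_def, ← this,
    e.measurePreserving.measure_preimage measurableSet_closedBall.nullMeasurableSet]

theorem disc_eq {v : E} {m : ℕ} (hm : finrank ℝ (ℝ ∙ v)ᗮ = m) :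
    disc v = kappa m ^ ((m : ℝ)⁻¹) := by
  rw [disc, vroot, real_closedBall hm, hm]

/-- The facts about the section profile used in the proof of Petty's inequality. -/
theorem profile_facts (k : ℕ) (hfin : finrank ℝ E = k + 2) {K : Set E} (hK : Body K)
    (hs : -K = K) (hiso : Isotropic K) (hball : closedBall 0 1 ⊆ K) {v : E} (hv : ‖v‖ = 1)
    (hsupp : supp K v = 1) :
    let f := fun t => vroot (hslice v K t) / kappa (k + 1) ^ ((k + 1 : ℝ)⁻¹)
    0 < kappa (k + 1) ∧
      (∀ t ∈ Icc (-1 : ℝ) 1, (hslice v K t).Nonempty) ∧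
      ConcaveOn ℝ (Icc (-1) 1) f ∧ (∀ t, f (-t) = f t) ∧
      (∀ t ∈ Icc (-1 : ℝ) 1, √(1 - t ^ 2) ≤ f t) ∧
      (∀ j : ℕ, IntervalIntegrable (fun t => f t ^ j) volume (-1) 1) ∧
      ∫ t in (-1)..1, f t ^ (k + 3) ≤ ((k : ℝ) + 3) * ∫ t in (-1)..1, t ^ 2 * f t ^ (k + 1) ∧
      volume.real K = kappa (k + 1) * ∫ t in (-1)..1, f t ^ (k + 1) := by
  intro f
  have : Fact (finrank ℝ E = (k + 1) + 1) := ⟨hfin⟩
  have hm : finrank ℝ (ℝ ∙ v)ᗮ = k + 1 :=
    Submodule.finrank_orthogonal_span_singleton (norm_ne_zero_iff.1 (by simp [hv]))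
  have : Nontrivial (ℝ ∙ v)ᗮ := Module.nontrivial_of_finrank_eq_succ hm
  have hd := disc_pos v
  have hf : f = profile v K := funext fun t => by
    simp only [f, profile, disc_eq hm, Nat.cast_add, Nat.cast_one]
  have hpow : disc v ^ (k + 1) = kappa (k + 1) := by
    rw [← real_closedBall hm, disc, ← hm, AllN.vroot_pow]
  have hb : ∀ x ∈ K, |⟪v, x⟫| ≤ 1 := fun x hx => hsupp ▸ abs_inner_le_supp hK hs hx
  have hX := hK.compact
  have hsub : ∀ t ∈ Icc (-1 : ℝ) 1, closedBall (0 : (ℝ ∙ v)ᗮ) √(1 - t ^ 2) ⊆ hslice v K t :=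
    fun t ht => hslice_ball hv ht ▸ AllN.hslice_mono v hball t
  have hne : ∀ t ∈ Icc (-1 : ℝ) 1, (hslice v K t).Nonempty := fun t ht =>
    (nonempty_closedBall.2 (Real.sqrt_nonneg _)).mono (hsub t ht)
  have hconc : ConcaveOn ℝ (Icc (-1) 1) (profile v K) := by
    have h := (AllN.concaveOn_vroot_hslice v hX hK.convex hne).smul (inv_nonneg.2 hd.le)
    rw [show profile v K = fun t => (disc v)⁻¹ * vroot (hslice v K t) from
      funext fun t => div_eq_inv_mul _ _]
    simpa [smul_eq_mul] using h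
  have hint : ∀ j : ℕ, IntervalIntegrable (fun t => profile v K t ^ j) volume (-1) 1 := by
    intro j
    obtain ⟨x₀, -, hmax⟩ := AllN.exists_max_hslice v hX (show (-1 : ℝ) ≤ 1 by norm_num)
    exact AllN.integrable_pow (by norm_num) hconc
      (fun t _ => div_nonneg (AllN.vroot_nonneg _) hd.le)
      (fun t ht => div_le_div_of_nonneg_right (hmax t ht) hd.le) j
  rw [hf, ← hpow]
  refine ⟨pow_pos hd _, hne, hconc, fun t => ?_, fun t ht => ?_, hint, ?_, ?_⟩
  · have e : hslice v K (-t) = -hslice v K t := by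
      ext y
      show glue v (y, -t) ∈ K ↔ glue v (-y, t) ∈ K
      conv_rhs => rw [← hs, Set.mem_neg]
      simp only [glue, Submodule.coe_neg, neg_add, neg_neg, neg_smul]
    rw [profile, profile, e, vroot, vroot, measureReal_def, measureReal_def, Measure.measure_neg]
  · rw [profile, le_div_iff₀ hd, ← vroot_closedBall v (Real.sqrt_nonneg _)]
    exact AllN.vroot_mono (AllN.isCompact_hslice v hX t) (hsub t ht)
  · have h := profile_isotropy hv hX hiso hb hm (hint _)
    push_cast at h
    rw [show (k : ℝ) + 3 = k + 1 + 2 by ring]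
    exact h
  · rw [volume_profile hv hX hb, hm]

/-- A body containing the unit ball, of at most its volume, is the unit ball. -/
theorem eq_ball {K : Set E} (hK : Body K) (hball : closedBall 0 1 ⊆ K)
    (hvol : volume.real K ≤ kappa (finrank ℝ E)) : K = closedBall 0 1 := by
  refine subset_antisymm (fun x hx => ?_) hball
  by_contra hxB
  have hxc : x ∈ closure (interior K) := by
    rw [hK.convex.closure_interior_eq_closure_of_nonempty_interior hK.interior_nonempty]
    exact subset_closure hx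
  obtain ⟨y, hy⟩ := mem_closure_iff.1 hxc _ isClosed_closedBall.isOpen_compl hxB
  have hpos : 0 < volume (K \ closedBall (0 : E) 1) :=
    ((isClosed_closedBall.isOpen_compl.inter isOpen_interior).measure_pos volume ⟨y, hy⟩).trans_le
      (measure_mono fun z hz => ⟨interior_subset hz.2, hz.1⟩)
  rw [measure_sdiff hball measurableSet_closedBall.nullMeasurableSet
    measure_closedBall_lt_top.ne, tsub_pos_iff_lt] at hpos
  rw [← real_closedBall rfl (F := E), measureReal_def, measureReal_def] at hvol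
  exact absurd ((ENNReal.toReal_lt_toReal measure_closedBall_lt_top.ne hK.compact.measure_lt_top.ne).2 hpos)
    (not_lt.2 hvol)

end Vale.Agent.P237.Petty
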