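import Vale.Agent.P237.Petty.Shadow
import Vale.Agent.P237.Petty.Fixed
import Vale.Agent.P237.Petty.Minimiser
import Vale.Agent.P237.Petty.Profile

/-!
# From the one-dimensional lemma to the sharp inequality, one dimension at a time
-/

namespace Vale.Agent.P237.Petty

open MeasureTheory Set Module
open AllN (hslice vroot)
open scoped RealInnerProductSpace Pointwise

set_option linter.unusedSectionVars false

/-- The integral of a power of the semicircle. -/
noncomputable def circ (j : ℕ) : ℝ := ∫ t in (-1 : ℝ)..1, √(1 - t ^ 2) ^ j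

theorem circ_pos (j : ℕ) : 0 < circ j := by
  refine intervalIntegral.intervalIntegral_pos_of_pos_on ?_ (fun t ht => ?_) (by norm_num)
  · exact Continuous.intervalIntegrable (by fun_prop) _ _
  · exact pow_pos (Real.sqrt_pos.2 (by nlinarith [ht.1, ht.2])) _

/-- The one-dimensional statement used in dimension `p + 2`. -/
def ProfileLemma (p : ℕ) : Prop :=
  ∀ f : ℝ → ℝ, ConcaveOn ℝ (Icc (-1) 1) f → (∀ t, f (-t) = f t) →
    (∀ t ∈ Icc (-1 : ℝ) 1, √(1 - t ^ 2) ≤ f t) →
    (∀ j : ℕ, IntervalIntegrable (fun t => f t ^ j) volume (-1) 1) →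
    ∫ t in (-1)..1, f t ^ (p + 3) ≤ ((p : ℝ) + 3) * ∫ t in (-1)..1, t ^ 2 * f t ^ (p + 1) →
    circ p ^ (p + 1) * (∫ t in (-1)..1, f t ^ (p + 1)) ^ p ≤
        (∫ t in (-1)..1, f t ^ p) ^ (p + 1) * circ (p + 1) ^ p ∧
      (circ p ^ (p + 1) * (∫ t in (-1)..1, f t ^ (p + 1)) ^ p =
        (∫ t in (-1)..1, f t ^ p) ^ (p + 1) * circ (p + 1) ^ p →
        ∫ t in (-1)..1, f t ^ (p + 1) = circ (p + 1))

variable {E : Type*} [NormedAddCommGroup E] [InnerProductSpace ℝ E] [FiniteDimensional ℝ E]
  [MeasurableSpace E] [BorelSpace E]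

/-- The ball value of the step from dimension `k + 1` to `k + 2`. -/
noncomputable def stepValue (k : ℕ) (R : ℝ) : ℝ := R * circ k ^ (k + 1) / circ (k + 1) ^ k

/-- The chain of inequalities at a symmetric body with the fixed point property. -/
theorem chain {k : ℕ} (hfin : finrank ℝ E = k + 2) (hlem : ProfileLemma k) {R : ℝ} (hR : 0 < R)
    (H : ∀ v : E, ‖v‖ = 1 → ∀ L : Set (ℝ ∙ v)ᗮ, IsCompact L → Convex ℝ L →
      R * volume.real L ^ k ≤ volume.real (projBody L))
    {K : Set E} (hK : Body K) (hs : -K = K) (hfix : ratio K ≤ ratio (projBody K)) :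
    stepValue k R ≤ ratio K ∧
      (ratio K ≤ stepValue k R → ∃ T : E ≃L[ℝ] E, Body (T '' K) ∧
        Metric.closedBall 0 1 ⊆ T '' K ∧
          volume.real (T '' K) = kappa (k + 1) * circ (k + 1)) := by
  have hn : 2 ≤ finrank ℝ E := by omega
  have : Nontrivial E := Module.nontrivial_of_finrank_eq_succ hfin
  -- normalisation
  obtain ⟨T₀, hiso₀⟩ := exists_isotropic_image hK hs
  have hneg : ∀ (T : E ≃L[ℝ] E), -(T '' K) = T '' K := fun T => by
    rw [← Set.image_neg_eq_neg, image_image]
    conv_rhs => rw [← hs, ← Set.image_neg_eq_neg, image_image]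
    simp
  obtain ⟨r, hr, v, hv, hball, hsupp⟩ := exists_contact (hK.image T₀) (hneg T₀)
  set T : E ≃L[ℝ] E := T₀.trans
    (ContinuousLinearEquiv.smulLeft (Units.mk0 r⁻¹ (inv_ne_zero hr.ne'))) with hT
  have hTK : T '' K = r⁻¹ • (T₀ '' K) := by
    rw [← image_smul, image_image]
    refine image_congr fun x _ => ?_
    simp [hT, Units.smul_def]
  set K' := T '' K with hK'def
  have hK' : Body K' := hK.image T
  have hs' : -K' = K' := hneg T
  have hiso : Isotropic K' := hTK ▸ hiso₀.smul (inv_pos.2 hr)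
  have hball' : Metric.closedBall (0 : E) 1 ⊆ K' := by
    rw [hTK]
    intro x hx
    refine ⟨r • x, hball ?_, by simp [smul_smul, hr.ne']⟩
    rw [mem_closedBall_zero_iff, norm_smul, Real.norm_eq_abs, abs_of_pos hr]
    calc r * ‖x‖ ≤ r * 1 := mul_le_mul_of_nonneg_left (mem_closedBall_zero_iff.1 hx) hr.le
      _ = r := mul_one r
  have hsupp' : supp K' v = 1 := by
    refine le_antisymm (supp_le hK'.nonempty ?_) ?_
    · rw [hTK]
      rintro _ ⟨x, hx, rfl⟩
      rw [real_inner_smul_right, inv_mul_le_iff₀ hr, mul_one]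
      exact (le_supp (hK.image T₀).compact v hx).trans hsupp.le
    · have := le_supp hK'.compact v (hball' (show v ∈ Metric.closedBall (0 : E) 1 by simp [hv]))
      rwa [real_inner_self_eq_norm_sq, hv, one_pow] at this
  have hrat : ratio K' = ratio K := ratio_image T hK
  -- the fixed point property survives
  have hfix' : ratio K' ≤ ratio (projBody K') := by
    have e : ratio (projBody K') = ratio (projBody K) := by
      rw [hK'def, show (T : E → E) '' K = T.toLinearEquiv '' K from rfl,
        projBody_map hK.compact]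
      set D := |LinearMap.det (T.toLinearEquiv : E →ₗ[ℝ] E)|
      have hD : D ≠ 0 := abs_ne_zero.2 T.toLinearEquiv.isUnit_det'.ne_zero
      set A : E ≃ₗ[ℝ] E := LinearEquiv.ofBijective
        (LinearMap.adjoint (T.toLinearEquiv.symm : E →ₗ[ℝ] E)) (by
          constructor
          · intro x y hxy
            have h := congrArg (LinearMap.adjoint (T.toLinearEquiv : E →ₗ[ℝ] E)) hxy
            rw [← LinearMap.comp_apply, ← LinearMap.comp_apply, ← LinearMap.adjoint_comp,
              LinearEquiv.symm_comp, LinearMap.adjoint_id] at h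
            simpa using h
          · intro y
            refine ⟨LinearMap.adjoint (T.toLinearEquiv : E →ₗ[ℝ] E) y, ?_⟩
            rw [← LinearMap.comp_apply, ← LinearMap.adjoint_comp, LinearEquiv.comp_symm,
              LinearMap.adjoint_id]
            rfl)
      have e2 : D • ((LinearMap.adjoint (T.toLinearEquiv.symm : E →ₗ[ℝ] E)) '' projBody K) =
          (A.trans (LinearEquiv.smulOfNeZero ℝ E D hD)) '' projBody K := by
        rw [← image_smul, image_image]; rfl
      rw [e2]
      exact ratio_map (AllN.isCompact_projBody K) _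
    rw [hrat, e]; exact hfix
  have harea := fixed_symm hn hK' hs' hfix' hv
  rw [hsupp', mul_one] at harea
  obtain ⟨hκ, hne, hconc, heven, hge, hint, hM, hvol⟩ :=
    profile_facts k hfin hK' hs' hiso hball' hv hsupp'
  set ρ : ℝ := kappa (k + 1) ^ ((k + 1 : ℝ)⁻¹) with hρdef
  set f := fun t => vroot (hslice v K' t) / ρ with hf
  have hρ : 0 < ρ := Real.rpow_pos_of_pos hκ _
  have hρp : ρ ^ (k + 1) = kappa (k + 1) := by
    rw [hρdef, show (k + 1 : ℝ) = ((k + 1 : ℕ) : ℝ) by push_cast; rfl]
    exact Real.rpow_inv_natCast_pow hκ.le (by omega)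
  have hsh := shadow_projBody k hR.le hv hfin (H v hv) hK'.compact hK'.convex
    (hK'.zero_mem_interior hs') (by norm_num : (-1 : ℝ) ≤ 1) hne
  rw [harea] at hsh
  obtain ⟨hl1, hl2⟩ := hlem f hconc heven hge hint hM
  set A := ∫ t in (-1 : ℝ)..1, f t ^ k with hA
  set B := ∫ t in (-1 : ℝ)..1, f t ^ (k + 1) with hB
  have hBpos : 0 < B := by
    by_contra h
    have h1 := hK'.volume_pos
    rw [hvol] at h1
    nlinarith
  have hint' : ∫ t in (-1 : ℝ)..1, vroot (hslice v K' t) ^ k = ρ ^ k * A := by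
    rw [hA, ← intervalIntegral.integral_const_mul]
    refine intervalIntegral.integral_congr fun t _ => ?_
    simp only [hf]
    rw [← mul_pow, mul_div_cancel₀ _ hρ.ne']
  rw [hint'] at hsh
  have hfin1 : finrank ℝ E - 1 = k + 1 := by omega
  have hr1 : volume.real (projBody K') / volume.real K' = ratio K' * volume.real K' ^ k := by
    rw [ratio, hfin1, pow_succ]
    have := hK'.volume_pos.ne'
    field_simp
  rw [hr1, hvol, hrat] at hsh
  have hmain : R * A ^ (k + 1) ≤ ratio K * B ^ k := by
    have e : R * (ρ ^ k * A) ^ (k + 1) = kappa (k + 1) ^ k * (R * A ^ (k + 1)) := by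
      rw [mul_pow, ← pow_mul, mul_comm k, pow_mul, hρp]; ring
    rw [e, mul_pow] at hsh
    refine le_of_mul_le_mul_left ?_ (pow_pos hκ k)
    linarith
  have hck := circ_pos k
  have hck1 := circ_pos (k + 1)
  have hBk : 0 < B ^ k := pow_pos hBpos k
  have hfirst : stepValue k R ≤ ratio K := by
    rw [stepValue, div_le_iff₀ (pow_pos hck1 k)]
    refine le_of_mul_le_mul_right ?_ hBk
    calc R * circ k ^ (k + 1) * B ^ k = R * (circ k ^ (k + 1) * B ^ k) := by ring
      _ ≤ R * (A ^ (k + 1) * circ (k + 1) ^ k) := mul_le_mul_of_nonneg_left hl1 hR.le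
      _ = R * A ^ (k + 1) * circ (k + 1) ^ k := by ring
      _ ≤ ratio K * B ^ k * circ (k + 1) ^ k := mul_le_mul_of_nonneg_right hmain (by positivity)
      _ = ratio K * circ (k + 1) ^ k * B ^ k := by ring
  refine ⟨hfirst, fun hle => ⟨T, hK', hball', ?_⟩⟩
  rw [hvol]
  congr 1
  refine hl2 (le_antisymm hl1 ?_)
  refine le_of_mul_le_mul_left ?_ hR
  have h2 : ratio K * circ (k + 1) ^ k ≤ R * circ k ^ (k + 1) := by
    rwa [stepValue, le_div_iff₀ (pow_pos hck1 k)] at hle
  calc R * (A ^ (k + 1) * circ (k + 1) ^ k) = R * A ^ (k + 1) * circ (k + 1) ^ k := by ring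
    _ ≤ ratio K * B ^ k * circ (k + 1) ^ k := mul_le_mul_of_nonneg_right hmain (by positivity)
    _ = ratio K * circ (k + 1) ^ k * B ^ k := by ring
    _ ≤ R * circ k ^ (k + 1) * B ^ k := mul_le_mul_of_nonneg_right h2 hBk.le
    _ = R * (circ k ^ (k + 1) * B ^ k) := by ring

end Vale.Agent.P237.Petty
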