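import Mathlib

/-!
# P237: the polynomial inequality behind the three dimensional profile lemma

For `t^2 + q^2 = 1` with `t, q ≥ 0` and `g ≥ 0` the cubic (in `g`) polynomial
`margin t q g` is at least `1/250`.
-/

namespace Vale.Agent.P237.Petty.Three

/-- The density that the profile lemma integrates against `g = f - q`. -/
noncomputable def margin (t q g : ℝ) : ℝ :=
  2546478/1000000 - 3*q - 3/2*g
    + 31/200*((4*q^3 - 8*t^2*q) + (6*q^2 - 4*t^2)*g + 4*q*g^2 + g^3)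
    + 32422/10000*(t/2*(g + q - 1) + 7/48*t^3 + 31/1280*t^5)

/-- Slope in `q` of the constant coefficient. -/
noncomputable def lin (t : ℝ) : ℝ := -119/50 - 93/50*t^2 + 16211/10000*t

noncomputable def coefA (t q : ℝ) : ℝ :=
  (2546478/1000000 - 1/250) + q*lin t - 16211/10000*t
    + 32422/10000*(7/48*t^3 + 31/1280*t^5)

noncomputable def coefB (t : ℝ) : ℝ :=
  -3/2 + 6*(31/200) - 31/5000 + 16211/10000*t - 31/20*t^2

noncomputable def coefC (q : ℝ) : ℝ := 4*(31/200)*(4*q + 2/5)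

noncomputable def disc (t q : ℝ) : ℝ := coefC q * coefA t q - coefB t ^ 2

private theorem disc_lo {t : ℝ} (h₀ : 0 ≤ t) (h₁ : t ≤ 1) :
    0 ≤ disc t (1 - t^2) := by
  have hu : 0 ≤ t - 0 := sub_nonneg.2 h₀
  have hv : 0 ≤ 1 - t := sub_nonneg.2 h₁
  have h : disc t (1 - t^2) =
      (13904193/125000000 : ℝ) * ((t - 0)^0 * (1 - t)^7) +
      (165424403/62500000 : ℝ) * ((t - 0)^1 * (1 - t)^6) +
      (5073133807/500000000 : ℝ) * ((t - 0)^2 * (1 - t)^5) +
      (5044667947/300000000 : ℝ) * ((t - 0)^3 * (1 - t)^4) +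
      (2433626711/150000000 : ℝ) * ((t - 0)^4 * (1 - t)^3) +
      (179254074703/12000000000 : ℝ) * ((t - 0)^5 * (1 - t)^2) +
      (16446708001/2000000000 : ℝ) * ((t - 0)^6 * (1 - t)^1) +
      (1321305173/12000000000 : ℝ) * ((t - 0)^7 * (1 - t)^0) := by
    unfold disc coefA lin coefC coefB
    ring
  rw [h]
  positivity

private theorem disc_up1 {t : ℝ} (h₀ : 0 ≤ t) (h₁ : t ≤ 1/2) :
    0 ≤ disc t (1 - t^2/2) := by
  have hu : 0 ≤ t - 0 := sub_nonneg.2 h₀
  have hv : 0 ≤ 1/2 - t := sub_nonneg.2 h₁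
  have h : disc t (1 - t^2/2) =
      (27808386/1953125 : ℝ) * ((t - 0)^0 * (1/2 - t)^7) +
      (428178157/1953125 : ℝ) * ((t - 0)^1 * (1/2 - t)^6) +
      (12659033723/15625000 : ℝ) * ((t - 0)^2 * (1/2 - t)^5) +
      (6217847719/4687500 : ℝ) * ((t - 0)^3 * (1/2 - t)^4) +
      (5147137069/4687500 : ℝ) * ((t - 0)^4 * (1/2 - t)^3) +
      (1350671148431/3000000000 : ℝ) * ((t - 0)^5 * (1/2 - t)^2) +
      (112015919791/1500000000 : ℝ) * ((t - 0)^6 * (1/2 - t)^1) +
      (4507039673/4000000000 : ℝ) * ((t - 0)^7 * (1/2 - t)^0) := by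
    unfold disc coefA lin coefC coefB
    ring
  rw [h]
  positivity

private theorem disc_up2 {t : ℝ} (h₀ : 1/2 ≤ t) (h₁ : t ≤ 3/5) :
    0 ≤ disc t (8661/10000 - 577/1000 * (t - 1/2) - 769/1000 * (t - 1/2)^2) := by
  have hu : 0 ≤ t - 1/2 := sub_nonneg.2 h₀
  have hv : 0 ≤ 3/5 - t := sub_nonneg.2 h₁
  have h : disc t (8661/10000 - 577/1000 * (t - 1/2) - 769/1000 * (t - 1/2)^2) =
      (498148594075649/960000000 : ℝ) * ((t - 1/2)^0 * (3/5 - t)^7) +
      (4720447431546453/1600000000 : ℝ) * ((t - 1/2)^1 * (3/5 - t)^6) +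
      (67251710906058559/9600000000 : ℝ) * ((t - 1/2)^2 * (3/5 - t)^5) +
      (215403354716132869/24000000000 : ℝ) * ((t - 1/2)^3 * (3/5 - t)^4) +
      (40125861790871851/6000000000 : ℝ) * ((t - 1/2)^4 * (3/5 - t)^3) +
      (14540911461780949/5000000000 : ℝ) * ((t - 1/2)^5 * (3/5 - t)^2) +
      (3481861345991093/5000000000 : ℝ) * ((t - 1/2)^6 * (3/5 - t)^1) +
      (37352686278783/500000000 : ℝ) * ((t - 1/2)^7 * (3/5 - t)^0) := by
    unfold disc coefA lin coefC coefB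
    ring
  rw [h]
  positivity

private theorem disc_up3 {t : ℝ} (h₀ : 3/5 ≤ t) (h₁ : t ≤ 4/5) :
    0 ≤ disc t (4/5 - 749/1000 * (t - 3/5) - 122/125 * (t - 3/5)^2) := by
  have hu : 0 ≤ t - 3/5 := sub_nonneg.2 h₀
  have hv : 0 ≤ 4/5 - t := sub_nonneg.2 h₁
  have h : disc t (4/5 - 749/1000 * (t - 3/5) - 122/125 * (t - 3/5)^2) =
      (26838617177/32000000 : ℝ) * ((t - 3/5)^0 * (4/5 - t)^7) +
      (71070346959603/16000000000 : ℝ) * ((t - 3/5)^1 * (4/5 - t)^6) +
      (1695906120726287/80000000000 : ℝ) * ((t - 3/5)^2 * (4/5 - t)^5) +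
      (55786818832217/800000000 : ℝ) * ((t - 3/5)^3 * (4/5 - t)^4) +
      (1881798308665229/15000000000 : ℝ) * ((t - 3/5)^4 * (4/5 - t)^3) +
      (181011330544229/1500000000 : ℝ) * ((t - 3/5)^5 * (4/5 - t)^2) +
      (880254342022393/15000000000 : ℝ) * ((t - 3/5)^6 * (4/5 - t)^1) +
      (530838094967/46875000 : ℝ) * ((t - 3/5)^7 * (4/5 - t)^0) := by
    unfold disc coefA lin coefC coefB
    ring
  rw [h]
  positivity

private theorem disc_up4 {t : ℝ} (h₀ : 4/5 ≤ t) (h₁ : t ≤ 1) :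
    0 ≤ disc t (3/5 - 1333/1000 * (t - 4/5) - 1157/500 * (t - 4/5)^2) := by
  have hu : 0 ≤ t - 4/5 := sub_nonneg.2 h₀
  have hv : 0 ≤ 1 - t := sub_nonneg.2 h₁
  have h : disc t (3/5 - 1333/1000 * (t - 4/5) - 1157/500 * (t - 4/5)^2) =
      (43493177987/3000000 : ℝ) * ((t - 4/5)^0 * (1 - t)^7) +
      (98743554968461/750000000 : ℝ) * ((t - 4/5)^1 * (1 - t)^6) +
      (3759777413901061/7500000000 : ℝ) * ((t - 4/5)^2 * (1 - t)^5) +
      (3069330350077193/3000000000 : ℝ) * ((t - 4/5)^3 * (1 - t)^4) +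
      (8983142318249071/7500000000 : ℝ) * ((t - 4/5)^4 * (1 - t)^3) +
      (23876706368382953/30000000000 : ℝ) * ((t - 4/5)^5 * (1 - t)^2) +
      (65466296938867207/240000000000 : ℝ) * ((t - 4/5)^6 * (1 - t)^1) +
      (1712211583131313/48000000000 : ℝ) * ((t - 4/5)^7 * (1 - t)^0) := by
    unfold disc coefA lin coefC coefB
    ring
  rw [h]
  positivity

/-- `disc t` is concave, so nonnegativity on an interval follows from the end points. -/
private theorem disc_between {t a b q : ℝ} (hl : lin t ≤ 0) (ha : a ≤ q) (hb : q ≤ b)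
    (hA : 0 ≤ disc t a) (hB : 0 ≤ disc t b) : 0 ≤ disc t q := by
  rcases eq_or_lt_of_le (ha.trans hb) with h | h
  · have : q = a := le_antisymm (h ▸ hb) ha
    rwa [this]
  · have key : (b - a) * disc t q = (b - q) * disc t a + (q - a) * disc t b
        + 4*(31/200)*4*(-lin t)*((q - a)*(b - q)*(b - a)) := by
      unfold disc coefC coefA
      ring
    have h₁ : 0 ≤ (b - q) * disc t a := mul_nonneg (by linarith) hA
    have h₂ : 0 ≤ (q - a) * disc t b := mul_nonneg (by linarith) hB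
    have h₃ : 0 ≤ 4*(31/200)*4*(-lin t)*((q - a)*(b - q)*(b - a)) := by
      have : 0 ≤ -lin t := by linarith
      have : 0 ≤ q - a := by linarith
      have : 0 ≤ b - q := by linarith
      have : 0 ≤ b - a := by linarith
      positivity
    exact nonneg_of_mul_nonneg_right (by rw [key]; linarith) (by linarith : 0 < b - a)

private theorem q_le_of_sq {t q u : ℝ} (h : t^2 + q^2 = 1) (hu : 0 ≤ u) (hsq : 1 - t^2 ≤ u^2) :
    q ≤ u := by nlinarith

theorem disc_nonneg {t q : ℝ} (ht : 0 ≤ t) (hq : 0 ≤ q) (h : t^2 + q^2 = 1) :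
    0 ≤ disc t q := by
  have ht1 : t ≤ 1 := by nlinarith
  have hq1 : q ≤ 1 := by nlinarith
  have hl : lin t ≤ 0 := by unfold lin; nlinarith [sq_nonneg (t - 1/2)]
  have hlo : 1 - t^2 ≤ q := by nlinarith
  have hL := disc_lo ht ht1
  rcases le_total t (1/2) with c | c
  · exact disc_between hl hlo (q_le_of_sq h (by nlinarith) (by nlinarith [sq_nonneg (t^2)]))
      hL (disc_up1 ht c)
  rcases le_total t (3/5) with d | d
  · refine disc_between hl hlo (q_le_of_sq h ?_ ?_) hL (disc_up2 c d)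
    · nlinarith
    · nlinarith [mul_nonneg (sub_nonneg.2 c) (sub_nonneg.2 d),
        mul_nonneg (sq_nonneg (t - 1/2)) (sub_nonneg.2 d),
        mul_nonneg (sq_nonneg (t - 1/2)) (sub_nonneg.2 c)]
  rcases le_total t (4/5) with e | e
  · refine disc_between hl hlo (q_le_of_sq h ?_ ?_) hL (disc_up3 d e)
    · nlinarith
    · nlinarith [mul_nonneg (sub_nonneg.2 d) (sub_nonneg.2 e),
        mul_nonneg (sq_nonneg (t - 3/5)) (sub_nonneg.2 d),
        mul_nonneg (sq_nonneg (t - 3/5)) (sub_nonneg.2 e)]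
  · refine disc_between hl hlo (q_le_of_sq h ?_ ?_) hL (disc_up4 e ht1)
    · nlinarith
    · nlinarith [mul_nonneg (sub_nonneg.2 e) (sub_nonneg.2 ht1),
        mul_nonneg (sq_nonneg (t - 4/5)) (sub_nonneg.2 ht1),
        mul_nonneg (sq_nonneg (t - 4/5)) (sub_nonneg.2 e)]

theorem margin_ge {t q g : ℝ} (ht : 0 ≤ t) (hq : 0 ≤ q) (h : t^2 + q^2 = 1) (hg : 0 ≤ g) :
    1/250 ≤ margin t q g := by
  have e : margin t q g - 1/250
      = coefA t q + coefB t * g + coefC q / 4 * g^2 + 31/200*g*(g - 1/5)^2 := by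
    unfold margin coefA coefB coefC lin
    linear_combination (31/50*q + 93/100*g) * h
  have hC : 0 < coefC q := by unfold coefC; linarith
  have hcube : 0 ≤ 31/200*g*(g - 1/5)^2 := by positivity
  have hd := disc_nonneg ht hq h
  unfold disc at hd
  have hsq : 0 ≤ coefA t q + coefB t * g + coefC q / 4 * g^2 := by
    by_contra hc
    nlinarith [mul_lt_mul_of_pos_left (not_le.1 hc) hC,
      sq_nonneg (coefC q * g / 2 + coefB t)]
  linarith

end Vale.Agent.P237.Petty.Three
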