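import Vale.Agent.P237.Petty.StepJohn

/-!
# P237: the linear one-variable inequality

In dimension `n = p + 2` a profile is scaled so that `∫ f^(p+1)` is the value of the circle. The
body then contains the ellipse with half axes `1` and `s`, and the inequality below is linear in the
integrals of the profile. The slope is the right derivative.
-/

namespace Vale.Agent.P237.Petty

open MeasureTheory Set

/-- The right derivative. -/
noncomputable def slopeR (f : ℝ → ℝ) (t : ℝ) : ℝ := derivWithin f (Ioi t) t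

/-- The intercept of the tangent line. -/
noncomputable def icept (f : ℝ → ℝ) (t : ℝ) : ℝ := f t - t * slopeR f t

/-- The Fisher integral of the Schwarz body in the orthogonal variables. -/
noncomputable def piInt (p : ℕ) (f : ℝ → ℝ) : ℝ :=
  ∫ t in (-1 : ℝ)..1, f t ^ p / icept f t

/-- The Fisher integral of the Schwarz body along the axis, with the two faces. -/
noncomputable def jInt (p : ℕ) (f : ℝ → ℝ) : ℝ :=
  ((p : ℝ) + 1) * (∫ t in (-1 : ℝ)..1, f t ^ p * slopeR f t ^ 2 / icept f t) +
    2 * f 1 ^ (p + 1)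

/-- The linear functional of a scaled profile. -/
noncomputable def linearForm (p : ℕ) (mu nu : ℝ) (g : ℝ → ℝ) (s : ℝ) : ℝ :=
  ((p : ℝ) + 1) * ((∫ t in (-1 : ℝ)..1, g t ^ p) / circ p - 1) -
    mu * ((((p : ℝ) + 1) / 2) * (piInt p g / circ (p + 1) - 1)) +
    nu * (jInt p g / circ (p + 1) - 1) + mu * (((p : ℝ) + 1) / ((p : ℝ) + 2)) * (1 - s)

/-- The one-variable inequality used in dimension `p + 2`, with equality only at the circle. It is
required only for `s₀ ≤ s`. -/
def LinearLemma (p : ℕ) (mu nu s₀ : ℝ) : Prop :=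
  ∀ (g : ℝ → ℝ) (s : ℝ), ConcaveOn ℝ (Icc (-1) 1) g → ContinuousOn g (Icc (-1) 1) →
    (∀ t, g (-t) = g t) → ∫ t in (-1 : ℝ)..1, g t ^ (p + 1) = circ (p + 1) →
    0 < s → s ≤ 1 → s₀ ≤ s → (∀ t ∈ Icc (-1 : ℝ) 1, s * √(1 - t ^ 2) ≤ g t) →
    0 ≤ linearForm p mu nu g s ∧ (linearForm p mu nu g s = 0 → s = 1)

end Vale.Agent.P237.Petty
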