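import Vale.Agent.P237.Petty.Defs

/-!
# P237: isotropic images and contact directions
-/

namespace Vale.Agent.P237.Petty

open MeasureTheory Set Module Metric
open scoped RealInnerProductSpace Pointwise

set_option linter.unusedSectionVars false

variable {E : Type*} [NormedAddCommGroup E] [InnerProductSpace ℝ E] [FiniteDimensional ℝ E]
  [MeasurableSpace E] [BorelSpace E]

/-- The second moment of a set in a direction. -/
noncomputable def mom (K : Set E) (u : E) : ℝ := ∫ x in K, ⟪x, u⟫ ^ 2

/-- A set is isotropic if its second moment is the same in all unit directions. -/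
def Isotropic (K : Set E) : Prop :=
  ∀ e : E, ‖e‖ = 1 → (finrank ℝ E : ℝ) * ∫ x in K, ⟪e, x⟫ ^ 2 = ∫ x in K, ‖x‖ ^ 2

theorem isotropic_of_mom {K : Set E} (hK : IsCompact K) {c : ℝ}
    (h : ∀ u : E, mom K u = c * ‖u‖ ^ 2) : Isotropic K := by
  intro e he
  set b := stdOrthonormalBasis ℝ E
  have hb : ∀ x : E, ‖x‖ ^ 2 = ∑ i, ⟪x, b i⟫ ^ 2 := fun x => by
    rw [← b.sum_sq_norm_inner_left x]; simp only [Real.norm_eq_abs, sq_abs]
  have h1 : ∀ u : E, ‖u‖ = 1 → ∫ x in K, ⟪x, u⟫ ^ 2 = c := fun u hu => by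
    rw [← mom, h, hu, one_pow, mul_one]
  simp only [hb]
  rw [integral_finsetSum _ fun i _ =>
    (Continuous.continuousOn (by fun_prop)).integrableOn_compact hK]
  simp only [h1 _ (b.norm_eq_one _), real_inner_comm _ e, h1 e he, Finset.sum_const,
    Finset.card_univ, Fintype.card_fin, nsmul_eq_mul]

/-- Second moments of a linear image. -/
theorem mom_image (T : E ≃ₗ[ℝ] E) {K : Set E} (hK : IsCompact K) (u : E) :
    mom (T '' K) u = |LinearMap.det (T : E →ₗ[ℝ] E)| * ∫ x in K, ⟪T x, u⟫ ^ 2 := by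
  set L : E →L[ℝ] E := (T.toContinuousLinearEquiv : E →L[ℝ] E) with hL
  have h := integral_image_eq_integral_abs_det_fderiv_smul (volume : Measure E) hK.measurableSet
    (f := fun x => L x) (f' := fun _ => L) (fun x _ => L.hasFDerivAt.hasFDerivWithinAt)
    T.injective.injOn (fun y => ⟪y, u⟫ ^ 2)
  rw [mom]
  refine h.trans ?_
  simp only [smul_eq_mul]
  rw [integral_const_mul]
  rfl

/-- The moment operator. -/
noncomputable def momOp {K : Set E} (hK : IsCompact K) : E →ₗ[ℝ] E where
  toFun u := ∫ x in K, ⟪x, u⟫ • x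
  map_add' u w := by
    simp only [inner_add_right, add_smul]
    exact integral_add ((Continuous.continuousOn (by fun_prop)).integrableOn_compact hK)
      ((Continuous.continuousOn (by fun_prop)).integrableOn_compact hK)
  map_smul' a u := by
    simp only [real_inner_smul_right, mul_smul, RingHom.id_apply]
    exact integral_smul a _

theorem inner_momOp {K : Set E} (hK : IsCompact K) (u w : E) :
    ⟪momOp hK u, w⟫ = ∫ x in K, ⟪x, u⟫ * ⟪x, w⟫ := by
  rw [real_inner_comm]
  change ⟪w, ∫ x in K, ⟪x, u⟫ • x⟫ = _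
  have hi : IntegrableOn (fun x : E => ⟪x, u⟫ • x) K :=
    (Continuous.continuousOn (by fun_prop)).integrableOn_compact hK
  rw [← integral_inner hi w]
  simp only [real_inner_smul_right, real_inner_comm w]

theorem momOp_symmetric {K : Set E} (hK : IsCompact K) : (momOp hK).IsSymmetric := fun u w => by
  rw [real_inner_comm (momOp hK w), inner_momOp, inner_momOp]
  simp only [mul_comm]

/-- Second moments are positive for bodies with interior. -/
theorem mom_pos {K : Set E} (hK : IsCompact K) (hint : (interior K).Nonempty) {u : E}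
    (hu : u ≠ 0) : 0 < mom K u := by
  rw [mom, setIntegral_pos_iff_support_of_nonneg_ae (Filter.Eventually.of_forall fun x => sq_nonneg _)
    ((Continuous.continuousOn (by fun_prop)).integrableOn_compact hK)]
  obtain ⟨x, hx⟩ := hint
  refine lt_of_lt_of_le ?_ (measure_mono (s := interior K ∩ {x | ⟪x, u⟫ ≠ 0}) fun y hy =>
    ⟨pow_ne_zero 2 hy.2, interior_subset hy.1⟩)
  refine (isOpen_interior.inter (isOpen_ne_fun (by fun_prop) continuous_const)).measure_pos volume ?_
  by_cases h0 : ⟪x, u⟫ = 0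
  · obtain ⟨ε, hε, hball⟩ := Metric.isOpen_iff.1 isOpen_interior x hx
    have hu0 := norm_pos_iff.2 hu
    set a := ε / 2 / ‖u‖ with ha
    have ha0 : 0 < a := by positivity
    refine ⟨x + a • u, hball ?_, ?_⟩
    · rw [mem_ball, dist_self_add_left, norm_smul, Real.norm_eq_abs, abs_of_pos ha0, ha,
        div_mul_cancel₀ _ hu0.ne']
      linarith
    · show ⟪x + a • u, u⟫ ≠ 0
      rw [inner_add_left, h0, zero_add, real_inner_smul_left, real_inner_self_eq_norm_sq]
      positivity
  · exact ⟨x, hx, h0⟩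

/-- Every body has an isotropic linear image. -/
theorem exists_iso {K : Set E} (hK : IsCompact K) (hint : (interior K).Nonempty) :
    ∃ T : E ≃L[ℝ] E, Isotropic (T '' K) := by
  set hs := momOp_symmetric hK
  set b := hs.eigenvectorBasis rfl
  set w : Fin (finrank ℝ E) → ℝ := fun i => hs.eigenvalues rfl i
  have hM : ∀ i, momOp hK (b i) = w i • b i := fun i => hs.apply_eigenvectorBasis rfl i
  have hw : ∀ i, 0 < w i := fun i => by
    have h := mom_pos hK hint (b.orthonormal.ne_zero i)
    have e : mom K (b i) = ⟪momOp hK (b i), b i⟫ := by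
      rw [inner_momOp, mom]; simp only [sq]
    rwa [e, hM, real_inner_smul_left, real_inner_self_eq_norm_sq, b.norm_eq_one, one_pow,
      mul_one] at h
  set s : Fin (finrank ℝ E) → ℝˣ := fun i =>
    Units.mk0 (√(w i))⁻¹ (inv_ne_zero (Real.sqrt_pos.2 (hw i)).ne')
  set T := b.toBasis.equiv (b.toBasis.unitsSMul s) (Equiv.refl _)
  have hT : ∀ i, T (b i) = (√(w i))⁻¹ • b i := fun i => by
    have := b.toBasis.equiv_apply i (b.toBasis.unitsSMul s) (Equiv.refl _)
    simpa [Basis.unitsSMul_apply, s, T, Units.smul_def] using this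
  have hcoef : ∀ u i, ⟪b i, T u⟫ = (√(w i))⁻¹ * ⟪b i, u⟫ := fun u i => by
    conv_lhs => rw [← b.sum_repr' u]
    simp only [map_sum, map_smul, hT, inner_sum, real_inner_smul_right, b.inner_eq_ite]
    simp [mul_comm]
  have hsymT : ∀ x u, ⟪T x, u⟫ = ⟪x, T u⟫ := fun x u => by
    rw [← b.sum_inner_mul_inner (T x) u, ← b.sum_inner_mul_inner x (T u)]
    refine Finset.sum_congr rfl fun i _ => ?_
    rw [real_inner_comm (b i) (T x), hcoef, hcoef, real_inner_comm (b i) x]
    ring
  refine ⟨T.toContinuousLinearEquiv, isotropic_of_mom (hK.image T.toContinuousLinearEquiv.continuous)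
    (c := |LinearMap.det (T : E →ₗ[ℝ] E)|) fun u => ?_⟩
  show mom (T '' K) u = _
  rw [mom_image T hK]
  congr 1
  simp only [hsymT]
  have e : ∫ x in K, ⟪x, T u⟫ ^ 2 = ⟪momOp hK (T u), T u⟫ := by
    rw [inner_momOp]; simp only [sq]
  rw [e, ← b.sum_inner_mul_inner, ← b.sum_sq_norm_inner_right u]
  refine Finset.sum_congr rfl fun i _ => ?_
  rw [hs (T u) (b i), hM, real_inner_smul_right, real_inner_comm (b i), hcoef, Real.norm_eq_abs,
    sq_abs, show w i * ((√(w i))⁻¹ * ⟪b i, u⟫) * ((√(w i))⁻¹ * ⟪b i, u⟫) =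
      w i / √(w i) ^ 2 * ⟪b i, u⟫ ^ 2 by rw [div_eq_mul_inv, ← inv_pow]; ring,
    Real.sq_sqrt (hw i).le, div_self (hw i).ne', one_mul]

/-- Scaling keeps isotropy. -/
theorem Isotropic.smul {K : Set E} (h : Isotropic K) {a : ℝ} (ha : 0 < a) :
    Isotropic (a • K) := by
  intro e he
  have hg : ∀ g : E → ℝ, ∫ x in a • K, g x = a ^ finrank ℝ E * ∫ x in K, g (a • x) := fun g => by
    rw [Measure.setIntegral_comp_smul_of_pos volume g K ha, smul_eq_mul, ← mul_assoc,
      mul_inv_cancel₀ (pow_pos ha _).ne', one_mul]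
  simp only [hg, real_inner_smul_right, norm_smul, mul_pow, integral_const_mul, Real.norm_eq_abs,
    sq_abs]
  linear_combination (a ^ finrank ℝ E * a ^ 2) * h e he

/-- Every symmetric body has an isotropic image. -/
theorem exists_isotropic_image {K : Set E} (hK : Body K) (_hs : -K = K) :
    ∃ T : E ≃L[ℝ] E, Isotropic (T '' K) :=
  exists_iso hK.compact hK.interior_nonempty

/-- A symmetric body contains the ball of least support value, and touches it. -/
theorem exists_contact [Nontrivial E] {K : Set E} (hK : Body K) (hs : -K = K) :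
    ∃ r : ℝ, 0 < r ∧ ∃ v : E, ‖v‖ = 1 ∧ closedBall 0 r ⊆ K ∧ supp K v = r := by
  have hne := hK.nonempty
  have hc : Continuous (supp K) := by
    unfold supp; exact hK.compact.continuous_sSup (by fun_prop)
  obtain ⟨v, hv, hmin⟩ := (isCompact_sphere (0 : E) 1).exists_isMinOn
    (NormedSpace.sphere_nonempty.2 zero_le_one) hc.continuousOn
  have hv1 : ‖v‖ = 1 := mem_sphere_zero_iff_norm.1 hv
  have hpos : 0 < supp K v := by
    obtain ⟨ε, hε, hball⟩ := Metric.isOpen_iff.1 isOpen_interior 0 (hK.zero_mem_interior hs)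
    have h1 := le_supp hK.compact v (interior_subset (hball (show (ε / 2) • v ∈ ball (0 : E) ε by
      simp [norm_smul, hv1, abs_of_pos hε]; linarith)))
    rw [real_inner_smul_right, real_inner_self_eq_norm_sq, hv1] at h1
    linarith
  refine ⟨supp K v, hpos, v, hv1, fun x hx => ?_, rfl⟩
  by_contra hnot
  obtain ⟨g, β, hgK, hgx⟩ :=
    geometric_hahn_banach_closed_point hK.convex hK.compact.isClosed hnot
  set w := (InnerProductSpace.toDual ℝ E).symm g
  have hg : ∀ z, ⟪w, z⟫ = g z := fun z => InnerProductSpace.toDual_symm_apply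
  have hw : w ≠ 0 := by
    intro h0
    obtain ⟨z, hz⟩ := hne
    have h1 := hgK z hz
    rw [← hg, h0, inner_zero_left] at h1 hgx
    linarith
  have hwn := norm_pos_iff.2 hw
  obtain ⟨z, hz, hzw⟩ := exists_supp_eq hK.compact hne (‖w‖⁻¹ • w)
  have h1 : supp K v ≤ supp K (‖w‖⁻¹ • w) :=
    hmin (show ‖w‖⁻¹ • w ∈ sphere (0 : E) 1 by
      rw [mem_sphere_zero_iff_norm]; exact norm_smul_inv_norm hw)
  have h2 : ⟪w, x⟫ ≤ ‖w‖ * supp K v :=
    (real_inner_le_norm _ _).trans
      (mul_le_mul_of_nonneg_left (mem_closedBall_zero_iff.1 hx) hwn.le)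
  rw [← hzw, real_inner_smul_left, le_inv_mul_iff₀ hwn] at h1
  have h3 := hgK z hz
  rw [← hg] at h3 hgx
  linarith

/-- In a symmetric body the support value bounds the absolute inner product. -/
theorem abs_inner_le_supp {K : Set E} (hK : Body K) (hs : -K = K) {v x : E} (hx : x ∈ K) :
    |⟪v, x⟫| ≤ supp K v := by
  refine abs_le.2 ⟨?_, le_supp hK.compact v hx⟩
  have := le_supp hK.compact v (show -x ∈ K by rw [← hs]; simpa using hx)
  rw [inner_neg_right] at this
  linarith

end Vale.Agent.P237.Petty
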