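import Vale.Agent.P237.Petty.Defs
import Vale.Agent.P237.AllN.Step
import Vale.Agent.P237.AllN.Cauchy
import Vale.Agent.P237.AllN.Approx

/-!
# Shadows of the projection body of a body through its sections
-/

namespace Vale.Agent.P237.Petty

open MeasureTheory Set Module Filter
open AllN (hslice vroot poly facet zono)
open scoped RealInnerProductSpace Pointwise Topology

variable {E : Type*} [NormedAddCommGroup E] [InnerProductSpace ℝ E] [FiniteDimensional ℝ E]
  [MeasurableSpace E] [BorelSpace E]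

/-- The zonotope of a polytope lies in its projection body. -/
theorem zono_subset_projBody {s : Finset E} {b : E → ℝ} (hs1 : ∀ z ∈ s, ‖z‖ = 1)
    (hP : IsCompact (poly s b)) :
    zono s (fun z => facet s b z / 2) ⊆ projBody (poly s b) := by
  intro x hx u hu
  refine (AllN.inner_zono_le (fun z _ => ?_) hx u).trans (le_of_eq ?_)
  · have := AllN.facet_nonneg s b z; positivity
  · rw [AllN.area_poly hs1 hP hu, Finset.sum_div]
    exact Finset.sum_congr rfl fun z _ => by ring

/-- The shadow of the projection body along `v` dominates the integral over the sections. -/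
theorem shadow_projBody (k : ℕ) {R : ℝ} (hR : 0 ≤ R) {v : E} (hv : ‖v‖ = 1)
    (hfin : finrank ℝ E = k + 2)
    (H : ∀ L : Set (ℝ ∙ v)ᗮ, IsCompact L → Convex ℝ L →
      R * volume.real L ^ k ≤ volume.real (projBody L))
    {K : Set E} (hK : IsCompact K) (hKc : Convex ℝ K) (h0 : (0 : E) ∈ interior K)
    {c d : ℝ} (hcd : c ≤ d) (hne : ∀ t ∈ Icc c d, (hslice v K t).Nonempty) :
    R * (∫ t in c..d, vroot (hslice v K t) ^ k) ^ (k + 1) ≤ area (projBody K) v := by
  have : Fact (finrank ℝ E = (k + 1) + 1) := ⟨hfin⟩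
  have hF : finrank ℝ (ℝ ∙ v)ᗮ = k + 1 :=
    Submodule.finrank_orthogonal_span_singleton (norm_ne_zero_iff.1 (by simp [hv]))
  have : Nontrivial (ℝ ∙ v)ᗮ := Module.nontrivial_of_finrank_eq_succ hF
  set F := ∫ t in c..d, vroot (hslice v K t) ^ k with hFdef
  have main : ∀ θ : ℝ, 0 < θ → θ < 1 → R * (θ ^ (k + 1) * F) ^ (k + 1) ≤ area (projBody K) v := by
    intro θ hθ hθ1
    obtain ⟨s, b, hs, hb, hP, hin, hout⟩ := AllN.exists_poly_between hK hKc h0 hθ hθ1
    set P := poly s b with hPdef
    have hPc : Convex ℝ P := AllN.convex_poly s b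
    obtain ⟨ρ, hρ, hball⟩ : ∃ ρ > 0, Metric.closedBall (0 : E) ρ ⊆ P := by
      obtain ⟨ρ, hρ, h⟩ := Metric.nhds_basis_closedBall.mem_iff.1 (mem_interior_iff_mem_nhds.1 h0)
      refine ⟨θ * ρ, by positivity, fun x hx => hin ?_⟩
      refine (mem_smul_set_iff_inv_smul_mem₀ hθ.ne' _ _).2 (h ?_)
      rw [mem_closedBall_zero_iff, norm_smul, Real.norm_eq_abs, abs_of_pos (inv_pos.2 hθ),
        inv_mul_le_iff₀ hθ]
      exact mem_closedBall_zero_iff.1 hx
    have hsub : ∀ t, θ • hslice v K (t / θ) ⊆ hslice v P t := by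
      rintro t _ ⟨y, hy, rfl⟩
      refine hin ⟨_, hy, ?_⟩
      simp only [smul_add, smul_smul, mul_div_cancel₀ _ hθ.ne', Submodule.coe_smul]
    have hdiv : ∀ t ∈ Icc (θ * c) (θ * d), t / θ ∈ Icc c d := fun t ht =>
      ⟨by rw [le_div_iff₀ hθ]; linarith [ht.1], by rw [div_le_iff₀ hθ]; linarith [ht.2]⟩
    have hneP : ∀ t ∈ Icc (θ * c) (θ * d), (hslice v P t).Nonempty := fun t ht =>
      ((hne _ (hdiv t ht)).smul_set (a := θ)).mono (hsub t)
    have hcdθ : θ * c ≤ θ * d := mul_le_mul_of_nonneg_left hcd hθ.le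
    obtain ⟨xP, -, hmaxP⟩ := AllN.exists_max_hslice v hP hcdθ
    obtain ⟨xK, -, hmaxK⟩ := AllN.exists_max_hslice v hK hcd
    have hintP := AllN.integrable_pow hcdθ (AllN.concaveOn_vroot_hslice v hP hPc hneP)
      (fun t _ => AllN.vroot_nonneg _) hmaxP k
    have hintK := AllN.integrable_pow hcd (AllN.concaveOn_vroot_hslice v hK hKc hne)
      (fun t _ => AllN.vroot_nonneg _) hmaxK k
    have hstep := AllN.shadow_bound k hR hv hfin H hP hPc hρ hball (s := s)
      (g := fun z => facet s b z / 2) (fun u hu => le_of_eq (by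
        rw [AllN.area_poly hs hP hu, Finset.sum_div]
        exact Finset.sum_congr rfl fun z _ => by ring)) hcdθ hneP
    have hle : θ ^ (k + 1) * F ≤ ∫ t in (θ * c)..(θ * d), vroot (hslice v P t) ^ k := by
      have e := intervalIntegral.integral_comp_div
        (f := fun t => vroot (hslice v K t) ^ k) (a := θ * c) (b := θ * d) hθ.ne'
      rw [mul_div_cancel_left₀ _ hθ.ne', mul_div_cancel_left₀ _ hθ.ne', smul_eq_mul, ← hFdef] at e
      rw [pow_succ, mul_assoc, ← e, ← intervalIntegral.integral_const_mul]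
      refine intervalIntegral.integral_mono_on hcdθ ?_ hintP fun t ht => ?_
      · have h' := hintK.comp_mul_left (c := θ⁻¹)
        simp only [div_inv_eq_mul] at h'
        rw [mul_comm c θ, mul_comm d θ] at h'
        refine IntervalIntegrable.const_mul ?_ _
        simpa only [div_eq_inv_mul] using h'
      · rw [← mul_pow, ← AllN.vroot_smul hθ.le]
        exact pow_le_pow_left₀ (AllN.vroot_nonneg _)
          (AllN.vroot_mono (AllN.isCompact_hslice v hP t) (hsub t)) k
    have hF0 : 0 ≤ θ ^ (k + 1) * F := mul_nonneg (by positivity)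
      (intervalIntegral.integral_nonneg hcd fun t _ => pow_nonneg (AllN.vroot_nonneg _) k)
    refine ((mul_le_mul_of_nonneg_left (pow_le_pow_left₀ hF0 hle _) hR).trans hstep).trans ?_
    exact AllN.area_mono (AllN.isCompact_projBody K)
      ((zono_subset_projBody hs hP).trans (AllN.projBody_mono hK hout)) v
  refine le_of_tendsto (f := fun θ : ℝ => R * (θ ^ (k + 1) * F) ^ (k + 1)) (x := 𝓝[<] (1 : ℝ)) ?_ ?_
  · exact (Continuous.tendsto' (by fun_prop) 1 _ (by simp)).mono_left nhdsWithin_le_nhds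
  · filter_upwards [Ioo_mem_nhdsLT zero_lt_one] with θ hθ using main θ hθ.1 hθ.2

end Vale.Agent.P237.Petty
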