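import Vale.Agent.P237.Petty.Defs

/-!
# P237: the ball constants in low dimension
-/

namespace Vale.Agent.P237.Petty

open MeasureTheory

theorem kappa_one : kappa 1 = 2 := by
  rw [kappa, measureReal_def,
    InnerProductSpace.volume_closedBall_of_dim_odd (k := 0) (by simp)]
  simp

theorem kappa_two : kappa 2 = Real.pi := by
  simp [kappa, measureReal_def, Real.pi_nonneg]

theorem kappa_three : kappa 3 = 4 * Real.pi / 3 := by
  simp [kappa, measureReal_def]
  rw [ENNReal.toReal_ofReal (by positivity)]
  ring

theorem cPetty_two : cPetty 2 = 4 := by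
  simp [cPetty, kappa_one]
  norm_num

theorem cPetty_three : cPetty 3 = 3 * Real.pi ^ 2 / 4 := by
  rw [cPetty, show (3 : ℕ) - 1 = 2 from rfl, show (3 : ℕ) - 2 = 1 from rfl, kappa_two, kappa_three,
    pow_one]
  field_simp

end Vale.Agent.P237.Petty
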