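import Vale.Agent.P237.Petty.Induction
import Vale.Agent.P237.Petty.Ball
import Vale.Agent.P237.Petty.Values
import Vale.Agent.P237.AllN.Approx

/-!
# The sharp inequality, given the one-dimensional lemmas
-/

namespace Vale.Agent.P237.Petty

open MeasureTheory Set Module
open scoped RealInnerProductSpace Pointwise

universe u

set_option linter.unusedSectionVars false

theorem circ_eq (j : ℕ) : circ j = kappa (j + 1) / kappa j := circle_integral j

/-- The step sends the ball value to the ball value. -/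
theorem stepValue_cPetty (m : ℕ) : stepValue (m + 1) (cPetty (m + 2)) = cPetty (m + 3) := by
  simp only [stepValue, cPetty, circ_eq, Nat.add_sub_cancel,
    show m + 2 - 1 = m + 1 by omega, show m + 3 - 1 = m + 2 by omega,
    show m + 3 - 2 = m + 1 by omega, show m + 1 + 1 = m + 2 by omega,
    show m + 2 + 1 = m + 3 by omega, div_pow]
  have h1 := (kappa_pos (m + 1)).ne'
  have h2 := (kappa_pos (m + 2)).ne'
  have h3 := (kappa_pos (m + 3)).ne'
  field_simp
  ring

theorem cPetty_pos (n : ℕ) : 0 < cPetty n :=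
  div_pos (pow_pos (kappa_pos _) _) (pow_pos (kappa_pos _) _)

variable {E : Type u} [NormedAddCommGroup E] [InnerProductSpace ℝ E] [FiniteDimensional ℝ E]
  [MeasurableSpace E] [BorelSpace E]

theorem mul_le_of_le_ratio {c : ℝ} {K : Set E} (hK : Body K) (h : c ≤ ratio K) :
    c * volume.real K ^ (finrank ℝ E - 1) ≤ volume.real (projBody K) := by
  rwa [ratio, le_div_iff₀ (pow_pos hK.volume_pos _)] at h

/-- A bound for bodies in a hyperplane extends to all compact convex sets. -/
theorem hyperplane_hyp {m : ℕ} {c : ℝ}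
    (h : ∀ K : Set E, Body K → c ≤ ratio K) (hfin : finrank ℝ E = m + 2)
    (L : Set E) (hL : IsCompact L) (hLc : Convex ℝ L) :
    c * volume.real L ^ (m + 1) ≤ volume.real (projBody L) := by
  by_cases hi : (interior L).Nonempty
  · have hB : Body L := ⟨hL, hLc, hi⟩
    have := mul_le_of_le_ratio hB (h L hB)
    rwa [hfin, show m + 2 - 1 = m + 1 by omega] at this
  · have h0 : volume L = 0 := measure_mono_null (t := frontier L)
      (fun x hx => ⟨subset_closure hx, fun h' => hi ⟨x, h'⟩⟩) (hLc.addHaar_frontier volume)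
    rw [measureReal_def (s := L), h0, ENNReal.toReal_zero, zero_pow (by omega), mul_zero]
    exact measureReal_nonneg

/-- The sharp inequality up to the dimension where the profile lemma is known. -/
theorem petty_le (N : ℕ) (hlem : ∀ p, 1 ≤ p → p + 2 ≤ N → ProfileLemma p) :
    ∀ n, 2 ≤ n → n ≤ N → ∀ {E : Type u} [NormedAddCommGroup E] [InnerProductSpace ℝ E]
      [FiniteDimensional ℝ E] [MeasurableSpace E] [BorelSpace E], finrank ℝ E = n →
      ∀ K : Set E, Body K → cPetty n ≤ ratio K := by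
  intro n
  induction n using Nat.strong_induction_on with
  | _ n ih => ?_
  intro hn hN E _ _ _ _ _ hfin K hK
  rcases eq_or_lt_of_le hn with rfl | h2
  · rw [ratio, le_div_iff₀ (pow_pos hK.volume_pos _), hfin, cPetty_two, show (2 : ℕ) - 1 = 1 from rfl,
      pow_one]
    exact AllN.planar hfin hK.compact hK.convex
  obtain ⟨m, rfl⟩ : ∃ m, n = m + 3 := ⟨n - 3, by omega⟩
  have H : ∀ v : E, ‖v‖ = 1 → ∀ L : Set (ℝ ∙ v)ᗮ, IsCompact L → Convex ℝ L →
      cPetty (m + 2) * volume.real L ^ (m + 1) ≤ volume.real (projBody L) := by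
    intro v hv
    have : Fact (finrank ℝ E = (m + 2) + 1) := ⟨hfin⟩
    have hF : finrank ℝ (ℝ ∙ v)ᗮ = m + 2 :=
      Submodule.finrank_orthogonal_span_singleton (norm_ne_zero_iff.1 (by simp [hv]))
    exact hyperplane_hyp (fun L hL => ih (m + 2) (by omega) (by omega) (by omega)
      (E := (ℝ ∙ v)ᗮ) hF L hL) hF
  obtain ⟨K₀, hK₀, hs₀, hmin⟩ := exists_min (E := E) (by omega)
  have h0 := (chain (k := m + 1) hfin (hlem (m + 1) (by omega) (by omega)) (cPetty_pos _) H hK₀ hs₀
    (hmin _ (body_projBody hK₀) (neg_projBody K₀))).1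
  rw [stepValue_cPetty] at h0
  exact h0.trans ((hmin _ (body_projBody hK) (neg_projBody K)).trans
    (ratio_projBody_le (by omega) hK))

/-- The affine images of the unit ball attain the value. -/
theorem ratio_ellipsoid (hn : 2 ≤ finrank ℝ E) (T : E ≃L[ℝ] E) (a : E) :
    ratio ((fun x => a + x) '' (T '' Metric.closedBall 0 1)) = cPetty (finrank ℝ E) := by
  have : Nontrivial E := nontrivial_of_finrank_pos (R := ℝ) (by omega)
  have hB : Body (Metric.closedBall (0 : E) 1) :=
    ⟨isCompact_closedBall 0 1, convex_closedBall 0 1,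
      ⟨0, interior_mono Metric.ball_subset_closedBall (by rw [Metric.isOpen_ball.interior_eq]; simp)⟩⟩
  rw [ratio_translate, ratio_image T hB, ratio_closedBall hn]

/-- Equality holds only at ellipsoids. -/
theorem petty_eq (N : ℕ) (hlem : ∀ p, 1 ≤ p → p + 2 ≤ N → ProfileLemma p) {n : ℕ} (hn : 3 ≤ n)
    (hN : n ≤ N) (hfin : finrank ℝ E = n) {K : Set E} (hK : Body K)
    (heq : ratio K ≤ cPetty n) :
    ∃ (T : E ≃L[ℝ] E) (a : E), K = (fun x => a + x) '' (T '' Metric.closedBall 0 1) := by
  obtain ⟨m, rfl⟩ : ∃ m, n = m + 3 := ⟨n - 3, by omega⟩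
  have : Nontrivial E := Module.nontrivial_of_finrank_eq_succ hfin
  have H : ∀ v : E, ‖v‖ = 1 → ∀ L : Set (ℝ ∙ v)ᗮ, IsCompact L → Convex ℝ L →
      cPetty (m + 2) * volume.real L ^ (m + 1) ≤ volume.real (projBody L) := by
    intro v hv
    have : Fact (finrank ℝ E = (m + 2) + 1) := ⟨hfin⟩
    have hF : finrank ℝ (ℝ ∙ v)ᗮ = m + 2 :=
      Submodule.finrank_orthogonal_span_singleton (norm_ne_zero_iff.1 (by simp [hv]))
    exact hyperplane_hyp (fun L hL => petty_le N hlem (m + 2) (by omega) (by omega)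
      (E := (ℝ ∙ v)ᗮ) hF L hL) hF
  have hle : ∀ L : Set E, Body L → cPetty (m + 3) ≤ ratio L := fun L hL =>
    petty_le N hlem (m + 3) (by omega) hN hfin L hL
  obtain ⟨a, ha⟩ := fixed_translate (by omega) hK (heq.trans (hle _ (body_projBody hK)))
  set K₁ := (fun x => a + x) '' K with hK₁
  have hK₁b : Body K₁ := hK.translate a
  have hr : ratio K₁ = ratio K := ratio_translate a K
  obtain ⟨-, h2⟩ := chain (k := m + 1) hfin (hlem (m + 1) (by omega) (by omega)) (cPetty_pos _) H
    hK₁b ha ((hr.le.trans heq).trans (hle _ (body_projBody hK₁b)))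
  obtain ⟨T, hT, hball, hvol⟩ := h2 (by rw [stepValue_cPetty, hr]; exact heq)
  have hball' : T '' K₁ = Metric.closedBall 0 1 := by
    refine eq_ball hT hball (le_of_eq ?_)
    rw [hvol, circ_eq, hfin, mul_div_cancel₀ _ (kappa_pos _).ne']
  refine ⟨T.symm, -a, ?_⟩
  rw [← hball', image_image, hK₁, image_image, image_image]
  simp

end Vale.Agent.P237.Petty
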