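import Vale.Agent.P237.Petty.Sharp
import Vale.Agent.P237.Petty.John
import Vale.Agent.P237.Petty.Dirichlet
import Vale.Agent.P237.Petty.Correlation
import Vale.Agent.P237.Petty.Entropy

/-!
# P237: the step of the induction in John position

In John position three averaged facts hold at the contacts: the Dirichlet bound of the gauge, the
correlation with the ball, and the entropy bound of the gauge lift. A one-variable statement using
any nonnegative combination of them gives the step of the sharp induction.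
-/

namespace Vale.Agent.P237.Petty

open MeasureTheory Set Module
open AllN (hslice vroot glue)
open scoped RealInnerProductSpace Pointwise

universe u

set_option linter.unusedSectionVars false

/-- The average of `h` against the weight `f ^ j` on `[-1, 1]`. -/
noncomputable def pavg (j : ℕ) (f h : ℝ → ℝ) : ℝ :=
  (∫ t in (-1 : ℝ)..1, h t * f t ^ j) / ∫ t in (-1 : ℝ)..1, f t ^ j

/-- The volume of a body with profile `f`, relative to the ball, in dimension `p + 2`. -/
noncomputable def relVolume (p : ℕ) (f : ℝ → ℝ) : ℝ :=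
  (∫ t in (-1 : ℝ)..1, f t ^ (p + 1)) / circ (p + 1)

/-- The Dirichlet term of a profile, tested on `φ`. -/
noncomputable def dirTerm (p : ℕ) (f φ : ℝ → ℝ) : ℝ :=
  1 - pavg (p + 1) f fun t => 2 * deriv φ t - ((p : ℝ) + 2) * φ t ^ 2 - 2 * t * φ t * deriv φ t

/-- The correlation term of a profile, tested on the pair `ψ`, `χ`. -/
noncomputable def corTerm (p : ℕ) (f ψ χ : ℝ → ℝ) : ℝ :=
  pavg (p + 1) f ψ + pavg (p + 1) (fun t => √(1 - t ^ 2)) χ -
    relVolume p f ^ (((p : ℝ) + 2)⁻¹) / ((p : ℝ) + 4)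

/-- The entropy term of a profile, tested on the density `g`. -/
noncomputable def entTerm (p : ℕ) (f g : ℝ → ℝ) : ℝ :=
  -((∫ w in Ioi (0 : ℝ), w ^ (p + 3) * Real.exp (-(w ^ 2) / 2) *
      pavg (p + 1) f fun t => Real.log (g (w * t))) / radial (p + 3)) -
    Real.log (2 * Real.pi * Real.exp 1) / 2 - Real.log (relVolume p f) / ((p : ℝ) + 2)

/-- Admissible test functions. -/
structure Tests (φ ψ χ g : ℝ → ℝ) : Prop where
  lipschitz : ∃ L, LipschitzWith L φ
  left : Continuous ψ
  right : Continuous χ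
  young : ∀ s ∈ Icc (-1 : ℝ) 1, ∀ t ∈ Icc (-1 : ℝ) 1, s * t ≤ ψ s + χ t
  continuous : Continuous g
  positive : ∀ t, 0 < g t
  integrable : Integrable g
  mass : ∫ t, g t ≤ 1
  growth : ∃ (A : ℝ) (k : ℕ), ∀ t, |Real.log (g t)| ≤ A * (1 + |t|) ^ k

/-- The one-dimensional statement in John position used in dimension `p + 2`: the multipliers may
depend on the relative volume, the test functions on the profile. -/
def ProfileCriterion (p : ℕ) : Prop :=
  ∃ mu nu lam : ℝ → ℝ, (∀ b, 0 ≤ mu b ∧ 0 ≤ nu b ∧ 0 ≤ lam b) ∧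
    ∀ f : ℝ → ℝ, ConcaveOn ℝ (Icc (-1) 1) f → (∀ t, f (-t) = f t) →
      (∀ t ∈ Icc (-1 : ℝ) 1, √(1 - t ^ 2) ≤ f t) →
      (∀ j : ℕ, IntervalIntegrable (fun t => f t ^ j) volume (-1) 1) →
      ∃ φ ψ χ g : ℝ → ℝ, Tests φ ψ χ g ∧
        (0 ≤ mu (relVolume p f) * dirTerm p f φ + nu (relVolume p f) * corTerm p f ψ χ +
            lam (relVolume p f) * entTerm p f g →
          circ p ^ (p + 1) * (∫ t in (-1)..1, f t ^ (p + 1)) ^ p ≤
              (∫ t in (-1)..1, f t ^ p) ^ (p + 1) * circ (p + 1) ^ p ∧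
            (circ p ^ (p + 1) * (∫ t in (-1)..1, f t ^ (p + 1)) ^ p =
              (∫ t in (-1)..1, f t ^ p) ^ (p + 1) * circ (p + 1) ^ p →
              ∫ t in (-1)..1, f t ^ (p + 1) = circ (p + 1)))

/-- The conclusion of one step of the induction in dimension `k + 2`. -/
def StepHolds (k : ℕ) : Prop :=
  ∀ {E : Type u} [NormedAddCommGroup E] [InnerProductSpace ℝ E] [FiniteDimensional ℝ E]
    [MeasurableSpace E] [BorelSpace E], finrank ℝ E = k + 2 → ∀ R : ℝ, 0 < R →
    (∀ v : E, ‖v‖ = 1 → ∀ L : Set (ℝ ∙ v)ᗮ, IsCompact L → Convex ℝ L →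
      R * volume.real L ^ k ≤ volume.real (projBody L)) →
    ∀ K : Set E, Body K → -K = K → ratio K ≤ ratio (projBody K) →
      stepValue k R ≤ ratio K ∧
        (ratio K ≤ stepValue k R → ∃ T : E ≃L[ℝ] E, Body (T '' K) ∧
          Metric.closedBall 0 1 ⊆ T '' K ∧
            volume.real (T '' K) = kappa (k + 1) * circ (k + 1))

/-- The isotropic profile lemma gives a step. -/
theorem stepHolds_of_profileLemma {k : ℕ} (h : ProfileLemma k) : StepHolds.{u} k :=
  fun hfin _ hR H _ hK hs hfix => chain hfin h hR H hK hs hfix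

variable {E : Type u} [NormedAddCommGroup E] [InnerProductSpace ℝ E] [FiniteDimensional ℝ E]
  [MeasurableSpace E] [BorelSpace E]

/-- Integrals of functions of the height over a body in a slab. -/
theorem integral_height {v : E} (hv : ‖v‖ = 1) {X : Set E} (hX : IsCompact X)
    (hb : ∀ x ∈ X, |⟪v, x⟫| ≤ 1) {h : ℝ → ℝ} (hh : Measurable h) {C : ℝ}
    (hC : ∀ t ∈ Icc (-1 : ℝ) 1, |h t| ≤ C) :
    ∫ x in X, h ⟪v, x⟫ = ∫ t in (-1)..1, h t * volume.real (hslice v X t) := by
  have hm := AllN.measurePreserving_glue hv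
  have hinj : Function.Injective (glue v) := fun p q h => by
    have h1 := congrArg (ℝ ∙ v)ᗮ.orthogonalProjectionOnto h
    have h2 := congrArg (fun z => ⟪v, z⟫) h
    rw [AllN.proj_glue, AllN.proj_glue] at h1
    simp only [AllN.inner_glue hv] at h2
    exact Prod.ext h1 h2
  have he := (AllN.continuous_glue v).measurableEmbedding hinj
  have hg : Measurable fun x : E => h ⟪v, x⟫ :=
    hh.comp (continuous_const.inner continuous_id).measurable
  have hint : IntegrableOn (fun x : E => h ⟪v, x⟫) X :=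
    integrableOn_bdd hX hg (C := C) fun x hx => hC _ (abs_le.1 (hb x hx))
  set F := (glue v ⁻¹' X).indicator (fun p => h ⟪v, glue v p⟫) with hFdef
  have hmeas : MeasurableSet (glue v ⁻¹' X) := (AllN.continuous_glue v).measurable hX.measurableSet
  have hF : Integrable F := by
    rw [hFdef, integrable_indicator_iff hmeas]
    exact (hm.integrableOn_comp_preimage he).2 hint
  have hsl : ∀ t, ∫ y, F (y, t) = h t * volume.real (hslice v X t) := fun t => by
    have e : (fun y => F (y, t)) = (hslice v X t).indicator fun _ => h t := by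
      funext y
      by_cases hy : y ∈ hslice v X t
      · rw [indicator_of_mem hy, hFdef, indicator_of_mem (show (y, t) ∈ glue v ⁻¹' X from hy),
          AllN.inner_glue hv]
      · rw [indicator_of_notMem hy, hFdef,
          indicator_of_notMem (show (y, t) ∉ glue v ⁻¹' X from hy)]
    rw [e, integral_indicator (AllN.isCompact_hslice v hX t).measurableSet, setIntegral_const,
      smul_eq_mul, mul_comm]
  rw [← hm.setIntegral_preimage_emb he, ← integral_indicator hmeas, Measure.volume_eq_prod]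
  rw [Measure.volume_eq_prod] at hF
  rw [integral_prod_symm _ hF]
  refine (integral_congr_ae (Filter.Eventually.of_forall hsl)).trans ?_
  rw [intervalIntegral.integral_of_le (by norm_num), ← integral_Icc_eq_integral_Ioc,
    setIntegral_eq_integral_of_forall_compl_eq_zero]
  intro t ht
  have : hslice v X t = ∅ := eq_empty_of_forall_notMem fun y hy => ht (by
    have := hb _ hy
    rw [show (y : E) + t • v = glue v (y, t) from rfl, AllN.inner_glue hv] at this
    exact abs_le.1 this)
  simp [this]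

/-- The section profile at a contact direction of a body containing the unit ball. -/
theorem contact_profile (k : ℕ) (hfin : finrank ℝ E = k + 2) {K : Set E} (hK : Body K)
    (hs : -K = K) (hball : Metric.closedBall 0 1 ⊆ K) {v : E} (hv : ‖v‖ = 1)
    (hsupp : supp K v = 1) :
    let f := fun t => vroot (hslice v K t) / kappa (k + 1) ^ ((k + 1 : ℝ)⁻¹)
    (∀ t ∈ Icc (-1 : ℝ) 1, (hslice v K t).Nonempty) ∧
      ConcaveOn ℝ (Icc (-1) 1) f ∧ (∀ t, f (-t) = f t) ∧
      (∀ t ∈ Icc (-1 : ℝ) 1, √(1 - t ^ 2) ≤ f t) ∧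
      (∀ j : ℕ, IntervalIntegrable (fun t => f t ^ j) volume (-1) 1) ∧
      (∀ t, volume.real (hslice v K t) = kappa (k + 1) * f t ^ (k + 1)) ∧
      volume.real K = kappa (k + 1) * ∫ t in (-1)..1, f t ^ (k + 1) := by
  intro f
  have : Fact (finrank ℝ E = (k + 1) + 1) := ⟨hfin⟩
  have hm : finrank ℝ (ℝ ∙ v)ᗮ = k + 1 :=
    Submodule.finrank_orthogonal_span_singleton (norm_ne_zero_iff.1 (by simp [hv]))
  have : Nontrivial (ℝ ∙ v)ᗮ := Module.nontrivial_of_finrank_eq_succ hm
  have hd := disc_pos v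
  have hf : f = profile v K := funext fun t => by
    simp only [f, profile, disc_eq hm, Nat.cast_add, Nat.cast_one]
  have hpow : disc v ^ (k + 1) = kappa (k + 1) := by
    rw [← real_closedBall hm, disc, ← hm, AllN.vroot_pow]
  have hb : ∀ x ∈ K, |⟪v, x⟫| ≤ 1 := fun x hx => hsupp ▸ abs_inner_le_supp hK hs hx
  have hX := hK.compact
  have hsub : ∀ t ∈ Icc (-1 : ℝ) 1,
      Metric.closedBall (0 : (ℝ ∙ v)ᗮ) √(1 - t ^ 2) ⊆ hslice v K t :=
    fun t ht => hslice_ball hv ht ▸ AllN.hslice_mono v hball t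
  have hne : ∀ t ∈ Icc (-1 : ℝ) 1, (hslice v K t).Nonempty := fun t ht =>
    (Metric.nonempty_closedBall.2 (Real.sqrt_nonneg _)).mono (hsub t ht)
  have hconc : ConcaveOn ℝ (Icc (-1) 1) (profile v K) := by
    have h := (AllN.concaveOn_vroot_hslice v hX hK.convex hne).smul (inv_nonneg.2 hd.le)
    rw [show profile v K = fun t => (disc v)⁻¹ * vroot (hslice v K t) from
      funext fun t => div_eq_inv_mul _ _]
    simpa [smul_eq_mul] using h
  rw [hf, ← hpow]
  refine ⟨hne, hconc, fun t => ?_, fun t ht => ?_, fun j => ?_, fun t => ?_, ?_⟩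
  · have e : hslice v K (-t) = -hslice v K t := by
      ext y
      show glue v (y, -t) ∈ K ↔ glue v (-y, t) ∈ K
      conv_rhs => rw [← hs, Set.mem_neg]
      simp only [glue, Submodule.coe_neg, neg_add, neg_neg, neg_smul]
    rw [profile, profile, e, vroot, vroot, measureReal_def, measureReal_def, Measure.measure_neg]
  · rw [profile, le_div_iff₀ hd, ← vroot_closedBall v (Real.sqrt_nonneg _)]
    exact AllN.vroot_mono (AllN.isCompact_hslice v hX t) (hsub t ht)
  · obtain ⟨x₀, -, hmax⟩ := AllN.exists_max_hslice v hX (show (-1 : ℝ) ≤ 1 by norm_num)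
    exact AllN.integrable_pow (by norm_num) hconc
      (fun t _ => div_nonneg (AllN.vroot_nonneg _) hd.le)
      (fun t ht => div_le_div_of_nonneg_right (hmax t ht) hd.le) j
  · rw [profile_pow v K t, hm]
  · rw [volume_profile hv hX hb, hm]

/-- The fixed point property survives linear images. -/
theorem ratio_projBody_image [Nontrivial E] {K : Set E} (hK : Body K) (T : E ≃L[ℝ] E) :
    ratio (projBody (T '' K)) = ratio (projBody K) := by
  rw [show (T : E → E) '' K = T.toLinearEquiv '' K from rfl, projBody_map hK.compact]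
  set D := |LinearMap.det (T.toLinearEquiv : E →ₗ[ℝ] E)|
  have hD : D ≠ 0 := abs_ne_zero.2 T.toLinearEquiv.isUnit_det'.ne_zero
  set A : E ≃ₗ[ℝ] E := LinearEquiv.ofBijective
    (LinearMap.adjoint (T.toLinearEquiv.symm : E →ₗ[ℝ] E)) (by
      constructor
      · intro x y hxy
        have h := congrArg (LinearMap.adjoint (T.toLinearEquiv : E →ₗ[ℝ] E)) hxy
        rw [← LinearMap.comp_apply, ← LinearMap.comp_apply, ← LinearMap.adjoint_comp,
          LinearEquiv.symm_comp, LinearMap.adjoint_id] at h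
        simpa using h
      · intro y
        refine ⟨LinearMap.adjoint (T.toLinearEquiv : E →ₗ[ℝ] E) y, ?_⟩
        rw [← LinearMap.comp_apply, ← LinearMap.adjoint_comp, LinearEquiv.comp_symm,
          LinearMap.adjoint_id]
        rfl)
  have e2 : D • ((LinearMap.adjoint (T.toLinearEquiv.symm : E →ₗ[ℝ] E)) '' projBody K) =
      (A.trans (LinearEquiv.smulOfNeZero ℝ E D hD)) '' projBody K := by
    rw [← image_smul, image_image]; rfl
  rw [e2]
  exact ratio_map (AllN.isCompact_projBody K) _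

/-- The three averaged facts, summed over the contacts. -/
theorem combination_nonneg (k : ℕ) (hfin : finrank ℝ E = k + 2) {K : Set E} (hK : Body K)
    (hs : -K = K) (hball : Metric.closedBall 0 1 ⊆ K) (s : Finset E) (c : E → ℝ)
    (hc : ∀ v ∈ s, 0 ≤ c v ∧ ‖v‖ = 1 ∧ supp K v = 1) (hsum : ∑ v ∈ s, c v = finrank ℝ E)
    (hid : ∀ x : E, ∑ v ∈ s, c v * ⟪v, x⟫ ^ 2 = ‖x‖ ^ 2) {a₁ a₂ a₃ : ℝ} (h₁ : 0 ≤ a₁)
    (h₂ : 0 ≤ a₂) (h₃ : 0 ≤ a₃) (φ ψ χ g : E → ℝ → ℝ)
    (htest : ∀ v ∈ s, Tests (φ v) (ψ v) (χ v) (g v)) :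
    let f := fun v t => vroot (hslice v K t) / kappa (k + 1) ^ ((k + 1 : ℝ)⁻¹)
    0 ≤ ∑ v ∈ s, c v * (a₁ * dirTerm k (f v) (φ v) + a₂ * corTerm k (f v) (ψ v) (χ v) +
      a₃ * entTerm k (f v) (g v)) := by
  intro f
  set V := volume.real K with hVdef
  have hV : 0 < V := hK.volume_pos
  have hκ := kappa_pos (k + 1)
  have hκ2 := kappa_pos (k + 2)
  have hn : (finrank ℝ E : ℝ) = k + 2 := by rw [hfin]; push_cast; ring
  have hcirc : circ (k + 1) = kappa (k + 2) / kappa (k + 1) := circ_eq (k + 1)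
  set β := V / kappa (k + 2) with hβ
  have hbound : ∀ {v : E}, v ∈ s → ∀ x ∈ K, |⟪v, x⟫| ≤ 1 := fun hv x hx =>
    (hc _ hv).2.2 ▸ abs_inner_le_supp hK hs hx
  have hBb : ∀ {v : E}, v ∈ s → ∀ x ∈ Metric.closedBall (0 : E) 1, |⟪v, x⟫| ≤ 1 := fun hv x hx =>
    (abs_real_inner_le_norm _ x).trans (by
      rw [(hc _ hv).2.1, one_mul]; exact mem_closedBall_zero_iff.1 hx)
  have hV' : ∀ v ∈ s, V = kappa (k + 1) * ∫ t in (-1)..1, f v t ^ (k + 1) := fun v hv =>
    (contact_profile k hfin hK hs hball (hc v hv).2.1 (hc v hv).2.2).2.2.2.2.2.2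
  have hrel : ∀ v ∈ s, relVolume k (f v) = β := fun v hv => by
    rw [relVolume, hcirc, hβ, hV' v hv]
    field_simp
  have havg : ∀ v ∈ s, ∀ {h : ℝ → ℝ}, Measurable h → ∀ {C : ℝ},
      (∀ t ∈ Icc (-1 : ℝ) 1, |h t| ≤ C) →
      ∫ x in K, h ⟪v, x⟫ = V * pavg (k + 1) (f v) h := by
    intro v hv h hh C hC
    obtain ⟨-, -, -, -, -, hsl, hvol⟩ := contact_profile k hfin hK hs hball (hc v hv).2.1 (hc v hv).2.2
    rw [integral_height (hc v hv).2.1 hK.compact (hbound hv) hh hC]
    simp only [hsl]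
    have hB : (∫ t in (-1 : ℝ)..1, f v t ^ (k + 1)) ≠ 0 := fun e => hV.ne' (by
      rw [hV' v hv, e, mul_zero])
    rw [pavg, hV' v hv, mul_assoc, mul_div_cancel₀ _ hB, ← intervalIntegral.integral_const_mul]
    exact intervalIntegral.integral_congr fun t _ => by ring
  have havgB : ∀ v ∈ s, ∀ {h : ℝ → ℝ}, Continuous h →
      ∫ x in Metric.closedBall (0 : E) 1, h ⟪v, x⟫ =
        kappa (k + 2) * pavg (k + 1) (fun t => √(1 - t ^ 2)) h := by
    intro v hv h hh
    obtain ⟨C, hC⟩ := isCompact_Icc.exists_bound_of_continuousOn (hh.continuousOn (s := Icc (-1 : ℝ) 1))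
    have hm : finrank ℝ (ℝ ∙ v)ᗮ = k + 1 := by rw [finrank_perp (hc v hv).2.1, hfin]; rfl
    rw [integral_height (hc v hv).2.1 (isCompact_closedBall _ _) (hBb hv) hh.measurable hC, pavg,
      ← circ, hcirc, div_div_eq_mul_div, mul_div_cancel₀ _ hκ2.ne', mul_comm,
      ← intervalIntegral.integral_const_mul]
    refine intervalIntegral.integral_congr fun t ht => ?_
    rw [uIcc_of_le (by norm_num)] at ht
    rw [hslice_ball (hc v hv).2.1 ht, volume_ball_radius hm (Real.sqrt_nonneg _)]
    ring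
  -- Dirichlet
  have hD : 0 ≤ ∑ v ∈ s, c v * dirTerm k (f v) (φ v) := by
    have h := dirichlet_sum hK hball s c (fun v hv => ⟨(hc v hv).1, (hc v hv).2.1⟩) hid φ
      fun v hv => (htest v hv).lipschitz
    have e : ∀ v ∈ s, c v * ∫ x in K, (2 * deriv (φ v) ⟪v, x⟫ -
        finrank ℝ E * φ v ⟪v, x⟫ ^ 2 - 2 * ⟪v, x⟫ * φ v ⟪v, x⟫ * deriv (φ v) ⟪v, x⟫) =
        V * (c v * (1 - dirTerm k (f v) (φ v))) := fun v hv => by
      obtain ⟨L, hL⟩ := (htest v hv).lipschitz
      obtain ⟨C, hC⟩ := isCompact_Icc.exists_bound_of_continuousOn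
        (hL.continuous.continuousOn (s := Icc (-1 : ℝ) 1))
      have hh : Measurable fun t => 2 * deriv (φ v) t - ((k : ℝ) + 2) * φ v t ^ 2 -
          2 * t * φ v t * deriv (φ v) t :=
        ((measurable_const.mul (measurable_deriv _)).sub
          (measurable_const.mul (hL.continuous.measurable.pow_const 2))).sub
          (((measurable_const.mul measurable_id).mul hL.continuous.measurable).mul
            (measurable_deriv _))
      have hbd : ∀ t ∈ Icc (-1 : ℝ) 1, |2 * deriv (φ v) t - ((k : ℝ) + 2) * φ v t ^ 2 -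
          2 * t * φ v t * deriv (φ v) t| ≤ 2 * L + ((k : ℝ) + 2) * C ^ 2 + 2 * C * L := fun t ht => by
        have h1 : |deriv (φ v) t| ≤ L := norm_deriv_le_of_lipschitz hL
        have h2 : |φ v t| ≤ C := hC t ht
        have h3 : |t| ≤ 1 := abs_le.2 ht
        refine (abs_sub _ _).trans (add_le_add ((abs_sub _ _).trans (add_le_add ?_ ?_)) ?_)
        · rw [abs_mul, abs_two]; exact mul_le_mul_of_nonneg_left h1 zero_le_two
        · rw [abs_mul, abs_pow, abs_of_nonneg (by positivity : (0 : ℝ) ≤ k + 2)]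
          exact mul_le_mul_of_nonneg_left (pow_le_pow_left₀ (abs_nonneg _) h2 2) (by positivity)
        · rw [abs_mul, abs_mul, abs_mul, abs_two]
          calc 2 * |t| * |φ v t| * |deriv (φ v) t| ≤ 2 * 1 * C * L :=
                mul_le_mul (mul_le_mul (mul_le_mul_of_nonneg_left h3 zero_le_two) h2 (abs_nonneg _)
                  (by norm_num)) h1 (abs_nonneg _)
                  (mul_nonneg (by norm_num) ((abs_nonneg _).trans h2))
            _ = 2 * C * L := by ring
      rw [hn, havg v hv hh hbd, dirTerm, sub_sub_cancel]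
      ring
    rw [Finset.sum_congr rfl e, ← Finset.mul_sum, ← hVdef, mul_comm _ V] at h
    have h' := le_of_mul_le_mul_left h hV
    simp only [mul_sub, mul_one, Finset.sum_sub_distrib, hsum] at h'
    linarith
  -- correlation
  have hW : 0 ≤ ∑ v ∈ s, c v * corTerm k (f v) (ψ v) (χ v) := by
    have h := correlation_sum hK s c (fun v hv => (hc v hv).1) hid ψ χ
      (fun v hv => (htest v hv).left) (fun v hv => (htest v hv).right) fun v hv x hx y hy =>
        (htest v hv).young _ (abs_le.1 (hbound hv x hx)) _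
          (abs_le.1 (hBb hv y (mem_closedBall_zero_iff.2 hy)))
    have e : ∀ v ∈ s, c v * ((∫ x in K, ψ v ⟪v, x⟫) / V +
        (∫ y in Metric.closedBall (0 : E) 1, χ v ⟪v, y⟫) / kappa (finrank ℝ E)) =
        c v * corTerm k (f v) (ψ v) (χ v) + c v * (β ^ (((k : ℝ) + 2)⁻¹) / ((k : ℝ) + 4)) :=
      fun v hv => by
        obtain ⟨C, hC⟩ := isCompact_Icc.exists_bound_of_continuousOn
          ((htest v hv).left.continuousOn (s := Icc (-1 : ℝ) 1))
        rw [havg v hv (htest v hv).left.measurable hC, havgB v hv (htest v hv).right,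
          mul_div_cancel_left₀ _ hV.ne', hfin, mul_div_cancel_left₀ _ hκ2.ne', corTerm, hrel v hv]
        ring
    rw [Finset.sum_congr rfl e, Finset.sum_add_distrib, ← Finset.sum_mul, hsum, hn,
      ← hVdef, hfin, ← hβ, show (k : ℝ) + 2 + 2 = k + 4 by ring] at h
    have e' : ((k : ℝ) + 2) / (k + 4) * β ^ (((k : ℝ) + 2)⁻¹) =
        ((k : ℝ) + 2) * (β ^ (((k : ℝ) + 2)⁻¹) / ((k : ℝ) + 4)) := by ring
    linarith
  -- entropy
  have hS : 0 ≤ ∑ v ∈ s, c v * entTerm k (f v) (g v) := by
    have hlog : ∀ v ∈ s, Measurable fun t => Real.log (g v t) := fun v hv =>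
      Real.measurable_log.comp (htest v hv).continuous.measurable
    have hmarg : ∀ v ∈ s, Integrable (fun x : E =>
        Real.exp (-(gauge K x ^ 2) / 2) * Real.log (g v ⟪v, x⟫)) ∧
        -(∫ x : E, Real.exp (-(gauge K x ^ 2) / 2) * Real.log (g v ⟪v, x⟫)) / liftMass K =
          entTerm k (f v) (g v) + Real.log (2 * Real.pi * Real.exp 1) / 2 +
            Real.log β / ((k : ℝ) + 2) := by
      intro v hv
      obtain ⟨A, j, hA⟩ := (htest v hv).growth
      obtain ⟨hi, he⟩ := lift_marginal hK hball (hc v hv).2.1 (hlog v hv) hA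
      refine ⟨hi, ?_⟩
      have hA0 : 0 ≤ A := by simpa using (abs_nonneg _).trans (hA 0)
      have e1 : ∫ w in Ioi (0 : ℝ), w ^ (finrank ℝ E + 1) * Real.exp (-(w ^ 2) / 2) *
          ∫ x in K, Real.log (g v (w * ⟪v, x⟫)) = V * ∫ w in Ioi (0 : ℝ),
            w ^ (k + 3) * Real.exp (-(w ^ 2) / 2) *
              pavg (k + 1) (f v) fun t => Real.log (g v (w * t)) := by
        rw [← integral_const_mul]
        refine setIntegral_congr_fun measurableSet_Ioi fun w _ => ?_
        simp only [hfin, show k + 2 + 1 = k + 3 from rfl]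
        have hm : Measurable fun t => Real.log (g v (w * t)) :=
          (hlog v hv).comp (measurable_const_mul w)
        rw [havg v hv hm (C := A * (1 + |w|) ^ j)
          fun t ht => (hA _).trans (mul_le_mul_of_nonneg_left (pow_le_pow_left₀ (by positivity)
            (add_le_add le_rfl (by
              rw [abs_mul]; exact mul_le_of_le_one_right (abs_nonneg _) (abs_le.2 ht))) _) hA0)]
        ring
      have hrad := (lift_moments hK hball).2.2.2.2
      rw [hfin] at hrad
      rw [he, e1, ← hrad, entTerm, hrel v hv, ← hVdef]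
      have := (radial_pos (k + 2 + 1)).ne'
      have := hV.ne'
      field_simp
      ring
    have h := entropy_sum hK hball s c (fun v hv => ⟨(hc v hv).1, (hc v hv).2.1⟩) hid g
      (fun v hv => ⟨(htest v hv).continuous, (htest v hv).positive, (htest v hv).integrable,
        (htest v hv).mass⟩) fun v hv => (hmarg v hv).1
    rw [Finset.sum_congr rfl fun v hv => by rw [(hmarg v hv).2, add_assoc, mul_add],
      Finset.sum_add_distrib, ← Finset.sum_mul, hsum, hn, hfin, ← hVdef, ← hβ] at h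
    have e' : ((k : ℝ) + 2) * (Real.log (2 * Real.pi * Real.exp 1) / 2 +
        Real.log β / ((k : ℝ) + 2)) =
        ((k : ℝ) + 2) / 2 * Real.log (2 * Real.pi * Real.exp 1) + Real.log β := by
      field_simp
    linarith
  have e : ∑ v ∈ s, c v * (a₁ * dirTerm k (f v) (φ v) + a₂ * corTerm k (f v) (ψ v) (χ v) +
      a₃ * entTerm k (f v) (g v)) = a₁ * (∑ v ∈ s, c v * dirTerm k (f v) (φ v)) +
        a₂ * (∑ v ∈ s, c v * corTerm k (f v) (ψ v) (χ v)) +
          a₃ * ∑ v ∈ s, c v * entTerm k (f v) (g v) := by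
    simp only [Finset.mul_sum, ← Finset.sum_add_distrib]
    exact Finset.sum_congr rfl fun v _ => by ring
  rw [e]
  positivity

/-- The criterion in John position gives a step. -/
theorem stepHolds_of_criterion {k : ℕ} (hcrit : ProfileCriterion k) : StepHolds.{u} k := by
  intro E _ _ _ _ _ hfin R hR H K hK hs hfix
  have hn : 2 ≤ finrank ℝ E := by omega
  have : Nontrivial E := Module.nontrivial_of_finrank_eq_succ hfin
  obtain ⟨mu, nu, lam, hpos, hlem⟩ := hcrit
  obtain ⟨T, hball, s, c, hc, hsum, hid⟩ := exists_john_position hK hs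
  set K' := T '' K with hK'def
  have hK' : Body K' := hK.image T
  have hs' : -K' = K' := by
    rw [hK'def, ← Set.image_neg_eq_neg, image_image]
    conv_rhs => rw [← hs, ← Set.image_neg_eq_neg, image_image]
    simp
  have hrat : ratio K' = ratio K := ratio_image T hK
  have hfix' : ratio K' ≤ ratio (projBody K') := by
    rw [hK'def, ratio_projBody_image hK T]; rw [hrat]; exact hfix
  set β := volume.real K' / kappa (k + 2)
  set f := fun v t => vroot (hslice v K' t) / kappa (k + 1) ^ ((k + 1 : ℝ)⁻¹) with hf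
  have hprof := fun v (hv : v ∈ s) => contact_profile k hfin hK' hs' hball (hc v hv).2.1 (hc v hv).2.2
  have hrel : ∀ v ∈ s, relVolume k (f v) = β := fun v hv => by
    have hκ := kappa_pos (k + 1)
    have hκ2 := kappa_pos (k + 2)
    have hvol : volume.real K' = kappa (k + 1) * ∫ t in (-1)..1, f v t ^ (k + 1) :=
      (hprof v hv).2.2.2.2.2.2
    rw [relVolume, circ_eq, show β = volume.real K' / kappa (k + 2) from rfl, hvol]
    field_simp
  choose! φ ψ χ g htest himp using fun v (hv : v ∈ s) =>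
    hlem (f v) (hprof v hv).2.1 (hprof v hv).2.2.1 (hprof v hv).2.2.2.1 (hprof v hv).2.2.2.2.1
  have hcomb := combination_nonneg k hfin hK' hs' hball s c hc hsum hid (hpos β).1 (hpos β).2.1
    (hpos β).2.2 φ ψ χ g htest
  obtain ⟨v, hv, hgood⟩ : ∃ v ∈ s, 0 ≤ mu β * dirTerm k (f v) (φ v) +
      nu β * corTerm k (f v) (ψ v) (χ v) + lam β * entTerm k (f v) (g v) := by
    by_contra hno
    simp only [not_exists, not_and, not_le] at hno
    obtain ⟨w, hw, hcw⟩ : ∃ w ∈ s, c w ≠ 0 := by
      refine Finset.exists_ne_zero_of_sum_ne_zero ?_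
      rw [hsum]
      exact_mod_cast (by omega : finrank ℝ E ≠ 0)
    refine absurd hcomb (not_le.2 (Finset.sum_neg' (fun u hu => ?_) ⟨w, hw, ?_⟩))
    · exact mul_nonpos_of_nonneg_of_nonpos (hc u hu).1 (hno u hu).le
    · exact mul_neg_of_pos_of_neg ((hc w hw).1.lt_of_ne hcw.symm) (hno w hw)
  obtain ⟨hl1, hl2⟩ := himp v hv (by rw [hrel v hv]; exact hgood)
  obtain ⟨hne, -, -, -, -, -, hvol⟩ := hprof v hv
  have hv1 := (hc v hv).2.1
  have harea := fixed_symm hn hK' hs' hfix' hv1
  rw [(hc v hv).2.2, mul_one] at harea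
  have hsh := shadow_projBody k hR.le hv1 hfin (H v hv1) hK'.compact hK'.convex
    (hK'.zero_mem_interior hs') (by norm_num : (-1 : ℝ) ≤ 1) hne
  rw [harea] at hsh
  set ρ : ℝ := kappa (k + 1) ^ ((k + 1 : ℝ)⁻¹) with hρdef
  have hκ := kappa_pos (k + 1)
  have hρ : 0 < ρ := Real.rpow_pos_of_pos hκ _
  have hρp : ρ ^ (k + 1) = kappa (k + 1) := by
    rw [hρdef, show (k + 1 : ℝ) = ((k + 1 : ℕ) : ℝ) by push_cast; rfl]
    exact Real.rpow_inv_natCast_pow hκ.le (by omega)
  set A := ∫ t in (-1 : ℝ)..1, f v t ^ k with hA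
  set B := ∫ t in (-1 : ℝ)..1, f v t ^ (k + 1) with hB
  change volume.real K' = kappa (k + 1) * B at hvol
  have hBpos : 0 < B := by
    have h1 := hK'.volume_pos
    rw [hvol] at h1
    exact pos_of_mul_pos_right h1 hκ.le
  have hint' : ∫ t in (-1 : ℝ)..1, vroot (hslice v K' t) ^ k = ρ ^ k * A := by
    rw [hA, ← intervalIntegral.integral_const_mul]
    refine intervalIntegral.integral_congr fun t _ => ?_
    simp only [hf]
    rw [← mul_pow, mul_div_cancel₀ _ hρ.ne']
  rw [hint'] at hsh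
  have hr1 : volume.real (projBody K') / volume.real K' = ratio K' * volume.real K' ^ k := by
    rw [ratio, show finrank ℝ E - 1 = k + 1 by omega, pow_succ]
    have := hK'.volume_pos.ne'
    field_simp
  rw [hr1, hvol, hrat] at hsh
  have hmain : R * A ^ (k + 1) ≤ ratio K * B ^ k := by
    have e : R * (ρ ^ k * A) ^ (k + 1) = kappa (k + 1) ^ k * (R * A ^ (k + 1)) := by
      rw [mul_pow, ← pow_mul, mul_comm k, pow_mul, hρp]; ring
    rw [e, mul_pow] at hsh
    refine le_of_mul_le_mul_left ?_ (pow_pos hκ k)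
    linarith
  have hck1 := circ_pos (k + 1)
  have hBk : 0 < B ^ k := pow_pos hBpos k
  have hfirst : stepValue k R ≤ ratio K := by
    rw [stepValue, div_le_iff₀ (pow_pos hck1 k)]
    refine le_of_mul_le_mul_right ?_ hBk
    calc R * circ k ^ (k + 1) * B ^ k = R * (circ k ^ (k + 1) * B ^ k) := by ring
      _ ≤ R * (A ^ (k + 1) * circ (k + 1) ^ k) := mul_le_mul_of_nonneg_left hl1 hR.le
      _ = R * A ^ (k + 1) * circ (k + 1) ^ k := by ring
      _ ≤ ratio K * B ^ k * circ (k + 1) ^ k := mul_le_mul_of_nonneg_right hmain (by positivity)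
      _ = ratio K * circ (k + 1) ^ k * B ^ k := by ring
  refine ⟨hfirst, fun hle => ⟨T, hK', hball, ?_⟩⟩
  rw [hvol]
  congr 1
  refine hl2 (le_antisymm hl1 ?_)
  refine le_of_mul_le_mul_left ?_ hR
  have h2 : ratio K * circ (k + 1) ^ k ≤ R * circ k ^ (k + 1) := by
    rwa [stepValue, le_div_iff₀ (pow_pos hck1 k)] at hle
  calc R * (A ^ (k + 1) * circ (k + 1) ^ k) = R * A ^ (k + 1) * circ (k + 1) ^ k := by ring
    _ ≤ ratio K * B ^ k * circ (k + 1) ^ k := mul_le_mul_of_nonneg_right hmain (by positivity)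
    _ = ratio K * circ (k + 1) ^ k * B ^ k := by ring
    _ ≤ R * circ k ^ (k + 1) * B ^ k := mul_le_mul_of_nonneg_right h2 hBk.le
    _ = R * (circ k ^ (k + 1) * B ^ k) := by ring

/-- The sharp inequality up to the dimension where the steps are known. -/
theorem petty_le_steps (N : ℕ) (hstep : ∀ p, 1 ≤ p → p + 2 ≤ N → StepHolds.{u} p) :
    ∀ n, 2 ≤ n → n ≤ N → ∀ {E : Type u} [NormedAddCommGroup E] [InnerProductSpace ℝ E]
      [FiniteDimensional ℝ E] [MeasurableSpace E] [BorelSpace E], finrank ℝ E = n →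
      ∀ K : Set E, Body K → cPetty n ≤ ratio K := by
  intro n
  induction n using Nat.strong_induction_on with
  | _ n ih => ?_
  intro hn hN E _ _ _ _ _ hfin K hK
  rcases eq_or_lt_of_le hn with rfl | h2
  · rw [ratio, le_div_iff₀ (pow_pos hK.volume_pos _), hfin, cPetty_two,
      show (2 : ℕ) - 1 = 1 from rfl, pow_one]
    exact AllN.planar hfin hK.compact hK.convex
  obtain ⟨m, rfl⟩ : ∃ m, n = m + 3 := ⟨n - 3, by omega⟩
  have H : ∀ v : E, ‖v‖ = 1 → ∀ L : Set (ℝ ∙ v)ᗮ, IsCompact L → Convex ℝ L →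
      cPetty (m + 2) * volume.real L ^ (m + 1) ≤ volume.real (projBody L) := by
    intro v hv
    have : Fact (finrank ℝ E = (m + 2) + 1) := ⟨hfin⟩
    have hF : finrank ℝ (ℝ ∙ v)ᗮ = m + 2 :=
      Submodule.finrank_orthogonal_span_singleton (norm_ne_zero_iff.1 (by simp [hv]))
    exact hyperplane_hyp (fun L hL => ih (m + 2) (by omega) (by omega) (by omega)
      (E := (ℝ ∙ v)ᗮ) hF L hL) hF
  obtain ⟨K₀, hK₀, hs₀, hmin⟩ := exists_min (E := E) (by omega)
  have h0 := (hstep (m + 1) (by omega) (by omega) hfin _ (cPetty_pos _) H K₀ hK₀ hs₀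
    (hmin _ (body_projBody hK₀) (neg_projBody K₀))).1
  rw [stepValue_cPetty] at h0
  exact h0.trans ((hmin _ (body_projBody hK) (neg_projBody K)).trans
    (ratio_projBody_le (by omega) hK))

/-- Equality holds only at ellipsoids. -/
theorem petty_eq_steps (N : ℕ) (hstep : ∀ p, 1 ≤ p → p + 2 ≤ N → StepHolds.{u} p) {n : ℕ}
    (hn : 3 ≤ n) (hN : n ≤ N) (hfin : finrank ℝ E = n) {K : Set E} (hK : Body K)
    (heq : ratio K ≤ cPetty n) :
    ∃ (T : E ≃L[ℝ] E) (a : E), K = (fun x => a + x) '' (T '' Metric.closedBall 0 1) := by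
  obtain ⟨m, rfl⟩ : ∃ m, n = m + 3 := ⟨n - 3, by omega⟩
  have : Nontrivial E := Module.nontrivial_of_finrank_eq_succ hfin
  have H : ∀ v : E, ‖v‖ = 1 → ∀ L : Set (ℝ ∙ v)ᗮ, IsCompact L → Convex ℝ L →
      cPetty (m + 2) * volume.real L ^ (m + 1) ≤ volume.real (projBody L) := by
    intro v hv
    have : Fact (finrank ℝ E = (m + 2) + 1) := ⟨hfin⟩
    have hF : finrank ℝ (ℝ ∙ v)ᗮ = m + 2 :=
      Submodule.finrank_orthogonal_span_singleton (norm_ne_zero_iff.1 (by simp [hv]))
    exact hyperplane_hyp (fun L hL => petty_le_steps N hstep (m + 2) (by omega) (by omega)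
      (E := (ℝ ∙ v)ᗮ) hF L hL) hF
  have hle : ∀ L : Set E, Body L → cPetty (m + 3) ≤ ratio L := fun L hL =>
    petty_le_steps N hstep (m + 3) (by omega) hN hfin L hL
  obtain ⟨a, ha⟩ := fixed_translate (by omega) hK (heq.trans (hle _ (body_projBody hK)))
  set K₁ := (fun x => a + x) '' K with hK₁
  have hK₁b : Body K₁ := hK.translate a
  have hr : ratio K₁ = ratio K := ratio_translate a K
  obtain ⟨-, h2⟩ := hstep (m + 1) (by omega) (by omega) hfin _ (cPetty_pos _) H K₁ hK₁b ha
    ((hr.le.trans heq).trans (hle _ (body_projBody hK₁b)))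
  obtain ⟨T, hT, hball, hvol⟩ := h2 (by rw [stepValue_cPetty, hr]; exact heq)
  have hball' : T '' K₁ = Metric.closedBall 0 1 := by
    refine eq_ball hT hball (le_of_eq ?_)
    rw [hvol, circ_eq, hfin, mul_div_cancel₀ _ (kappa_pos _).ne']
  refine ⟨T.symm, -a, ?_⟩
  rw [← hball', image_image, hK₁, image_image, image_image]
  simp

/-- Petty's inequality with equality, in every dimension covered by the steps. -/
theorem petty_of_steps {n : ℕ} (hn : 3 ≤ n) (hstep : ∀ p, 1 ≤ p → p + 2 ≤ n → StepHolds.{u} p)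
    (hfin : finrank ℝ E = n) {K : Set E} (hK : Body K) :
    cPetty n * volume.real K ^ (n - 1) ≤ volume.real (projBody K) ∧
      (volume.real (projBody K) = cPetty n * volume.real K ^ (n - 1) ↔
        ∃ (T : E ≃L[ℝ] E) (a : E), K = (fun x => a + x) '' (T '' Metric.closedBall 0 1)) := by
  have h := petty_le_steps n hstep n (by omega) le_rfl hfin K hK
  have hr : ratio K = volume.real (projBody K) / volume.real K ^ (n - 1) := by rw [ratio, hfin]
  have hV : 0 < volume.real K ^ (n - 1) := pow_pos hK.volume_pos _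
  refine ⟨?_, fun he => petty_eq_steps n hstep hn le_rfl hfin hK ?_, ?_⟩
  · rwa [hr, le_div_iff₀ hV] at h
  · rw [hr, he, mul_div_assoc, div_self hV.ne', mul_one]
  · rintro ⟨T, a, rfl⟩
    have h1 := ratio_ellipsoid (by omega) T a
    rw [hr, hfin, div_eq_iff hV.ne'] at h1
    exact h1

end Vale.Agent.P237.Petty
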